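import Vale.Agent.P165.FP.Psi

/-!
# Last entrances, fibres, and the polynomial bound on the connections inside a ball

A connection into a set splits, at its last entrance, into two disjoint connections. Summed over
the fibres of a window of the free quotient this bounds the expected size of a cluster in a ball by
a polynomial in the radius.
-/

namespace Vale.Agent.P165.FP

open Finset FF

section Generic

variable {V ι : Type} [DecidableEq V] [Fintype ι] {nb : V → ι → V} {G : SimpleGraph V}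

omit [DecidableEq V] [Fintype ι] in
/-- Looking only at the edges of `F` costs nothing more than working on `F`. -/
theorem avg_inter_le {α : Type} [DecidableEq α] (E F : Finset α) {p : ℝ} (h0 : 0 ≤ p) (h1 : p ≤ 1)
    {f : Finset α → ℝ} (hf : Monotone f) : avg E p (fun η => f (η ∩ F)) ≤ avg F p f := by
  have e := avg_split (inter_subset_left (s₁ := E) (s₂ := F)) p f fun _ => (1 : ℝ)
  simp only [mul_one, avg_one] at e
  refine le_trans (le_of_eq ?_) (avg_mono_set (inter_subset_right (s₁ := E)) h0 h1 hf)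
  rw [← e]
  refine avg_congr _ _ fun η hη => congrArg f ?_
  ext x
  simp only [mem_inter]
  exact ⟨fun ⟨a, b⟩ => ⟨a, hη a, b⟩, fun ⟨a, _, b⟩ => ⟨a, b⟩⟩

theorem hit_singleton (S : Finset V) (p : ℝ) (a y : V) :
    hit nb S p a {y} = tauIn nb S p a y := by
  rw [hit, tauIn_eq]
  refine avg_congr _ _ fun η _ => congrArg ind (propext ?_)
  simp [FXZ.Hit]

/-- Split at the last entrance into `K`; `Z` contains every entry point. -/
theorem hit_last_entrance (hl : Labelling G nb) (S S' : Finset V) (K : Set V) (Z : Finset V)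
    {p : ℝ} (h0 : 0 ≤ p) (h1 : p ≤ 1) {a : V} (ha : a ∉ K)
    (hZ : ∀ x y, G.Adj x y → x ∉ K → y ∈ K → y ∈ S → y ∈ Z)
    (hS' : ∀ y ∈ S, y ∈ K → y ∈ S') (T : Set V) (hT : T ⊆ K) :
    hit nb S p a T ≤ ∑ z ∈ Z, tauIn nb S p a z * hit nb S' p z T := by
  classical
  have hinc : ∀ z, Inc fun η => FXZ.Hit T z (η ∩ inE nb S') :=
    fun z η η' h h' => inc_hit T z _ _ (inter_subset_inter h le_rfl) h'
  have hpt : ∀ η, η ⊆ inE nb S → ind (FXZ.Hit T a η) ≤
      ∑ z ∈ Z, ind (box (fun L => cl L a z) (fun L => FXZ.Hit T z (L ∩ inE nb S')) η) := by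
    intro η hη
    by_cases hc : FXZ.Hit T a η
    swap
    · rw [show ind (FXZ.Hit T a η) = 0 from if_neg hc]
      exact sum_nonneg fun _ _ => ind_nonneg _
    obtain ⟨t, ht, hat⟩ := hc
    obtain ⟨π, hπ⟩ := SimpleGraph.Reachable.exists_isPath (SimpleGraph.Reachable.symm hat)
    have hG : ∀ e ∈ π.edges, e ∈ η := fun e he => by
      have := π.edges_subset_edgeSet he
      rw [SimpleGraph.edgeSet_fromEdgeSet] at this
      exact this.1
    rcases exit_split K π (hT ht) with hin | ⟨z, b, w1, hzb, w2, hz, hb, hw1, hed, -⟩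
    · exact absurd (hin a π.end_mem_support) ha
    have hzS : z ∈ S := inE_mem (hη (hG s(z, b) (by simp [hed]))) (Sym2.mem_mk_left z b)
    have hzZ : z ∈ Z :=
      hZ b z ((inE_iff hl).1 (hη (hG s(z, b) (by simp [hed])))).1.symm hb hz hzS
    refine le_trans ?_ (single_le_sum (fun _ _ => ind_nonneg _) hzZ)
    refine ind_mono fun _ => ?_
    have hnd := hπ.isTrail.edges_nodup
    rw [hed, List.nodup_append] at hnd
    refine ⟨insert s(z, b) w2.edges.toFinset, w1.edges.toFinset, ?_, ?_, ?_, ?_, ?_⟩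
    · exact insert_subset (hG _ (by simp [hed]))
        fun e he => hG e (by simp [hed, List.mem_toFinset.1 he])
    · exact fun e he => hG e (by simp [hed, List.mem_toFinset.1 he])
    · refine disjoint_left.2 fun e he he' => ?_
      rw [mem_insert, List.mem_toFinset, ← List.mem_cons] at he
      exact hnd.2.2 e (List.mem_toFinset.1 he') e he rfl
    · exact ((cl_edge hzb.ne (mem_insert_self _ _)).trans
        (cl_of_walk w2 fun e he => mem_insert_of_mem (List.mem_toFinset.2 he))).symm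
    · refine ⟨t, ht, (cl_of_walk w1 fun e he => ?_).symm⟩
      have heη := hη (hG e (by simp [hed, he]))
      exact mem_inter.2 ⟨List.mem_toFinset.2 he, (inE_iff hl).2 ⟨((inE_iff hl).1 heη).1,
        fun v hv => hS' v (inE_mem heη hv)
          (hw1 v (SimpleGraph.Walk.mem_support_of_mem_edges he hv))⟩⟩
  rw [hit]
  refine (avg_mono _ h0 h1 hpt).trans ?_
  rw [avg_sum]
  refine sum_le_sum fun z _ => ?_
  refine (bk _ h0 h1 _ _ (inc_cl a z) (hinc z)).trans (mul_le_mul (le_of_eq (tauIn_eq _ _ _ _).symm)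
    (avg_inter_le _ _ h0 h1 (f := fun L => ind (FXZ.Hit T z L)) (monotone_ind (inc_hit T z)))
    (avg_nonneg _ h0 h1 fun _ _ => ind_nonneg _) (tauIn_nonneg S h0 h1 a z))

/-- The same for one target point. -/
theorem tau_last_entrance (hl : Labelling G nb) (S S' : Finset V) (K : Set V) (Z : Finset V)
    {p : ℝ} (h0 : 0 ≤ p) (h1 : p ≤ 1) {a : V} (ha : a ∉ K)
    (hZ : ∀ x y, G.Adj x y → x ∉ K → y ∈ K → y ∈ S → y ∈ Z)
    (hS' : ∀ y ∈ S, y ∈ K → y ∈ S') {y : V} (hy : y ∈ K) :
    tauIn nb S p a y ≤ ∑ z ∈ Z, tauIn nb S p a z * tauIn nb S' p z y := by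
  have h := hit_last_entrance hl S S' K Z h0 h1 ha hZ hS' {y} (Set.singleton_subset_iff.2 hy)
  simpa only [hit_singleton] using h

end Generic

namespace Env

open Base

variable {Γ O ι α : Type} [Group Γ] [Fintype ι] [DecidableEq α] [Fintype α] [Fintype O]
  (E : Env Γ O ι α)

/-- The kernel bounds every fibre of a ball. -/
theorem card_fibre (a : Γ × O) (R : ℕ) (q : FreeGroup α) :
    ((E.cyl a R).filter fun y => E.pos y = q).card ≤ Fintype.card O * E.kerCount (2 * R) := by
  classical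
  rcases ((E.cyl a R).filter fun y => E.pos y = q).eq_empty_or_nonempty with he | ⟨y₀, hy₀⟩
  · simp [he]
  have hfin : {g | E.π g = 1 ∧ E.len g ≤ 2 * R}.Finite :=
    (E.len_finite (2 * R)).subset fun g hg => hg.2
  rw [kerCount, Set.ncard_eq_toFinset_card _ hfin, ← card_univ (α := O), mul_comm, ← card_product]
  refine card_le_card_of_injOn (fun y => (y₀.1⁻¹ * y.1, y.2)) (fun y hy => ?_)
    (fun x _ y _ h => Prod.ext (mul_left_cancel (Prod.ext_iff.1 h).1) (Prod.ext_iff.1 h).2)
  rw [mem_coe, mem_filter, E.mem_cyl] at hy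
  rw [mem_filter, E.mem_cyl] at hy₀
  refine mem_product.2 ⟨hfin.mem_toFinset.2 ⟨?_, ?_⟩, mem_univ _⟩
  · rw [← E.pos_diff, hy.2, hy₀.2, inv_mul_cancel]
  · have h1 := E.len_mul (y₀.1⁻¹ * a.1) (a.1⁻¹ * y.1)
    rw [mul_assoc, mul_inv_cancel_left] at h1
    have h2 : E.len (y₀.1⁻¹ * a.1) ≤ R := by
      rw [← E.len_inv, mul_inv_rev, inv_inv]; exact hy₀.1
    have h3 := hy.1
    show E.len (y₀.1⁻¹ * y.1) ≤ 2 * R
    omega

/-- The fibres of a ball, as a real bound. -/
theorem card_fibre_le (a : Γ × O) (R : ℕ) (q : FreeGroup α) :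
    (((E.cyl a R).filter fun y => E.pos y = q).card : ℝ) ≤
      ((Fintype.card O * E.Cg * 2 ^ E.deg : ℕ) : ℝ) * ((R : ℝ) + 1) ^ E.deg := by
  have h : ((E.cyl a R).filter fun y => E.pos y = q).card ≤
      Fintype.card O * E.Cg * 2 ^ E.deg * (R + 1) ^ E.deg :=
    calc _ ≤ Fintype.card O * E.kerCount (2 * R) := E.card_fibre a R q
      _ ≤ Fintype.card O * (E.Cg * (2 * R + 1) ^ E.deg) := Nat.mul_le_mul le_rfl (E.growth _)
      _ ≤ Fintype.card O * (E.Cg * (2 * (R + 1)) ^ E.deg) := by gcongr; omega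
      _ = _ := by rw [mul_pow]; ring
  exact_mod_cast h

variable [DecidableEq Γ] [DecidableEq O]

/-- The expected cluster in the window over one letter, seen from a point near its tip, given the
code bound for windows. -/
theorem side_sum_le {p : ℝ} (h0 : 0 ≤ p) (h1 : p ≤ 1) (o : O) (R : ℕ) (m : α × Bool)
    {z : Γ × O} {Cc : ℝ}
    (hcode : ∀ W : Finset (List (α × Bool)), PrefixFree W → (∀ v ∈ W, Red v ∧ v.head? = some m) →
      ∑ v ∈ W, hit E.nb (E.side (1, o) R m) p z (E.above 1 v) ≤ Cc) :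
    ∑ y ∈ E.side (1, o) R m, tauIn E.nb (E.side (1, o) R m) p z y ≤
      ((Fintype.card O * E.Cg * 2 ^ E.deg : ℕ) : ℝ) * ((R : ℝ) + 1) ^ E.deg *
        (((E.L * R + 1 : ℕ) : ℝ) * Cc) := by
  classical
  set U := E.side (1, o) R m
  set N : ℝ := ((Fintype.card O * E.Cg * 2 ^ E.deg : ℕ) : ℝ) * ((R : ℝ) + 1) ^ E.deg
  set J := U.image E.pos
  have hlen : ∀ u ∈ J, u.toWord.length ∈ range (E.L * R + 1) ∧
      u.toWord.head? = some m := by
    intro u hu
    obtain ⟨y, hy, rfl⟩ := mem_image.1 hu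
    rw [show U = (E.cyl (1, o) R).filter fun x => x ∈ E.above 1 [m] by
      simp [U, side], mem_filter, E.mem_cyl, mem_above_one] at hy
    refine ⟨mem_range.2 (Nat.lt_succ_of_le ?_), ?_⟩
    · have := E.lip y.1
      rw [inv_one, one_mul] at hy
      exact le_trans this (Nat.mul_le_mul le_rfl hy.1)
    · obtain ⟨t, ht⟩ := hy.2
      rw [← ht]; rfl
  have hU : U ⊆ E.cyl (1, o) R := by
    intro y hy
    rw [show U = (E.cyl (1, o) R).filter fun x => x ∈ E.above 1 [m] by simp [U, side]] at hy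
    exact (mem_filter.1 hy).1
  calc ∑ y ∈ U, tauIn E.nb U p z y
      = ∑ u ∈ J, ∑ y ∈ U.filter (fun y => E.pos y = u), tauIn E.nb U p z y :=
        (sum_fiberwise_of_maps_to (fun y hy => mem_image_of_mem _ hy) _).symm
    _ ≤ ∑ u ∈ J, N * hit E.nb U p z (E.above 1 u.toWord) := sum_le_sum fun u _ => by
        refine (sum_le_card_nsmul _ _ (hit E.nb U p z (E.above 1 u.toWord)) fun y hy => ?_).trans ?_
        · rw [← hit_singleton]
          refine hit_mono E.hl (Finset.Subset.refl U)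
            (Set.singleton_subset_iff.2 (E.mem_above_one |>.2 ?_)) h0 h1 z
          rw [(mem_filter.1 hy).2]
        · rw [nsmul_eq_mul]
          refine mul_le_mul_of_nonneg_right (le_trans ?_ (E.card_fibre_le (1, o) R u))
            (hit_nonneg _ h0 h1 _ _)
          exact_mod_cast card_le_card (filter_subset_filter _ hU)
    _ = N * ∑ u ∈ J, hit E.nb U p z (E.above 1 u.toWord) := by rw [mul_sum]
    _ ≤ N * (((E.L * R + 1 : ℕ) : ℝ) * Cc) := by
        refine mul_le_mul_of_nonneg_left ?_ (by positivity)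
        rw [← sum_fiberwise_of_maps_to (t := range (E.L * R + 1))
          (g := fun u : FreeGroup α => u.toWord.length) fun u hu => (hlen u hu).1]
        refine (sum_le_card_nsmul _ _ Cc fun j _ => ?_).trans (by rw [card_range, nsmul_eq_mul])
        rw [← sum_image (g := FreeGroup.toWord) (f := fun v => hit E.nb U p z (E.above 1 v))
          fun x _ y _ h => FreeGroup.toWord_injective h]
        refine hcode _ ?_ ?_
        · intro v hv w hw hpre
          obtain ⟨x, hx, rfl⟩ := mem_image.1 hv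
          obtain ⟨y, hy, rfl⟩ := mem_image.1 hw
          exact hpre.eq_of_length ((mem_filter.1 hx).2.trans (mem_filter.1 hy).2.symm)
        · intro v hv
          obtain ⟨x, hx, rfl⟩ := mem_image.1 hv
          exact ⟨red_toWord x, (hlen x (mem_filter.1 hx).1).2⟩

/-- The expected cluster of a point inside its ball is polynomial in the radius, given the code
bound for windows seen from near their tips. -/
theorem exists_X_of_code {p : ℝ} (h0 : 0 ≤ p) (h1 : p ≤ 1) {Cc : ℝ} (hCc : 0 ≤ Cc)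
    (hcode : ∀ (o : O) (R : ℕ) (m : α × Bool) (z : Γ × O), z ∈ E.above 1 [m] →
      (E.pos z).norm ≤ E.L + 1 → ∀ W : Finset (List (α × Bool)), PrefixFree W →
        (∀ v ∈ W, Red v ∧ v.head? = some m) →
          ∑ v ∈ W, hit E.nb (E.side (1, o) R m) p z (E.above 1 v) ≤ Cc) :
    ∃ C : ℝ, 0 ≤ C ∧ ∀ (R : ℕ) (a : Γ × O),
      ∑ y ∈ E.cyl a R, tauIn E.nb (E.cyl a R) p a y ≤ C * ((R : ℝ) + 1) ^ (2 * E.deg + 1) := by
  classical
  set K : ℝ := ((Fintype.card O * E.Cg * 2 ^ E.deg : ℕ) : ℝ)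
  set nF : ℝ := ((ballF (α := α) (E.L + 1)).card : ℝ)
  refine ⟨K + Fintype.card (α × Bool) * (nF * K * (K * ((E.L + 1) * Cc))), by positivity,
    fun R a => ?_⟩
  -- move the start to the anchor
  obtain ⟨g, o⟩ := a
  have himg : E.cyl (g, o) R = (E.cyl (1, o) R).image (tr g) := by
    ext x
    rw [mem_image, E.mem_cyl]
    refine ⟨fun h => ⟨(g⁻¹ * x.1, x.2), ?_, by simp [tr]⟩, ?_⟩
    · rw [E.mem_cyl]; simpa using h
    · rintro ⟨y, hy, rfl⟩
      rw [E.mem_cyl] at hy
      simpa [tr, mul_assoc] using hy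
  have hshift : ∑ y ∈ E.cyl (g, o) R, tauIn E.nb (E.cyl (g, o) R) p (g, o) y
      = ∑ y ∈ E.cyl (1, o) R, tauIn E.nb (E.cyl (1, o) R) p (1, o) y := by
    have hinj : Set.InjOn (tr g) ↑(E.cyl ((1 : Γ), o) R) :=
      fun x _ y _ h => (trIso E.hinv g).injective h
    rw [himg, sum_image hinj]
    refine sum_congr rfl fun y _ => ?_
    have h := tauIn_map E.hl (trIso E.hinv g) (E.cyl (1, o) R) p (1, o) y
    rw [show trIso E.hinv g (1, o) = (g, o) by
      show tr g ((1 : Γ), o) = (g, o)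
      simp [tr]] at h
    exact h
  rw [hshift]
  set U := E.cyl (1, o) R
  set a : Γ × O := (1, o)
  have hpa : E.pos a = 1 := map_one _
  have hN1 : ∀ q, (((U.filter fun y => E.pos y = q).card : ℝ)) ≤ K * ((R : ℝ) + 1) ^ E.deg :=
    fun q => E.card_fibre_le a R q
  have hR1 : (1 : ℝ) ≤ (R : ℝ) + 1 := by linarith [(Nat.cast_nonneg R : (0 : ℝ) ≤ R)]
  have hpow : ((R : ℝ) + 1) ^ E.deg ≤ ((R : ℝ) + 1) ^ (2 * E.deg + 1) :=
    pow_le_pow_right₀ hR1 (by omega)
  have hK0 : 0 ≤ K := Nat.cast_nonneg _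
  -- the part over one letter
  have hside : ∀ m : α × Bool, ∑ y ∈ E.side a R m, tauIn E.nb U p a y
      ≤ nF * K * (K * ((E.L + 1) * Cc)) * ((R : ℝ) + 1) ^ (2 * E.deg + 1) := by
    intro m
    have hmemS : ∀ y, y ∈ E.side a R m ↔ y ∈ U ∧ y ∈ E.above 1 [m] := fun y => by
      simp [side, U, a]
    set Z := U.filter fun z => z ∈ E.above 1 [m] ∧ (E.pos z).norm ≤ E.L + 1
    have ha : a ∉ E.above 1 [m] := by
      rw [mem_above_one, hpa, FreeGroup.toWord_one, List.prefix_nil]
      simp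
    have hZ : ∀ x y, E.G.Adj x y → x ∉ E.above 1 [m] → y ∈ E.above 1 [m] → y ∈ U → y ∈ Z := by
      intro x y hxy hx hy hyU
      refine mem_filter.2 ⟨hyU, hy, ?_⟩
      have h := E.cross hxy hx hy
      rw [one_mul] at h
      have h2 := FreeGroup.norm_mul_le (FreeGroup.mk [m]) ((FreeGroup.mk [m])⁻¹ * E.pos y)
      rw [mul_inv_cancel_left] at h2
      have h3 : (FreeGroup.mk [m]).norm ≤ 1 := FreeGroup.norm_mk_le
      omega
    have hcardZ : (Z.card : ℝ) ≤ nF * (K * ((R : ℝ) + 1) ^ E.deg) := by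
      rw [card_eq_sum_card_fiberwise (t := ballF (E.L + 1)) (f := E.pos)
        fun z hz => mem_coe.2 (mem_ballF_iff.2 (mem_filter.1 hz).2.2), Nat.cast_sum]
      refine (sum_le_card_nsmul _ _ (K * ((R : ℝ) + 1) ^ E.deg) fun q _ => le_trans ?_ (hN1 q)).trans
        (by rw [nsmul_eq_mul])
      exact_mod_cast card_le_card (filter_subset_filter _ (filter_subset _ _))
    calc ∑ y ∈ E.side a R m, tauIn E.nb U p a y
        ≤ ∑ y ∈ E.side a R m, ∑ z ∈ Z, tauIn E.nb U p a z * tauIn E.nb (E.side a R m) p z y :=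
          sum_le_sum fun y hy => tau_last_entrance E.hl U (E.side a R m) (E.above 1 [m]) Z h0 h1 ha
            hZ (fun y hyU hyK => (hmemS y).2 ⟨hyU, hyK⟩) ((hmemS y).1 hy).2
      _ = ∑ z ∈ Z, tauIn E.nb U p a z * ∑ y ∈ E.side a R m, tauIn E.nb (E.side a R m) p z y := by
          rw [sum_comm]; simp only [mul_sum]
      _ ≤ ∑ _z ∈ Z, 1 * (K * ((R : ℝ) + 1) ^ E.deg * (((E.L * R + 1 : ℕ) : ℝ) * Cc)) :=
          sum_le_sum fun z hz => mul_le_mul (tauIn_le_one U h0 h1 a z)
            (E.side_sum_le h0 h1 o R m fun W hW hW' =>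
              hcode o R m z (mem_filter.1 hz).2.1 (mem_filter.1 hz).2.2 W hW hW')
            (sum_nonneg fun y _ => tauIn_nonneg _ h0 h1 z y) zero_le_one
      _ = (Z.card : ℝ) * (K * ((R : ℝ) + 1) ^ E.deg * (((E.L * R + 1 : ℕ) : ℝ) * Cc)) := by
          rw [sum_const, nsmul_eq_mul, one_mul]
      _ ≤ nF * (K * ((R : ℝ) + 1) ^ E.deg) *
            (K * ((R : ℝ) + 1) ^ E.deg * (((E.L : ℝ) + 1) * ((R : ℝ) + 1) * Cc)) := by
          refine mul_le_mul hcardZ (mul_le_mul_of_nonneg_left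
            (mul_le_mul_of_nonneg_right ?_ hCc) (by positivity)) (by positivity) (by positivity)
          push_cast
          nlinarith [(Nat.cast_nonneg E.L : (0 : ℝ) ≤ E.L), (Nat.cast_nonneg R : (0 : ℝ) ≤ R)]
      _ = _ := by rw [pow_succ, two_mul, pow_add]; ring
  -- every point is over the origin or over a letter
  have hsplit : ∀ y ∈ U, tauIn E.nb U p a y ≤ (if E.pos y = 1 then (1 : ℝ) else 0) +
      ∑ m : α × Bool, (if y ∈ E.above 1 [m] then tauIn E.nb U p a y else 0) := by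
    intro y _
    have hnn : ∀ m : α × Bool, 0 ≤ (if y ∈ E.above 1 [m] then tauIn E.nb U p a y else 0) := fun m => by
      split_ifs
      exacts [tauIn_nonneg U h0 h1 a y, le_rfl]
    rcases hw : (E.pos y).toWord with _ | ⟨m, t⟩
    · rw [if_pos (FreeGroup.toWord_eq_nil_iff.1 hw)]
      linarith [tauIn_le_one (nb := E.nb) U h0 h1 a y, sum_nonneg fun m (_ : m ∈ univ) => hnn m]
    · have h := single_le_sum (fun m _ => hnn m) (mem_univ m)
      have hmem : y ∈ E.above 1 [m] := by
        rw [mem_above_one, hw]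
        exact List.cons_prefix_cons.2 ⟨rfl, List.nil_prefix⟩
      rw [if_pos hmem] at h
      have : (0 : ℝ) ≤ if E.pos y = 1 then (1 : ℝ) else 0 := by split_ifs <;> norm_num
      linarith
  refine (sum_le_sum hsplit).trans ?_
  rw [sum_add_distrib, sum_comm, sum_boole, add_mul]
  refine add_le_add ((hN1 1).trans (mul_le_mul_of_nonneg_left hpow hK0)) ?_
  rw [mul_assoc, ← card_univ (α := α × Bool), ← nsmul_eq_mul]
  refine sum_le_card_nsmul _ _ _ fun m _ => ?_
  rw [← sum_filter]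
  refine le_trans (le_of_eq ?_) (hside m)
  exact sum_congr (by ext; simp [side, U, a]) fun _ _ => rfl

end Env

end Vale.Agent.P165.FP
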