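import Vale.Agent.P165.FP.Join

/-!
# The bound on prefix-free codes and its exponent
-/

namespace Vale.Agent.P165.FP

open Finset FF FreeGroup Filter Topology

namespace Base

variable {Γ O ι α : Type} [Group Γ] [Fintype ι] [DecidableEq α] [Fintype α] [Fintype O]
  [DecidableEq Γ] [DecidableEq O] (E : Base Γ O ι α) {p : ℝ}

/-- Every power of a code sum is bounded by the sum over a code. -/
theorem exists_power (hp : 0 ≤ p) (hp1 : p ≤ 1) {θ : ℝ} (hθ : 0 ≤ θ) (ρ : ℕ)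
    {W : Finset (List (α × Bool))} (hW : PrefixFree W) (hs : ∀ v ∈ W, E.Strict v) (i : ℕ) :
    ∃ (ρ' : ℕ) (W' : Finset (List (α × Bool))), PrefixFree W' ∧ (∀ v ∈ W', E.Strict v) ∧
      (E.c₁ p ^ θ * ∑ v ∈ W, E.Psi ρ p v ^ θ) ^ (i + 1)
        ≤ E.c₁ p ^ θ * ∑ v ∈ W', E.Psi ρ' p v ^ θ := by
  induction i with
  | zero => exact ⟨ρ, W, hW, hs, le_of_eq (pow_one _)⟩
  | succ i ih =>
    obtain ⟨ρ', W', hW', hs', hle⟩ := ih
    have hc : 0 ≤ E.c₁ p := div_nonneg (pow_nonneg hp _) two_pos.le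
    have hinj : Set.InjOn (fun q : List (α × Bool) × List (α × Bool) => E.join q.1 q.2) ↑(W ×ˢ W') := by
      rintro ⟨u, v⟩ hq ⟨u', v'⟩ hq' h
      rw [mem_coe, mem_product] at hq hq'
      obtain ⟨rfl, hv⟩ := E.join_prefix hW hq.1 hq'.1
        (show E.join u v <+: E.join u' v' by rw [show E.join u v = E.join u' v' from h])
      exact Prod.ext rfl (hW' v hq.2 v' hq'.2 hv)
    refine ⟨ρ + E.blockLen + ρ', (W ×ˢ W').image fun q => E.join q.1 q.2, ?_, ?_, ?_⟩
    · intro x hx y hy hxy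
      obtain ⟨⟨u, v⟩, hq, rfl⟩ := mem_image.1 hx
      obtain ⟨⟨u', v'⟩, hq', rfl⟩ := mem_image.1 hy
      rw [mem_product] at hq hq'
      obtain ⟨rfl, hv⟩ := E.join_prefix hW hq.1 hq'.1 hxy
      rw [hW' v hq.2 v' hq'.2 hv]
    · intro x hx
      obtain ⟨⟨u, v⟩, hq, rfl⟩ := mem_image.1 hx
      rw [mem_product] at hq
      exact E.strict_join (hs u hq.1) (hs' v hq.2)
    · rw [pow_succ', sum_image hinj, sum_product]
      refine (mul_le_mul_of_nonneg_left hle (mul_nonneg (Real.rpow_nonneg hc _)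
        (sum_nonneg fun v _ => Real.rpow_nonneg (E.psi_nonneg ρ hp hp1 v) _))).trans ?_
      rw [mul_mul_mul_comm, mul_assoc]
      refine mul_le_mul_of_nonneg_left ?_ (Real.rpow_nonneg hc _)
      rw [sum_mul_sum, mul_sum]
      refine sum_le_sum fun u hu => ?_
      rw [mul_sum]
      refine sum_le_sum fun v hv => ?_
      have hu0 := E.psi_nonneg ρ hp hp1 u
      have hv0 := E.psi_nonneg ρ' hp hp1 v
      rw [← Real.mul_rpow hu0 hv0, ← Real.mul_rpow hc (mul_nonneg hu0 hv0), ← mul_assoc]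
      exact Real.rpow_le_rpow (mul_nonneg (mul_nonneg hc hu0) hv0)
        (E.psi_join hp hp1 ρ ρ' (hs u hu) (hs' v hv)) hθ

theorem crit_of_witness (hp : 0 < p) (hp1 : p ≤ 1) (hw : Witness E.nb p) : E.Crit p := by
  classical
  obtain ⟨X, hX⟩ := susceptibility E.hl E.hinv hp.le hp1 hw
  refine ⟨hp, hp1, fun ρ W hW hs => ?_⟩
  set B : ℝ := ((ballF (α := α) E.L).card : ℝ)
  have key : ∀ (ρ : ℕ) (W : Finset (List (α × Bool))), (∀ v ∈ W, E.Strict v) →
      ∑ v ∈ W, E.Psi ρ p v ≤ B * X := by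
    intro ρ W hs
    let Z : List (α × Bool) → Finset (Γ × O) := fun v =>
      (E.om ρ).filter fun y => ((FreeGroup.mk v)⁻¹ * E.pos y).norm < E.L
    set τ : Γ × O → ℝ := fun y => tauIn E.nb (E.om ρ) p (1, E.o₁) y
    have hτ : ∀ y, 0 ≤ τ y := fun y => FF.tauIn_nonneg (nb := E.nb) (E.om ρ) hp.le hp1 _ y
    have h1 : ∀ v ∈ W, E.Psi ρ p v ≤ ∑ y ∈ Z v, τ y := by
      intro v hv
      simp only [τ, FF.tauIn_eq, ← avg_sum, Psi, hit]
      refine avg_mono _ hp.le hp1 fun η hη => ?_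
      by_cases hh : FXZ.Hit (E.above 1 v) ((1 : Γ), E.o₁) η
      swap
      · exact le_trans (le_of_eq (if_neg hh)) (sum_nonneg fun _ _ => ind_nonneg _)
      obtain ⟨t, ht, ⟨π⟩⟩ := hh
      rcases exit_split ((E.above 1 v)ᶜ) π (E.not_mem_above_one (hs v hv).2.1 E.o₁) with
        hin | ⟨a, b, w1, hab, w2, ha, hb, -, hed, hsup⟩
      · exact absurd ht (hin t π.end_mem_support)
      have hbη : s(a, b) ∈ η := by
        have := π.edges_subset_edgeSet (show s(a, b) ∈ π.edges by simp [hed])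
        rw [SimpleGraph.edgeSet_fromEdgeSet] at this
        exact this.1
      obtain ⟨hG, hS⟩ := (inE_iff E.hl).1 (hη hbη)
      have hz : b ∈ Z v := mem_filter.2 ⟨hS b (Sym2.mem_mk_right a b), by
        simpa using E.cross hG ha (by simpa using hb)⟩
      refine le_trans (ind_le_one _) (le_trans ?_ (single_le_sum
        (f := fun y => ind (cl η ((1 : Γ), E.o₁) y)) (fun _ _ => ind_nonneg _) hz))
      exact le_of_eq (if_pos (w1.reachable.trans hab.reachable : cl η _ b)).symm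
    refine (sum_le_sum h1).trans ?_
    have hswap : ∑ v ∈ W, ∑ y ∈ Z v, τ y
        = ∑ y ∈ E.om ρ, ((W.filter fun v => y ∈ Z v).card : ℝ) * τ y := by
      rw [sum_comm' (t' := E.om ρ) (s' := fun y => W.filter fun v => y ∈ Z v)
        (fun v y => ⟨fun h => ⟨mem_filter.2 h, (mem_filter.1 h.2).1⟩, fun h => mem_filter.1 h.1⟩)]
      exact sum_congr rfl fun y _ => by rw [sum_const, nsmul_eq_mul]
    rw [hswap]
    refine (sum_le_sum (g := fun y => B * τ y) fun y _ => mul_le_mul_of_nonneg_right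
      (Nat.cast_le.2 ?_) (hτ y)).trans ?_
    · refine card_le_card_of_injOn (fun v => (FreeGroup.mk v)⁻¹ * E.pos y) (fun v hv => ?_) ?_
      · exact mem_coe.2 (mem_ballF (mem_filter.1 (mem_filter.1 hv).2).2.le)
      · intro v hv v' hv' h
        have e : FreeGroup.mk v = FreeGroup.mk v' := inv_injective (mul_right_cancel h)
        rw [← toWord_mk' (hs v (mem_filter.1 hv).1).1, e, toWord_mk' (hs v' (mem_filter.1 hv').1).1]
    · rw [← mul_sum]
      exact mul_le_mul_of_nonneg_left (hX _ _ _) (Nat.cast_nonneg _)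
  by_contra hlt
  push Not at hlt
  have hgrow := (tendsto_pow_atTop_atTop_of_one_lt hlt).eventually (eventually_gt_atTop (E.c₁ p * (B * X)))
  obtain ⟨N, hN⟩ := eventually_atTop.1 hgrow
  obtain ⟨ρ', W', -, hs', hle⟩ := E.exists_power hp.le hp1 zero_le_one ρ hW hs N
  have h2 := hN (N + 1) (Nat.le_succ N)
  have h3 := mul_le_mul_of_nonneg_left (key ρ' W' hs') (E.c₁_pos hp).le
  simp only [Real.rpow_one] at hle h2
  linarith

theorem isClosed_bound : IsClosed {p : ℝ | E.Bound p 1} := by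
  simp only [Bound, Real.rpow_one, Set.ofPred_forall]
  exact isClosed_iInter fun ρ => isClosed_iInter fun W => isClosed_iInter fun _ =>
    isClosed_iInter fun _ => isClosed_le
      (E.continuous_c₁.mul (continuous_finsetSum _ fun v _ => hit_continuous _ _ _)) continuous_const

/-- The bound passes to larger exponents. -/
theorem bound_mono (hp : 0 ≤ p) (hp1 : p ≤ 1) {θ θ' : ℝ} (hθ : 0 ≤ θ) (h : θ ≤ θ')
    (hB : E.Bound p θ) : E.Bound p θ' := by
  intro ρ W hW hs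
  have hc : 0 ≤ E.c₁ p := div_nonneg (pow_nonneg hp _) two_pos.le
  refine le_trans (mul_le_mul (Real.rpow_le_rpow_of_exponent_ge' hc (E.c₁_le_one hp hp1) hθ h)
    (sum_le_sum fun v _ => Real.rpow_le_rpow_of_exponent_ge' (E.psi_nonneg ρ hp hp1 v)
      (E.psi_le_one ρ hp hp1 v) hθ h)
    (sum_nonneg fun v _ => Real.rpow_nonneg (E.psi_nonneg ρ hp hp1 v) _) (Real.rpow_nonneg hc _))
    (hB ρ W hW hs)

/-- The bound fails for small exponents. -/
theorem exists_not_bound (hp : 0 < p) (hp1 : p ≤ 1) : ∃ θ : ℝ, 0 < θ ∧ ¬ E.Bound p θ := by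
  classical
  set W : Finset (List (α × Bool)) :=
    ((univ : Finset (α × Bool)).erase E.a₀).image fun l => [l] with hW
  have hinj : Function.Injective fun l : α × Bool => [l] := fun a b h => by simpa using h
  have hcard : 3 ≤ W.card := by
    rw [hW, card_image_of_injective _ hinj, card_erase_of_mem (mem_univ _), card_univ,
      Fintype.card_prod, Fintype.card_bool]
    have := E.rank
    omega
  set f : ℝ → ℝ := fun θ => E.c₁ p ^ θ * ∑ v ∈ W, E.Psi E.blockLen p v ^ θ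
  have hf : Continuous f := (Real.continuous_const_rpow (E.c₁_pos hp).ne').mul
    (continuous_finsetSum _ fun v hv => by
      obtain ⟨l, hl, rfl⟩ := mem_image.1 hv
      exact Real.continuous_const_rpow (E.psi_pos (mem_erase.1 hl).1 hp hp1).ne')
  have h0 : 1 < f 0 := by
    simp only [f, Real.rpow_zero, sum_const, nsmul_eq_mul, mul_one, one_mul]
    exact_mod_cast (by omega : 1 < W.card)
  obtain ⟨ε, hε, hb⟩ := Metric.eventually_nhds_iff.1 ((hf.tendsto 0).eventually_const_lt h0)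
  refine ⟨ε / 2, half_pos hε, fun hB => not_le.2 (hb (y := ε / 2) ?_) (hB E.blockLen W ?_ ?_)⟩
  · rw [Real.dist_eq, sub_zero, abs_of_pos (half_pos hε)]; linarith
  · intro u hu v hv huv
    obtain ⟨l, -, rfl⟩ := mem_image.1 hu
    obtain ⟨l', -, rfl⟩ := mem_image.1 hv
    exact huv.eq_of_length rfl
  · intro v hv
    obtain ⟨l, hl, rfl⟩ := mem_image.1 hv
    exact ⟨List.isChain_singleton l, List.cons_ne_nil _ _, by simpa using (mem_erase.1 hl).1⟩

theorem exists_exponents (hp : E.Crit p) {δ : ℝ} (hδ : 0 < δ) (hδ1 : δ < 1) :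
    ∃ θ θ' : ℝ, 0 < θ ∧ θ ≤ θ' ∧ θ' ≤ 1 ∧ θ' * (1 - δ) ≤ θ ∧ E.Bound p θ' ∧ ¬ E.Bound p θ := by
  obtain ⟨h0, h1, hB⟩ := hp
  obtain ⟨θ₀, hθ₀, hn₀⟩ := E.exists_not_bound h0 h1
  set A := {θ : ℝ | 0 < θ ∧ E.Bound p θ}
  have hA : (1 : ℝ) ∈ A := ⟨one_pos, hB⟩
  have hlow : θ₀ ≤ sInf A := le_csInf ⟨1, hA⟩ fun θ hθ => by
    by_contra hc
    exact hn₀ (E.bound_mono h0.le h1 hθ.1.le (not_le.1 hc).le hθ.2)
  set s := sInf A
  have hs : 0 < s := hθ₀.trans_le hlow
  have hs1 : s ≤ 1 := csInf_le ⟨0, fun θ hθ => hθ.1.le⟩ hA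
  have hθ : 0 < s * (1 - δ / 2) := mul_pos hs (by linarith)
  refine ⟨s * (1 - δ / 2), min 1 (s * (1 + δ / 2)), hθ, le_min (by nlinarith) (by nlinarith),
    min_le_left _ _, ?_, ?_, fun h => ?_⟩
  · refine le_trans (mul_le_mul_of_nonneg_right (min_le_right _ _) (by linarith)) ?_
    nlinarith [mul_pos hs (mul_pos hδ hδ)]
  · rcases le_total 1 (s * (1 + δ / 2)) with h | h
    · rw [min_eq_left h]; exact hB
    · rw [min_eq_right h]
      obtain ⟨θ, hθA, hlt⟩ := exists_lt_of_csInf_lt ⟨1, hA⟩ (show s < s * (1 + δ / 2) by nlinarith)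
      exact E.bound_mono h0.le h1 hθA.1.le hlt.le hθA.2
  · have := csInf_le ⟨0, fun θ (hθ : θ ∈ A) => hθ.1.le⟩ (show s * (1 - δ / 2) ∈ A from ⟨hθ, h⟩)
    change s ≤ _ at this
    nlinarith

theorem code_hit (hp : 0 < p) (hp1 : p ≤ 1) {θ : ℝ} (hθ : 0 < θ) (hθ1 : θ ≤ 1)
    (hB : E.Bound p θ) (M : ℕ) :
    ∃ C : ℝ, 0 ≤ C ∧ ∀ (m : α × Bool) (W : Finset (List (α × Bool))), PrefixFree W →
      (∀ v ∈ W, Red v ∧ v.head? = some m) →
      ∀ (q : List (α × Bool) → FreeGroup α) (z : List (α × Bool) → Γ × O)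
        (S : List (α × Bool) → Finset (Γ × O)),
        (∀ v ∈ W, (∀ x ∈ S v, x ∈ E.above (q v) [m]) ∧ z v ∈ E.above (q v) [m] ∧
          ((q v)⁻¹ * E.pos (z v)).norm ≤ M) →
        ∑ v ∈ W, hit E.nb (S v) p (z v) (E.above (q v) v) ^ θ ≤ C ∧
          ∑ v ∈ W, hit E.nb (S v) p (z v) (E.above (q v) v) ≤ C := by
  classical
  set cM := p ^ (E.leg * (M + 2))
  have hcM : 0 < cM := pow_pos hp _
  have hcM1 : cM ≤ 1 := pow_le_one₀ hp.le hp1
  have hc := E.c₁_pos hp
  refine ⟨(cM * E.c₁ p)⁻¹, by positivity, fun m W hW hWm q z S hyp => ?_⟩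
  set h : List (α × Bool) → ℝ := fun v => hit E.nb (S v) p (z v) (E.above (q v) v)
  have hex : ∀ v ∈ W, ∃ ρ, cM * h v ≤ E.Psi ρ p (E.pad m :: v) := fun v hv =>
    E.hit_le_psi hp hp1 M (hWm v hv).2 (hyp v hv).1 (hyp v hv).2.1 (hyp v hv).2.2
  choose! ρf hρf using hex
  set ρ := W.sup ρf
  set W' := W.image (E.pad m :: ·) with hW'
  have hinj : Function.Injective fun v : List (α × Bool) => E.pad m :: v := List.cons_injective
  have hpf : PrefixFree W' := by
    intro u hu v hv huv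
    obtain ⟨u, hu', rfl⟩ := mem_image.1 hu
    obtain ⟨v, hv', rfl⟩ := mem_image.1 hv
    rw [hW u hu' v hv' (List.cons_prefix_cons.1 huv).2]
  have hst : ∀ v ∈ W', E.Strict v := by
    intro v hv
    obtain ⟨u, hu, rfl⟩ := mem_image.1 hv
    refine ⟨List.isChain_cons.2 ⟨fun y hy => ?_, (hWm u hu).1⟩, List.cons_ne_nil _ _, ?_⟩
    · rw [(hWm u hu).2, Option.mem_def, Option.some.injEq] at hy
      subst hy
      exact fun e => (E.pad_spec m).1 (by rw [congrArg li e, li_li])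
    · simpa using (E.pad_spec m).2
  have hsum : ∑ v ∈ W, h v ^ θ ≤ (cM * E.c₁ p)⁻¹ := by
    have hb := hB ρ W' hpf hst
    rw [sum_image fun a _ b _ e => hinj e] at hb
    have hle : cM ^ θ * ∑ v ∈ W, h v ^ θ ≤ ∑ v ∈ W, E.Psi ρ p (E.pad m :: v) ^ θ := by
      rw [mul_sum]
      refine sum_le_sum fun v hv => ?_
      rw [← Real.mul_rpow hcM.le (hit_nonneg _ hp.le hp1 _ _)]
      exact Real.rpow_le_rpow (mul_nonneg hcM.le (hit_nonneg _ hp.le hp1 _ _))
        ((hρf v hv).trans (E.psi_mono (le_sup hv) hp.le hp1 _)) hθ.le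
    have h1 : (E.c₁ p * cM) ^ θ * ∑ v ∈ W, h v ^ θ ≤ 1 := by
      rw [Real.mul_rpow hc.le hcM.le, mul_assoc]
      exact (mul_le_mul_of_nonneg_left hle (Real.rpow_nonneg hc.le _)).trans hb
    have h2 : E.c₁ p * cM ≤ (E.c₁ p * cM) ^ θ :=
      Real.self_le_rpow_of_le_one (by positivity)
        (mul_le_one₀ (E.c₁_le_one hp.le hp1) hcM.le hcM1) hθ1
    rw [← one_div, le_div_iff₀ (mul_pos hcM hc), mul_comm cM, mul_comm]
    refine le_trans (mul_le_mul_of_nonneg_right h2 (sum_nonneg fun v _ =>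
      Real.rpow_nonneg (hit_nonneg _ hp.le hp1 _ _) _)) h1
  refine ⟨hsum, le_trans (sum_le_sum fun v _ => ?_) hsum⟩
  exact Real.self_le_rpow_of_le_one (hit_nonneg _ hp.le hp1 _ _) (hit_le_one _ hp.le hp1 _ _) hθ1

end Base

end Vale.Agent.P165.FP
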