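import Vale.Agent.P165.FP.Walks

/-!
# A small exit kernel makes connection probabilities square summable

The connection probabilities into a fixed point solve a linear inequality with the exit kernel of
balls, so a quadratic form bound below one on the kernel bounds their sum of squares. The form bound
is stable under small changes of the parameter.
-/

namespace Vale.Agent.P165.FP

open Finset FF

namespace Env

open Base

variable {Γ O ι α : Type} [Group Γ] [Fintype ι] [DecidableEq α] [Fintype α] [Fintype O]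
  [DecidableEq Γ] [DecidableEq O] (E : Env Γ O ι α) {p : ℝ}

open Classical in
/-- The exit kernel of a ball. -/
noncomputable def exitKer (n : ℕ) (p : ℝ) (x y : Γ × O) : ℝ :=
  p * ∑ a ∈ E.cyl x n, ∑ j : ι,
    if E.nb a j ∉ E.cyl x n ∧ E.nb a j = y then tauIn E.nb (E.cyl x n) p x a else 0

/-- The quadratic form of the exit kernel is at most `η`. -/
def ExitSmall (n : ℕ) (p η : ℝ) : Prop :=
  ∀ (F : Finset (Γ × O)) (f : Γ × O → ℝ), (∀ x, 0 ≤ f x) →
    ∑ x ∈ F, ∑ y ∈ F, f x * f y * E.exitKer n p x y ≤ η * ∑ x ∈ F, f x ^ 2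

omit [DecidableEq Γ] [DecidableEq O] in
theorem card_cyl (x : Γ × O) (R : ℕ) :
    (E.cyl x R).card = (E.len_finite R).toFinset.card * Fintype.card O := by
  simp [cyl]

omit [DecidableEq Γ] [DecidableEq O] in
theorem mem_cyl_comm {x y : Γ × O} {R : ℕ} : y ∈ E.cyl x R ↔ x ∈ E.cyl y R := by
  rw [E.mem_cyl, E.mem_cyl, ← E.len_inv (x.1⁻¹ * y.1), mul_inv_rev, inv_inv]

theorem cyl_image (g : Γ) (x : Γ × O) (R : ℕ) :
    (E.cyl x R).image (tr g) = E.cyl (tr g x) R := by
  ext y
  rw [mem_image, E.mem_cyl]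
  constructor
  · rintro ⟨z, hz, rfl⟩
    simpa [tr, mul_assoc] using E.mem_cyl.1 hz
  · intro h
    refine ⟨tr g⁻¹ y, E.mem_cyl.2 ?_, by simp [tr]⟩
    simpa [tr, mul_assoc] using h

omit [Fintype O] in
theorem tauIn_comm (S : Finset (Γ × O)) (p : ℝ) (x y : Γ × O) :
    tauIn E.nb S p x y = tauIn E.nb S p y x := by
  rw [tauIn_eq, tauIn_eq]
  exact avg_congr _ _ fun η _ =>
    congrArg ind (propext ⟨SimpleGraph.Reachable.symm, SimpleGraph.Reachable.symm⟩)

open Classical in
theorem exitKer_eq (n : ℕ) (p : ℝ) (x y : Γ × O) : E.exitKer n p x y = p * ∑ a ∈ E.cyl x n,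
    if y ∉ E.cyl x n ∧ E.G.Adj a y then tauIn E.nb (E.cyl x n) p x a else 0 := by
  refine congrArg (p * ·) (sum_congr rfl fun a _ => ?_)
  by_cases h : y ∉ E.cyl x n ∧ E.G.Adj a y
  · rw [if_pos h]
    obtain ⟨j, hj⟩ := (E.hl.adj _ _).1 h.2
    rw [sum_eq_single j (fun i _ hi => if_neg fun hc => hi (E.hl.inj a (hc.2.trans hj.symm)))
      (fun hj' => absurd (mem_univ j) hj'), if_pos ⟨by rw [hj]; exact h.1, hj⟩]
  · rw [if_neg h]
    refine sum_eq_zero fun j _ => if_neg fun hc => h ⟨?_, (E.hl.adj _ _).2 ⟨j, hc.2⟩⟩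
    rw [← hc.2]; exact hc.1

theorem exitKer_tr (g : Γ) (n : ℕ) (p : ℝ) (x y : Γ × O) :
    E.exitKer n p (tr g x) (tr g y) = E.exitKer n p x y := by
  classical
  rw [E.exitKer_eq, E.exitKer_eq, ← E.cyl_image g x n, sum_image fun a _ b _ h => tr_injective g h]
  refine congrArg (p * ·) (sum_congr rfl fun a _ => ?_)
  rw [tauIn_tr E.hl E.hinv]
  exact if_congr (and_congr (not_congr (tr_injective g).mem_finset_image) (E.hinv g a y)) rfl rfl

theorem exitKer_eq_zero {n : ℕ} {x y : Γ × O} (h : y ∉ E.cyl x (n + 1)) :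
    E.exitKer n p x y = 0 := by
  classical
  rw [E.exitKer_eq]
  refine mul_eq_zero_of_right p (sum_eq_zero fun a ha => if_neg fun hc => h (E.mem_cyl.2 ?_))
  have h1 := E.mem_cyl.1 ha
  have h2 := E.len_mul (x.1⁻¹ * a.1) (a.1⁻¹ * y.1)
  rw [mul_assoc, mul_inv_cancel_left] at h2
  have := E.step a y hc.2
  omega

theorem continuous_exitKer (n : ℕ) (x y : Γ × O) : Continuous fun p : ℝ => E.exitKer n p x y := by
  refine continuous_id.mul (continuous_finsetSum _ fun a _ => continuous_finsetSum _ fun j _ => ?_)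
  split_ifs
  · exact tauIn_continuous _ _ _
  · exact continuous_const

/-- A form bound below one gives square summability. -/
theorem square_summable (hp : 0 ≤ p) (hp1 : p ≤ 1) {n : ℕ} (h : E.ExitSmall n p (1 / 2)) :
    ∃ K : ℝ, ∀ (x : Γ × O) (S F : Finset (Γ × O)), ∑ y ∈ F, tauIn E.nb S p x y ^ 2 ≤ K := by
  classical
  refine ⟨4 * (((E.len_finite n).toFinset.card * Fintype.card O : ℕ) + 1), fun o S F => ?_⟩
  set F₀ := insert o S with hF₀
  set v : Γ × O → ℝ := fun x => tauIn E.nb S p x o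
  set c : Γ × O → ℝ := fun x => tauIn E.nb (E.cyl x n) p x o
  have hv : ∀ x, 0 ≤ v x := fun x => tauIn_nonneg S hp hp1 x o
  have hc : ∀ x, 0 ≤ c x := fun x => tauIn_nonneg _ hp hp1 x o
  have hv0 : ∀ x, x ∉ F₀ → v x = 0 := fun x hx => by
    simp only [hF₀, mem_insert, not_or] at hx
    exact tauIn_eq_zero hx.1 (Or.inl hx.2) p
  have hrec : ∀ x, v x ≤ c x + ∑ z ∈ F₀, E.exitKer n p x z * v z := by
    intro x
    refine (tauIn_exit E.hl S (E.cyl x n) (E.mem_cyl.2 (by simp [E.len_one])) o hp hp1).trans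
      (add_le_add le_rfl ?_)
    simp only [exitKer, mul_assoc, ← mul_sum, sum_mul]
    refine mul_le_mul_of_nonneg_left ?_ hp
    rw [sum_comm (s := F₀)]
    refine sum_le_sum fun a _ => ?_
    rw [sum_comm (s := F₀)]
    refine sum_le_sum fun j _ => ?_
    by_cases hb : E.nb a j ∉ E.cyl x n
    swap
    · simp [hb]
    rw [if_pos hb]
    simp only [hb, not_false_eq_true, true_and, ite_mul, zero_mul, sum_ite_eq]
    refine (mul_le_mul_of_nonneg_left (tauIn_mono E.hl (erase_subset x S) hp hp1 _ _)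
      (tauIn_nonneg _ hp hp1 _ _)).trans ?_
    split_ifs with hz
    · exact le_rfl
    · exact le_of_eq (mul_eq_zero_of_right _ (hv0 _ hz))
  have hc2 : ∑ x ∈ F₀, c x ^ 2 ≤ ((E.len_finite n).toFinset.card * Fintype.card O : ℕ) + 1 := by
    calc ∑ x ∈ F₀, c x ^ 2 ≤ ∑ x ∈ F₀, (if x ∈ insert o (E.cyl o n) then (1 : ℝ) else 0) := by
          refine sum_le_sum fun x _ => ?_
          split_ifs with hx
          · exact pow_le_one₀ (hc x) (tauIn_le_one _ hp hp1 x o)
          · simp only [mem_insert, not_or] at hx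
            simp only [c]
            rw [tauIn_eq_zero hx.1 (Or.inr fun hm => hx.2 (E.mem_cyl_comm.1 hm)) p]
            norm_num
      _ ≤ ((insert o (E.cyl o n)).card : ℝ) := by
          rw [sum_boole]
          exact Nat.cast_le.2 (card_le_card fun x hx => (mem_filter.1 hx).2)
      _ ≤ _ := by
          rw [← E.card_cyl o n]
          exact_mod_cast card_insert_le _ _
  have hsq : ∑ x ∈ F₀, v x ^ 2 ≤ 4 * ∑ x ∈ F₀, c x ^ 2 := by
    have h1 : ∑ x ∈ F₀, v x ^ 2 ≤ ∑ x ∈ F₀, (c x ^ 2 + v x ^ 2 / 4) +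
        ∑ x ∈ F₀, ∑ z ∈ F₀, v x * v z * E.exitKer n p x z := by
      rw [← sum_add_distrib]
      refine sum_le_sum fun x _ => ?_
      have h2 := mul_le_mul_of_nonneg_left (hrec x) (hv x)
      rw [mul_add, mul_sum, sum_congr rfl fun z _ =>
        show v x * (E.exitKer n p x z * v z) = v x * v z * E.exitKer n p x z by ring] at h2
      linarith [sq_nonneg (c x - v x / 2)]
    have h3 := h1.trans (add_le_add le_rfl (h F₀ v hv))
    rw [sum_add_distrib, ← sum_div] at h3
    linarith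
  calc ∑ y ∈ F, tauIn E.nb S p o y ^ 2 = ∑ y ∈ F, v y ^ 2 :=
        sum_congr rfl fun y _ => by simp only [v]; rw [E.tauIn_comm]
    _ ≤ ∑ y ∈ F ∪ F₀, v y ^ 2 :=
        sum_le_sum_of_subset_of_nonneg subset_union_left fun _ _ _ => sq_nonneg _
    _ = ∑ y ∈ F₀, v y ^ 2 := (sum_subset subset_union_right fun y _ hy => by simp [hv0 y hy]).symm
    _ ≤ _ := by linarith

/-- The form bound is stable in the parameter. -/
theorem exitSmall_eventually {n : ℕ} {q η η' : ℝ} (h : E.ExitSmall n q η) (hη : η < η') :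
    ∀ᶠ p in nhds q, E.ExitSmall n p η' := by
  classical
  set D : ℝ → ℝ := fun p => ∑ o : O, ∑ y ∈ E.cyl ((1 : Γ), o) (n + 1),
    |E.exitKer n p ((1 : Γ), o) y - E.exitKer n q ((1 : Γ), o) y| with hD
  set N : ℝ := (((E.len_finite (n + 1)).toFinset.card * Fintype.card O : ℕ) : ℝ) with hN
  have hcont : Continuous fun p => D p * N :=
    (continuous_finsetSum _ fun o _ => continuous_finsetSum _ fun y _ =>
      ((E.continuous_exitKer n _ y).sub continuous_const).abs).mul continuous_const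
  have h0 : D q * N = 0 := by simp [hD]
  filter_upwards [(hcont.tendsto q).eventually_le_const
    (show D q * N < η' - η by rw [h0]; linarith)] with p hpD F f hf
  have hD0 : 0 ≤ D p := sum_nonneg fun _ _ => sum_nonneg fun _ _ => abs_nonneg _
  have hentry : ∀ x y, E.exitKer n p x y - E.exitKer n q x y ≤
      D p * (if y ∈ E.cyl x (n + 1) then 1 else 0) := by
    intro x y
    split_ifs with hy
    swap
    · simp [E.exitKer_eq_zero hy]
    rw [mul_one, ← E.exitKer_tr x.1⁻¹ n p x y, ← E.exitKer_tr x.1⁻¹ n q x y,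
      show tr x.1⁻¹ x = ((1 : Γ), x.2) by simp [tr]]
    refine (le_abs_self _).trans (le_trans ?_ (single_le_sum
      (fun o _ => sum_nonneg fun _ _ => abs_nonneg _) (mem_univ x.2)))
    refine single_le_sum (f := fun z => |E.exitKer n p ((1 : Γ), x.2) z -
      E.exitKer n q ((1 : Γ), x.2) z|) (fun z _ => abs_nonneg _) ?_
    rw [E.mem_cyl] at hy ⊢
    simpa [tr] using hy
  have hrow : ∀ x, ((F.filter fun y => y ∈ E.cyl x (n + 1)).card : ℝ) ≤ N := fun x => by
    rw [hN, ← E.card_cyl x (n + 1)]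
    exact Nat.cast_le.2 (card_le_card fun y hy => (mem_filter.1 hy).2)
  have hnear : ∑ x ∈ F, ∑ y ∈ F, f x * f y * (if y ∈ E.cyl x (n + 1) then (1 : ℝ) else 0)
      ≤ N * ∑ x ∈ F, f x ^ 2 := by
    have h1 : ∀ x ∈ F, ∀ y ∈ F, f x * f y * (if y ∈ E.cyl x (n + 1) then (1 : ℝ) else 0) ≤
        (if y ∈ E.cyl x (n + 1) then f x ^ 2 / 2 else 0) +
          (if x ∈ E.cyl y (n + 1) then f y ^ 2 / 2 else 0) := by
      intro x _ y _
      by_cases hy : y ∈ E.cyl x (n + 1)
      · rw [if_pos hy, if_pos hy, if_pos (E.mem_cyl_comm.1 hy)]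
        linarith [sq_nonneg (f x - f y)]
      · rw [if_neg hy, if_neg hy, if_neg fun h' => hy (E.mem_cyl_comm.1 h')]
        norm_num
    refine (sum_le_sum fun x hx => sum_le_sum (h1 x hx)).trans ?_
    simp only [sum_add_distrib]
    rw [sum_comm (f := fun x y => if x ∈ E.cyl y (n + 1) then f y ^ 2 / 2 else 0)]
    have h2 : ∑ x ∈ F, ∑ y ∈ F, (if y ∈ E.cyl x (n + 1) then f x ^ 2 / 2 else 0) ≤
        N * ∑ x ∈ F, f x ^ 2 / 2 := by
      rw [mul_sum]
      refine sum_le_sum fun x _ => ?_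
      rw [← sum_filter, sum_const, nsmul_eq_mul]
      exact mul_le_mul_of_nonneg_right (hrow x) (by positivity)
    rw [← sum_div] at h2
    linarith
  calc ∑ x ∈ F, ∑ y ∈ F, f x * f y * E.exitKer n p x y
      ≤ ∑ x ∈ F, ∑ y ∈ F, (f x * f y * E.exitKer n q x y +
          D p * (f x * f y * (if y ∈ E.cyl x (n + 1) then 1 else 0))) := by
        refine sum_le_sum fun x _ => sum_le_sum fun y _ => ?_
        nlinarith [mul_le_mul_of_nonneg_left (hentry x y) (mul_nonneg (hf x) (hf y))]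
    _ = ∑ x ∈ F, ∑ y ∈ F, f x * f y * E.exitKer n q x y +
          D p * ∑ x ∈ F, ∑ y ∈ F, f x * f y * (if y ∈ E.cyl x (n + 1) then 1 else 0) := by
        simp only [sum_add_distrib, mul_sum]
    _ ≤ η * ∑ x ∈ F, f x ^ 2 + D p * (N * ∑ x ∈ F, f x ^ 2) :=
        add_le_add (h F f hf) (mul_le_mul_of_nonneg_left hnear hD0)
    _ ≤ η' * ∑ x ∈ F, f x ^ 2 := by
        rw [← mul_assoc, ← add_mul]
        exact mul_le_mul_of_nonneg_right (by linarith) (sum_nonneg fun _ _ => sq_nonneg _)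

end Env

end Vale.Agent.P165.FP
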