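import Vale.Agent.P165.FP.Codes

/-!
# Chains: many half spaces reached with probability about the inverse of their number

When the code bound fails for an exponent `θ`, stop words of a bad code give, from every vertex and in
every direction, at least about `L ^ θ` prefix-free targets, each reached with probability at least
a constant over `L` inside a ball of radius logarithmic in `L`.
-/

namespace Vale.Agent.P165.FP

open Finset FF FreeGroup

namespace Base

variable {Γ O ι α : Type} [Group Γ] [Fintype ι] [DecidableEq α] [Fintype α] [Fintype O]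
  (E : Base Γ O ι α)

open Classical in
/-- The region of a chain. -/
noncomputable def chainSet (z : Γ × O) (m : α × Bool) (C L : ℕ) : Finset (Γ × O) :=
  (E.cyl z (C * (Nat.log 2 L + 1))).filter fun x =>
    x ∈ E.above (E.pos z) [m] ∨ ((E.pos z)⁻¹ * E.pos x).norm ≤ C

theorem mem_chainSet {z : Γ × O} {m : α × Bool} {C L : ℕ} {x : Γ × O} :
    x ∈ E.chainSet z m C L ↔ E.len (z.1⁻¹ * x.1) ≤ C * (Nat.log 2 L + 1) ∧
      (x ∈ E.above (E.pos z) [m] ∨ ((E.pos z)⁻¹ * E.pos x).norm ≤ C) := by
  simp only [chainSet, mem_filter, E.mem_cyl]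

variable [DecidableEq Γ] [DecidableEq O] {p : ℝ}

/-- Stop words of a code whose weighted sum exceeds one. -/
theorem exists_stop (hp : 0 < p) (hp1 : p ≤ 1) {θ : ℝ} (hθ : 0 < θ) (hnb : ¬ E.Bound p θ) :
    ∃ (r : ℕ) (κ : ℝ), 0 < κ ∧ κ ≤ 1 ∧ ∀ n : ℕ, ∀ t : ℝ, (1 / 2 : ℝ) ^ n ≤ t → t ≤ 1 →
      ∃ W : Finset (List (α × Bool)), PrefixFree W ∧
        (∀ w ∈ W, E.Strict w ∧ w.length ≤ (n + 1) * r ∧ κ * t ≤ E.Psi ((n + 1) * r) p w) ∧
        t ^ (-θ) ≤ W.card := by
  classical
  simp only [Bound, not_forall, not_le] at hnb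
  obtain ⟨ρ, W₀, hW₀, hs₀, hgt₀⟩ := hnb
  set W₁ := W₀.filter fun v => 0 < E.Psi ρ p v with hW₁
  have hW₁' : PrefixFree W₁ := fun u hu v hv h => hW₀ u (mem_filter.1 hu).1 v (mem_filter.1 hv).1 h
  have hs₁ : ∀ v ∈ W₁, E.Strict v := fun v hv => hs₀ v (mem_filter.1 hv).1
  set P : List (α × Bool) → ℝ := fun v => E.c₁ p * E.Psi ρ p v with hP
  have hc := E.c₁_pos hp
  have hP0 : ∀ v ∈ W₁, 0 < P v := fun v hv => mul_pos hc (mem_filter.1 hv).2
  have hPhalf : ∀ v, P v ≤ 1 / 2 := fun v =>
    (mul_le_of_le_one_right hc.le (E.psi_le_one ρ hp.le hp1 v)).trans (E.c₁_le_half hp.le hp1)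
  have hgt : 1 < ∑ v ∈ W₁, P v ^ θ := by
    have e : ∑ v ∈ W₁, P v ^ θ = E.c₁ p ^ θ * ∑ v ∈ W₁, E.Psi ρ p v ^ θ := by
      rw [mul_sum]
      exact sum_congr rfl fun v _ => Real.mul_rpow hc.le (E.psi_nonneg ρ hp.le hp1 v)
    rw [e]
    refine lt_of_lt_of_eq hgt₀ (congrArg (fun x : ℝ => E.c₁ p ^ θ * x) ?_)
    refine (sum_filter_of_ne fun v _ hne => ?_).symm
    refine lt_of_le_of_ne (E.psi_nonneg ρ hp.le hp1 v) fun h => hne ?_
    rw [← h, Real.zero_rpow hθ.ne']
  have hne : W₁.Nonempty := nonempty_of_sum_ne_zero (s := W₁) (f := fun v => P v ^ θ) (by linarith)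
  set κ := W₁.inf' hne P with hκ
  have hκ0 : 0 < κ := (Finset.lt_inf'_iff hne).2 hP0
  have hκle : ∀ v ∈ W₁, κ ≤ P v := fun v hv => inf'_le _ hv
  set r := ρ + E.blockLen + E.R₁ + 1 + W₁.sup List.length with hr
  refine ⟨r, κ, hκ0, (hκle _ hne.choose_spec).trans ((hPhalf _).trans (by norm_num)), fun n => ?_⟩
  have hbase : ∀ v ∈ W₁, ∀ n : ℕ, v.length ≤ (n + 1) * r ∧
      ∀ t : ℝ, t ≤ 1 → κ * t ≤ E.Psi ((n + 1) * r) p v := fun v hv n => by
    have h1 : r ≤ (n + 1) * r := Nat.le_mul_of_pos_left r (Nat.succ_pos n)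
    have h2 : v.length ≤ W₁.sup List.length := le_sup (f := List.length) hv
    refine ⟨by omega, fun t ht => (mul_le_of_le_one_right hκ0.le ht).trans ((hκle v hv).trans ?_)⟩
    exact (mul_le_of_le_one_left (E.psi_nonneg ρ hp.le hp1 v) (E.c₁_le_one hp.le hp1)).trans
      (E.psi_mono (by omega) hp.le hp1 v)
  induction n with
  | zero =>
    intro t ht0 ht1
    rw [pow_zero] at ht0
    obtain rfl : t = 1 := le_antisymm ht1 ht0
    refine ⟨W₁, hW₁', fun w hw => ⟨hs₁ w hw, (hbase w hw 0).1, (hbase w hw 0).2 1 le_rfl⟩, ?_⟩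
    rw [Real.one_rpow]
    exact_mod_cast hne.card_pos
  | succ n ih =>
    intro t ht0 ht1
    have htpos : 0 < t := lt_of_lt_of_le (by positivity) ht0
    have hsub : ∀ v ∈ W₁, ∃ S : Finset (List (α × Bool)), PrefixFree S ∧
        (∀ w ∈ S, v <+: w ∧ E.Strict w ∧ w.length ≤ (n + 1 + 1) * r ∧
          κ * t ≤ E.Psi ((n + 1 + 1) * r) p w) ∧
        P v ^ θ * t ^ (-θ) ≤ S.card := by
      intro v hv
      rcases le_or_gt (P v) t with hle | hlt
      · refine ⟨{v}, ?_, ?_, ?_⟩
        · intro a ha b hb _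
          rw [mem_singleton] at ha hb
          rw [ha, hb]
        · intro w hw
          rw [mem_singleton] at hw
          subst hw
          exact ⟨List.prefix_refl _, hs₁ w hv, (hbase w hv (n + 1)).1, (hbase w hv (n + 1)).2 t ht1⟩
        · rw [card_singleton, Nat.cast_one, Real.rpow_neg htpos.le, ← div_eq_mul_inv,
            div_le_one (Real.rpow_pos_of_pos htpos θ)]
          exact Real.rpow_le_rpow (hP0 v hv).le hle hθ.le
      · have hPv := hP0 v hv
        obtain ⟨S, hS, hSw, hcard⟩ := ih (t / P v) (by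
            rw [le_div_iff₀ hPv]
            refine le_trans (mul_le_mul_of_nonneg_left (hPhalf v) (by positivity)) ?_
            rw [← pow_succ]; exact ht0)
          ((div_le_one hPv).2 hlt.le)
        refine ⟨S.image (E.join v), ?_, ?_, ?_⟩
        · intro a ha b hb hab
          obtain ⟨a, ha', rfl⟩ := mem_image.1 ha
          obtain ⟨b, hb', rfl⟩ := mem_image.1 hb
          rw [hS a ha' b hb' (E.join_prefix hW₁' hv hv hab).2]
        · intro w hw
          obtain ⟨w, hw', rfl⟩ := mem_image.1 hw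
          obtain ⟨hws, hwl, hwp⟩ := hSw w hw'
          refine ⟨by rw [join, List.append_assoc]; exact List.prefix_append _ _,
            E.strict_join (hs₁ v hv) hws, ?_, ?_⟩
          · have : v.length ≤ W₁.sup List.length := le_sup (f := List.length) hv
            have e : (n + 1 + 1) * r = (n + 1) * r + r := by ring
            simp only [join, List.length_append, E.mark_length]
            omega
          · refine le_trans ?_ (le_trans (E.psi_join hp.le hp1 ρ ((n + 1) * r) (hs₁ v hv) hws)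
              (E.psi_mono ?_ hp.le hp1 _))
            · calc κ * t = P v * (κ * (t / P v)) := by
                    rw [mul_div_assoc', mul_div_cancel₀ _ hPv.ne']
                _ ≤ P v * E.Psi ((n + 1) * r) p w := mul_le_mul_of_nonneg_left hwp hPv.le
            · have e : (n + 1 + 1) * r = (n + 1) * r + r := by ring
              omega
        · rw [card_image_of_injOn fun a ha b hb e => hS a ha b hb
            ((E.join_prefix hW₁' hv hv (show E.join v a <+: E.join v b by rw [e])).2)]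
          refine le_trans (le_of_eq ?_) hcard
          rw [Real.div_rpow htpos.le hPv.le, Real.rpow_neg hPv.le, div_inv_eq_mul, mul_comm]
    choose! S hSpf hSw hScard using hsub
    refine ⟨W₁.biUnion S, ?_, fun w hw => ?_, ?_⟩
    · intro a ha b hb hab
      obtain ⟨v, hv, ha'⟩ := mem_biUnion.1 ha
      obtain ⟨v', hv', hb'⟩ := mem_biUnion.1 hb
      have e : v = v' := by
        rcases List.prefix_or_prefix_of_prefix (((hSw v hv a ha').1).trans hab) (hSw v' hv' b hb').1
          with h | h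
        · exact hW₁' v hv v' hv' h
        · exact (hW₁' v' hv' v hv h).symm
      subst e
      exact hSpf v hv a ha' b hb' hab
    · obtain ⟨v, hv, hw'⟩ := mem_biUnion.1 hw
      exact (hSw v hv w hw').2
    · rw [card_biUnion fun v hv v' hv' hne => disjoint_left.2 fun a ha ha' => hne (by
        rcases List.prefix_or_prefix_of_prefix (hSw v hv a ha).1 (hSw v' hv' a ha').1 with h | h
        · exact hW₁' v hv v' hv' h
        · exact (hW₁' v' hv' v hv h).symm), Nat.cast_sum]
      calc t ^ (-θ) ≤ (∑ v ∈ W₁, P v ^ θ) * t ^ (-θ) :=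
            le_mul_of_one_le_left (Real.rpow_nonneg htpos.le _) hgt.le
        _ ≤ ∑ v ∈ W₁, ((S v).card : ℝ) := by rw [sum_mul]; exact sum_le_sum hScard

theorem exists_chains (hp : E.Crit p) {θ : ℝ} (hθ : 0 < θ) (hnb : ¬ E.Bound p θ) :
    ∃ (C : ℕ) (κ : ℝ), 0 < κ ∧ ∀ L : ℕ, 1 ≤ L → ∀ m : α × Bool,
      ∃ W : Finset (List (α × Bool)), PrefixFree W ∧
        (∀ w ∈ W, Red w ∧ w.head? = some m ∧ w.length ≤ C * (Nat.log 2 L + 1)) ∧
        κ * (L : ℝ) ^ θ ≤ W.card ∧
        ∀ z, ∀ w ∈ W, κ / L ≤ hit E.nb (E.chainSet z m C L) p z (E.above (E.pos z) w) := by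
  classical
  obtain ⟨hp0, hp1, -⟩ := hp
  obtain ⟨r, κ₀, hκ0, hκ1, hstop⟩ := E.exists_stop hp0 hp1 hθ hnb
  set k := E.leg * (E.R₁ + 3) with hk
  set C := E.L * k + k + 2 * r + E.R₁ + 2 with hC
  refine ⟨C, p ^ k * κ₀, mul_pos (pow_pos hp0 _) hκ0, fun L hL m => ?_⟩
  set lg := Nat.log 2 L
  have hLpos : (0 : ℝ) < L := by exact_mod_cast hL
  have hsmall : (1 / 2 : ℝ) ^ (lg + 1) ≤ 1 / L := by
    rw [one_div_pow]
    refine one_div_le_one_div_of_le hLpos ?_
    have h := Nat.lt_pow_succ_log_self one_lt_two L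
    calc (L : ℝ) ≤ ((2 ^ (lg + 1) : ℕ) : ℝ) := by exact_mod_cast h.le
      _ = 2 ^ (lg + 1) := by push_cast; ring
  obtain ⟨W', hW', hWw, hcard⟩ := hstop (lg + 1) (1 / L) hsmall
    ((div_le_one hLpos).2 (by exact_mod_cast hL))
  set head := [m] ++ E.mark m with hhead
  have hredh : Red head := red_append.2 ⟨List.isChain_singleton m, E.red_mark m, fun x hx y hy => by
    simp only [List.getLast?_singleton, Option.mem_def, Option.some.injEq] at hx
    simp only [mark, List.head?_cons, Option.mem_def, Option.some.injEq] at hy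
    subst hx hy
    exact (E.pad_spec m).1⟩
  have hredw : ∀ y : List (α × Bool), Red y → y.head? ≠ some E.a₀ → Red (head ++ y) := by
    intro y hy hy0
    refine red_append.2 ⟨hredh, hy, fun x hx b hb => ?_⟩
    rw [hhead, List.getLast?_append, E.mark_getLast, Option.some_or, Option.mem_def,
      Option.some.injEq] at hx
    subst hx
    rw [li_li]
    exact fun e => hy0 (by rw [Option.mem_def] at hb; rw [hb, e])
  refine ⟨W'.image (head ++ ·), ?_, ?_, ?_, ?_⟩
  · intro a ha b hb hab
    obtain ⟨a, ha', rfl⟩ := mem_image.1 ha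
    obtain ⟨b, hb', rfl⟩ := mem_image.1 hb
    rw [hW' a ha' b hb' ((List.prefix_append_right_inj _).1 hab)]
  · intro w hw
    obtain ⟨w, hw', rfl⟩ := mem_image.1 hw
    refine ⟨hredw w (hWw w hw').1.1 (hWw w hw').1.2.2, by simp [hhead], ?_⟩
    have h1 := (hWw w hw').2.1
    have e1 : (lg + 1 + 1) * r = (lg + 1) * r + r := by ring
    have e2 : C * (lg + 1) = (E.L * k + k) * (lg + 1) + 2 * ((lg + 1) * r) + (E.R₁ + 2) * (lg + 1) := by
      rw [hC]; ring
    have e3 : E.R₁ + 2 ≤ (E.R₁ + 2) * (lg + 1) := Nat.le_mul_of_pos_right _ (Nat.succ_pos _)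
    have e4 : r ≤ (lg + 1) * r := Nat.le_mul_of_pos_left _ (Nat.succ_pos _)
    simp only [hhead, List.length_append, List.length_singleton, E.mark_length]
    omega
  · rw [card_image_of_injective _ (List.append_right_injective head)]
    refine le_trans ?_ hcard
    rw [one_div, Real.inv_rpow hLpos.le, Real.rpow_neg hLpos.le, inv_inv]
    exact mul_le_of_le_one_left (Real.rpow_nonneg hLpos.le _)
      (mul_le_one₀ (pow_le_one₀ hp0.le hp1) hκ0.le hκ1)
  · intro z w hw
    obtain ⟨w, hw', rfl⟩ := mem_image.1 hw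
    obtain ⟨hws, -, hwp⟩ := hWw w hw'
    obtain ⟨γ, hγ, W, hWl, -⟩ := E.exists_path head z
    have hlen : W.length ≤ k := hWl.trans (by
      rw [hk]
      refine Nat.mul_le_mul le_rfl ?_
      simp only [hhead, List.length_append, List.length_singleton, E.mark_length]
      omega)
    have hk1 : k ≤ C * (lg + 1) := le_trans (by omega) (Nat.le_mul_of_pos_right C (Nat.succ_pos lg))
    set R := (lg + 1 + 1) * r
    have hsup : ∀ v ∈ W.support, v ∈ E.chainSet z m C L := by
      intro v hv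
      have h1 := E.len_walk (W.takeUntil v hv)
      have h2 := E.norm_walk (W.takeUntil v hv)
      have h3 := (W.length_takeUntil_le_length hv).trans hlen
      refine E.mem_chainSet.2 ⟨(h1.trans h3).trans hk1, Or.inr ?_⟩
      have := Nat.mul_le_mul (le_refl E.L) h3
      omega
    have hreg : ∀ y ∈ E.om R, tr γ y ∈ E.chainSet z m C L := by
      intro y hy
      obtain ⟨hy1, hy2⟩ := E.mem_om.1 hy
      refine E.mem_chainSet.2 ⟨?_, Or.inl ?_⟩
      · have h1 := E.len_walk W
        have h2 := E.len_mul (z.1⁻¹ * γ) y.1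
        have e1 : R = (lg + 1) * r + r := by ring
        have e2 : C * (lg + 1) = k * (lg + 1) + 2 * ((lg + 1) * r) + (E.L * k + E.R₁ + 2) * (lg + 1) := by
          rw [hC]; ring
        have e3 : k ≤ k * (lg + 1) := Nat.le_mul_of_pos_right _ (Nat.succ_pos _)
        have e4 : r ≤ (lg + 1) * r := Nat.le_mul_of_pos_left _ (Nat.succ_pos _)
        have h1' : E.len (z.1⁻¹ * γ) ≤ W.length := h1
        show E.len (z.1⁻¹ * (γ * y.1)) ≤ C * (lg + 1)
        rw [← mul_assoc]
        omega
      · show [m] <+: ((E.pos z)⁻¹ * E.pos (tr γ y)).toWord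
        rw [E.pos_tr, hγ, ← mul_assoc, inv_mul_cancel_left]
        have e : head = [m, E.pad m] ++ List.replicate E.R₁ (li E.a₀) := by simp [hhead, mark]
        have h' : [m, E.pad m] <+: (FreeGroup.mk head * E.pos y).toWord := by
          rw [e]
          refine prefix_mul (e ▸ hredh) ?_
          rw [invRev_replicate, li_li]
          exact hy2
        exact (List.prefix_append [m] [E.pad m]).trans h'
    have hmove := hit_move E.hl (nb := E.nb) hp0.le hp1 W hsup (E.above (E.pos z) (head ++ w))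
    refine le_trans ?_ hmove
    rw [mul_div_assoc]
    refine mul_le_mul (pow_le_pow_of_le_one hp0.le hp1 hlen) ?_ (by positivity) (pow_nonneg hp0.le _)
    rw [mul_one_div] at hwp
    refine hwp.trans ?_
    refine le_trans ?_ (hit_mono E.hl (S := (E.om R).image (tr γ)) (fun x hx => by
      obtain ⟨y, hy, rfl⟩ := mem_image.1 hx
      exact hreg y hy) Set.Subset.rfl hp0.le hp1 _)
    rw [show ((γ, E.o₁) : Γ × O) = tr γ ((1 : Γ), E.o₁) by simp [tr], E.hit_tr, Psi]
    refine hit_mono E.hl Subset.rfl (fun y hy => ?_) hp0.le hp1 _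
    rw [E.mem_above_one] at hy
    show head ++ w <+: (((E.π γ)⁻¹ * E.pos z)⁻¹ * E.pos y).toWord
    rw [mul_inv_rev, inv_inv, hγ, inv_mul_cancel_left]
    rw [toWord_append (hredw _ (red_toWord _) (by
      obtain ⟨c, hc⟩ := hy
      rw [← hc, List.head?_append_of_ne_nil _ hws.2.1]
      exact hws.2.2))]
    exact (List.prefix_append_right_inj head).2 hy

end Base

end Vale.Agent.P165.FP
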