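import Vale.Agent.P165.FP.Defs

/-!
# Short walks, crossings of half spaces and translations

Walks of bounded length follow any word of the free quotient, the start of a connection can be moved
along such a walk, and connection probabilities are invariant under translations.
-/

namespace Vale.Agent.P165.FP

open Finset FF FreeGroup

section General

variable {V ι : Type} [DecidableEq V] [Fintype ι] {nb : V → ι → V} {G : SimpleGraph V}

omit [DecidableEq V] in
theorem inc_hit (T : Set V) (a : V) : Inc (FXZ.Hit T a) :=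
  fun _ _ h ⟨t, ht, hc⟩ => ⟨t, ht, cl_mono h hc⟩

theorem hit_nonneg (S : Finset V) {p : ℝ} (h0 : 0 ≤ p) (h1 : p ≤ 1) (a : V) (T : Set V) :
    0 ≤ hit nb S p a T :=
  avg_nonneg _ h0 h1 fun _ _ => ind_nonneg _

theorem hit_le_one (S : Finset V) {p : ℝ} (h0 : 0 ≤ p) (h1 : p ≤ 1) (a : V) (T : Set V) :
    hit nb S p a T ≤ 1 :=
  (avg_mono _ h0 h1 fun _ _ => ind_le_one _).trans (avg_one _ _).le

theorem hit_continuous (S : Finset V) (a : V) (T : Set V) :
    Continuous fun p : ℝ => hit nb S p a T := by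
  refine continuous_finsetSum _ fun η _ => Continuous.mul ?_ continuous_const
  simp only [wt]
  fun_prop

theorem hit_mono (hl : Labelling G nb) {S S' : Finset V} (hS : S ⊆ S') {T T' : Set V} (hT : T ⊆ T')
    {p : ℝ} (h0 : 0 ≤ p) (h1 : p ≤ 1) (a : V) : hit nb S p a T ≤ hit nb S' p a T' :=
  (avg_mono_set (inE_mono hl hS) h0 h1 (monotone_ind (inc_hit T a))).trans
    (avg_mono _ h0 h1 fun _ _ => ind_mono fun ⟨t, ht, hc⟩ => ⟨t, hT ht, hc⟩)

/-- A forced set of open edges. -/
theorem pow_card_le (A : Finset (Sym2 V)) {p : ℝ} (h0 : 0 ≤ p) (h1 : p ≤ 1) {E : Finset (Sym2 V)}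
    (hA : A ⊆ E) : p ^ A.card ≤ avg E p fun η => ind (A ⊆ η) := by
  refine le_trans (le_of_eq ?_) (avg_mono_set hA h0 h1
    (monotone_ind (A := fun η => A ⊆ η) fun _ _ h h' => h'.trans h))
  have h := avg_forced (Finset.Subset.refl A) p fun _ => (1 : ℝ)
  rw [Finset.sdiff_self, avg_one, mul_one] at h
  rw [← h]
  exact avg_congr _ _ fun η _ => by unfold ind; split_ifs <;> rfl

/-- Moving the start along an open walk. -/
theorem hit_move (hl : Labelling G nb) {S : Finset V} {p : ℝ} (h0 : 0 ≤ p) (h1 : p ≤ 1) {g z : V}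
    (w : G.Walk g z) (hw : ∀ v ∈ w.support, v ∈ S) (T : Set V) :
    p ^ w.length * hit nb S p z T ≤ hit nb S p g T := by
  set A := w.edges.toFinset
  have hA : A ⊆ inE nb S := fun e he => (inE_iff hl).2 ⟨w.edges_subset_edgeSet (List.mem_toFinset.1 he),
    fun v hv => hw v (SimpleGraph.Walk.mem_support_of_mem_edges (List.mem_toFinset.1 he) hv)⟩
  refine le_trans (mul_le_mul_of_nonneg_right ?_ (hit_nonneg S h0 h1 z T)) (le_trans
    (harris (inE nb S) h0 h1 (fun η => ind (A ⊆ η)) (fun η => ind (FXZ.Hit T z η))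
      (monotone_ind (A := fun η => A ⊆ η) fun _ _ h h' => h'.trans h) (monotone_ind (inc_hit T z)))
    (avg_mono _ h0 h1 fun η _ => ?_))
  · refine le_trans ?_ (pow_card_le A h0 h1 hA)
    exact pow_le_pow_of_le_one h0 h1 (w.edges.toFinset_card_le.trans (le_of_eq w.length_edges))
  · show ind (A ⊆ η) * ind (FXZ.Hit T z η) ≤ ind (FXZ.Hit T g η)
    unfold ind
    by_cases hAη : A ⊆ η
    swap
    · rw [if_neg hAη, zero_mul]; split_ifs <;> norm_num
    by_cases hz : FXZ.Hit T z η
    swap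
    · rw [if_neg hz, mul_zero]; split_ifs <;> norm_num
    have hg : FXZ.Hit T g η := by
      obtain ⟨t, ht, hc⟩ := hz
      refine ⟨t, ht, SimpleGraph.Reachable.trans ?_ hc⟩
      have hmem : ∀ e ∈ w.edges, e ∈ (SimpleGraph.fromEdgeSet (η : Set (Sym2 V))).edgeSet := by
        intro e he
        rw [SimpleGraph.edgeSet_fromEdgeSet]
        exact ⟨hAη (List.mem_toFinset.2 he), G.not_isDiag_of_mem_edgeSet (w.edges_subset_edgeSet he)⟩
      exact ⟨w.transfer _ hmem⟩
    rw [if_pos hAη, if_pos hz, if_pos hg, mul_one]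

theorem hit_map (hl : Labelling G nb) (φ : G ≃g G) (S : Finset V) (p : ℝ) (a : V) (T : Set V) :
    hit nb (S.image φ) p (φ a) T = hit nb S p a (φ ⁻¹' T) := by
  have hinj := Sym2.map.injective φ.injective
  have hE : inE nb (S.image φ) = (inE nb S).image (Sym2.map φ) := by
    ext e
    induction e using Sym2.ind with
    | _ a b =>
      obtain ⟨a, rfl⟩ := φ.surjective a
      obtain ⟨b, rfl⟩ := φ.surjective b
      rw [← Sym2.map_mk, hinj.mem_finset_image, inE_iff hl, inE_iff hl]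
      simp [φ.map_adj_iff, φ.injective.eq_iff]
  rw [hit, hit, hE, avg_image _ hinj]
  refine avg_congr _ _ fun η _ => ?_
  have hadj : ∀ u v, (SimpleGraph.fromEdgeSet (η : Set (Sym2 V))).Adj u v ↔
      (SimpleGraph.fromEdgeSet ((η.image (Sym2.map φ) : Finset _) : Set (Sym2 V))).Adj (φ u) (φ v) := by
    intro u v
    rw [SimpleGraph.fromEdgeSet_adj, SimpleGraph.fromEdgeSet_adj, mem_coe, mem_coe, ← Sym2.map_mk,
      hinj.mem_finset_image, φ.injective.ne_iff]
  let ψ : SimpleGraph.fromEdgeSet (η : Set (Sym2 V)) ≃g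
      SimpleGraph.fromEdgeSet ((η.image (Sym2.map φ) : Finset _) : Set (Sym2 V)) :=
    { toEquiv := φ.toEquiv, map_rel_iff' := fun {u v} => (hadj u v).symm }
  refine congrArg ind (propext ⟨fun ⟨t, ht, hc⟩ => ?_, fun ⟨t, ht, hc⟩ => ?_⟩)
  · obtain ⟨s, rfl⟩ := φ.surjective t
    exact ⟨s, ht, (ψ.reachable_iff (u := a) (v := s)).1 hc⟩
  · exact ⟨φ t, ht, (ψ.reachable_iff (u := a) (v := t)).2 hc⟩

end General

namespace Base

variable {Γ O ι α : Type} [Group Γ] [Fintype ι] [DecidableEq α] [Fintype α] (E : Base Γ O ι α)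

theorem pos_tr (γ : Γ) (x : Γ × O) : E.pos (tr γ x) = E.π γ * E.pos x := map_mul _ _ _

theorem pos_diff (x y : Γ × O) : (E.pos x)⁻¹ * E.pos y = E.π (x.1⁻¹ * y.1) := by
  simp [pos]

theorem len_walk {x y : Γ × O} (w : E.G.Walk x y) : E.len (x.1⁻¹ * y.1) ≤ w.length := by
  induction w with
  | nil => simp [E.len_one]
  | @cons a b c h q ih =>
    have h1 := E.len_mul (a.1⁻¹ * b.1) (b.1⁻¹ * c.1)
    rw [mul_assoc, mul_inv_cancel_left] at h1
    have := E.step a b h
    simp only [SimpleGraph.Walk.length_cons]; omega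

theorem norm_walk {x y : Γ × O} (w : E.G.Walk x y) :
    ((E.pos x)⁻¹ * E.pos y).norm ≤ E.L * w.length := by
  rw [pos_diff]
  exact (E.lip _).trans (Nat.mul_le_mul le_rfl (E.len_walk w))

theorem norm_adj {x y : Γ × O} (h : E.G.Adj x y) : ((E.pos x)⁻¹ * E.pos y).norm ≤ E.L := by
  simpa using E.norm_walk h.toWalk

/-- An edge into a half space lands near its tip. -/
theorem cross {q : FreeGroup α} {w : List (α × Bool)} {x y : Γ × O} (h : E.G.Adj x y)
    (hx : x ∉ E.above q w) (hy : y ∈ E.above q w) :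
    ((q * mk w)⁻¹ * E.pos y).norm < E.L := by
  have h1 := norm_cut (w := q⁻¹ * E.pos x) (w' := q⁻¹ * E.pos y) hx hy
  rw [show ((q⁻¹ * E.pos x)⁻¹ * (q⁻¹ * E.pos y)) = (E.pos x)⁻¹ * E.pos y by group,
    ← mul_assoc, ← mul_inv_rev] at h1
  exact h1.trans_le (E.norm_adj h)

theorem mem_above_one {x : Γ × O} {w : List (α × Bool)} :
    x ∈ E.above 1 w ↔ w <+: (E.pos x).toWord := by simp [above]

theorem tr_mem_above {γ : Γ} {x : Γ × O} {q : FreeGroup α} {w : List (α × Bool)} :
    tr γ x ∈ E.above q w ↔ x ∈ E.above ((E.π γ)⁻¹ * q) w := by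
  simp [above, pos_tr, mul_assoc]

theorem exists_leg [Fintype O] : ∃ k : ℕ, 1 ≤ k ∧
    (∀ (z : Γ × O), ∃ γ : Γ, E.π γ = E.pos z ∧ ∃ w : E.G.Walk z (γ, E.o₁), w.length ≤ k) ∧
    ∀ (z : Γ × O) (l : α × Bool), ∃ γ : Γ, E.π γ = E.pos z * mk [l] ∧
      ∃ w : E.G.Walk z (γ, E.o₁), w.length ≤ k := by
  choose lift hlift using fun l : α × Bool => E.surj (mk [l])
  have hw : ∀ (o : O) (g : Γ), Nonempty (E.G.Walk ((1 : Γ), o) (g, E.o₁)) := fun o g =>
    E.conn.preconnected _ _
  set k := 1 + ∑ o : O, ((hw o 1).some.length + ∑ l, (hw o (lift l)).some.length) with hk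
  have key : ∀ (z : Γ × O) (g : Γ), (hw z.2 g).some.length ≤ k →
      ∃ w : E.G.Walk z (z.1 * g, E.o₁), w.length ≤ k := by
    intro z g hle
    have h1 : (trIso E.hinv z.1).toHom ((1 : Γ), z.2) = z := by
      show tr z.1 _ = z
      simp [tr]
    have h2 : (trIso E.hinv z.1).toHom (g, E.o₁) = (z.1 * g, E.o₁) := rfl
    refine ⟨((hw z.2 g).some.map (trIso E.hinv z.1).toHom).copy h1 h2, ?_⟩
    rw [SimpleGraph.Walk.length_copy]
    exact le_of_eq_of_le (SimpleGraph.Walk.length_map _ _) hle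
  have hsum : ∀ o, (hw o 1).some.length + ∑ l, (hw o (lift l)).some.length ≤ k - 1 := fun o => by
    rw [hk, Nat.add_sub_cancel_left]
    exact single_le_sum (f := fun o => (hw o 1).some.length + ∑ l, (hw o (lift l)).some.length)
      (fun _ _ => Nat.zero_le _) (mem_univ o)
  refine ⟨k, by omega, fun z => ⟨z.1 * 1, by simp [pos], key z 1 ?_⟩,
    fun z l => ⟨z.1 * lift l, by simp [pos, hlift], key z _ ?_⟩⟩
  · have := hsum z.2; omega
  · have := hsum z.2
    have h2 := single_le_sum (f := fun l => (hw z.2 (lift l)).some.length)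
      (fun _ _ => Nat.zero_le _) (mem_univ l)
    omega

variable [Fintype O]

/-- The length of a walk above one letter. -/
noncomputable def leg : ℕ := E.exists_leg.choose

theorem one_le_leg : 1 ≤ E.leg := E.exists_leg.choose_spec.1

/-- A walk follows any word, ending at the anchor type. -/
theorem exists_path (w : List (α × Bool)) (z : Γ × O) :
    ∃ γ : Γ, E.π γ = E.pos z * mk w ∧ ∃ W : E.G.Walk z (γ, E.o₁),
      W.length ≤ E.leg * (w.length + 1) ∧
      ∀ v ∈ W.support, ∃ i ≤ w.length,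
        ((E.pos z * mk (w.take i))⁻¹ * E.pos v).norm ≤ E.L * E.leg := by
  induction w generalizing z with
  | nil =>
    obtain ⟨γ, hγ, W, hW⟩ := E.exists_leg.choose_spec.2.1 z
    refine ⟨γ, by simp [hγ, ← FreeGroup.one_eq_mk], W,
      by simpa [leg] using hW, fun v hv => ⟨0, le_rfl, ?_⟩⟩
    classical
    have h1 := E.norm_walk (W.takeUntil v hv)
    have h2 := W.length_takeUntil_le_length hv
    simp only [List.take_nil, ← FreeGroup.one_eq_mk, mul_one]
    exact h1.trans (Nat.mul_le_mul le_rfl (h2.trans hW))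
  | cons l w ih =>
    obtain ⟨γ, hγ, W, hW⟩ := E.exists_leg.choose_spec.2.2 z l
    obtain ⟨γ', hγ', W', hW', hsup⟩ := ih (γ, E.o₁)
    have hpos : E.pos (γ, E.o₁) = E.pos z * mk [l] := hγ
    refine ⟨γ', ?_, W.append W', ?_, fun v hv => ?_⟩
    · rw [hγ', hpos, mul_assoc, mul_mk]; rfl
    · have e : E.leg * ((l :: w).length + 1) = E.leg + E.leg * (w.length + 1) := by
        simp only [List.length_cons]; ring
      rw [e]
      simp only [SimpleGraph.Walk.length_append]
      exact add_le_add hW hW'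
    · rcases SimpleGraph.Walk.mem_support_append_iff W W' |>.1 hv with hv | hv
      · classical
        refine ⟨0, Nat.zero_le _, ?_⟩
        have h1 := E.norm_walk (W.takeUntil v hv)
        have h2 := W.length_takeUntil_le_length hv
        simp only [List.take_zero, ← FreeGroup.one_eq_mk, mul_one]
        exact h1.trans (Nat.mul_le_mul le_rfl (h2.trans hW))
      · obtain ⟨i, hi, hn⟩ := hsup v hv
        refine ⟨i + 1, by simp only [List.length_cons]; omega, ?_⟩
        rw [hpos, mul_assoc, mul_mk] at hn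
        exact hn

variable [DecidableEq Γ] [DecidableEq O]

omit [Fintype O] in
theorem hit_tr (γ : Γ) (S : Finset (Γ × O)) (p : ℝ) (a : Γ × O) (q : FreeGroup α)
    (w : List (α × Bool)) :
    hit E.nb (S.image (tr γ)) p (tr γ a) (E.above q w)
      = hit E.nb S p a (E.above ((E.π γ)⁻¹ * q) w) := by
  have h := hit_map E.hl (trIso E.hinv γ) S p a (E.above q w)
  rw [show (trIso E.hinv γ) ⁻¹' (E.above q w) = E.above ((E.π γ)⁻¹ * q) w from
    Set.ext fun x => E.tr_mem_above] at h
  exact h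

end Base

end Vale.Agent.P165.FP
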