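import Vale.Agent.P165.FP.Psi

/-!
# Markers, products of reduced words and the fixed half space
-/

namespace Vale.Agent.P165.FP

open Finset FF FreeGroup

section Words

variable {α : Type} [DecidableEq α]

omit [DecidableEq α] in
theorem red_replicate (n : ℕ) (a : α × Bool) : Red (List.replicate n a) := by
  induction n with
  | zero => exact List.isChain_nil
  | succ n ih =>
    rw [List.replicate_succ, FF.Red, List.isChain_cons]
    refine ⟨fun y hy => ?_, ih⟩
    cases n with
    | zero => simp at hy
    | succ m =>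
      simp only [List.replicate_succ, List.head?_cons, Option.mem_def, Option.some.injEq] at hy
      subst hy
      exact (li_ne _).symm

omit [DecidableEq α] in
theorem invRev_replicate (n : ℕ) (a : α × Bool) :
    invRev (List.replicate n a) = List.replicate n (li a) := by
  simp [invRev_eq]

theorem toWord_append {t : List (α × Bool)} {y : FreeGroup α} (h : Red (t ++ y.toWord)) :
    (mk t * y).toWord = t ++ y.toWord := by
  conv_lhs => rw [← mk_toWord (x := y), mul_mk]
  exact toWord_mk' h

theorem toWord_mul_eq_rel {t : List (α × Bool)} (ht : Red t) (y : FreeGroup α) :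
    (mk t * y).toWord = rel (invRev t) y.toWord := by
  have h := toWord_inv_mul (mk t)⁻¹ y
  rw [inv_inv, toWord_inv, toWord_mk' ht] at h
  exact h

/-- Multiplying by something not undoing the last part keeps the first part. -/
theorem prefix_mul {P Q : List (α × Bool)} (h : Red (P ++ Q)) {y : FreeGroup α}
    (hy : ¬ invRev Q <+: y.toWord) : P <+: (mk (P ++ Q) * y).toWord := by
  rw [toWord_mul_eq_rel h, invRev_append]
  obtain ⟨h1, -, h3, -⟩ := lcp_spec (invRev Q ++ invRev P) y.toWord
  set n := lcp (invRev Q ++ invRev P) y.toWord with hn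
  have hlt : n ≤ (invRev Q).length := by
    by_contra hc
    push Not at hc
    refine hy ?_
    have h4 : invRev Q <+: (invRev Q ++ invRev P).take n := by
      rw [List.take_append, List.take_of_length_le hc.le]
      exact List.prefix_append _ _
    rw [h3] at h4
    exact h4.trans (List.take_prefix _ _)
  rw [rel, ← hn, List.drop_append, Nat.sub_eq_zero_of_le hlt, List.drop_zero, invRev_append,
    invRev_invRev, List.append_assoc]
  exact List.prefix_append _ _

/-- A word far from `p` in the tree, when the first letters differ. -/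
theorem norm_ge_of_head {p : List (α × Bool)} (hp : Red p) {y : FreeGroup α}
    (h : ∀ x ∈ p.head?, ∀ b ∈ y.toWord.head?, x ≠ b) : y.norm ≤ ((mk p)⁻¹ * y).norm := by
  have h1 := toWord_inv_mul (mk p) y
  rw [toWord_mk' hp] at h1
  have h2 := length_rel p y.toWord
  rw [lcp_zero _ _ h] at h2
  simp only [FreeGroup.norm, h1]
  omega

theorem norm_mul_three (a b c : FreeGroup α) :
    (a⁻¹ * c).norm ≤ (a⁻¹ * b).norm + (b⁻¹ * c).norm := by
  calc (a⁻¹ * c).norm = ((a⁻¹ * b) * (b⁻¹ * c)).norm := by group
    _ ≤ _ := FreeGroup.norm_mul_le _ _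

theorem norm_symm (a b : FreeGroup α) : (a⁻¹ * b).norm = (b⁻¹ * a).norm := by
  rw [← FreeGroup.norm_inv_eq (x := a⁻¹ * b)]; group

theorem norm_mk_take_le (s : List (α × Bool)) (i : ℕ) :
    (mk (s.take i)).norm ≤ s.length :=
  FreeGroup.norm_mk_le.trans (List.length_take_le' _ _)

end Words

namespace Base

variable {Γ O ι α : Type} [Group Γ] [Fintype ι] [DecidableEq α] [Fintype α] (E : Base Γ O ι α)

theorem pad_spec (x : α × Bool) : E.pad x ≠ li x ∧ E.pad x ≠ E.a₀ := by
  refine @Classical.epsilon_spec _ (fun y => y ≠ li x ∧ y ≠ E.a₀) ?_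
  obtain ⟨y, hy⟩ := exists_avoid E.rank [li x, E.a₀] (by simp)
  exact ⟨y, by simpa using hy⟩

theorem strict_head {v : List (α × Bool)} (hv : E.Strict v) :
    ∀ b ∈ v.head?, b ≠ E.a₀ := fun b hb h => hv.2.2 (by rw [Option.mem_def] at hb; rw [hb, h])

theorem getLastD_mem {u : List (α × Bool)} (hu : u ≠ []) :
    u.getLast? = some (u.getLastD E.a₀) := by
  rw [List.getLastD_eq_getLast?, List.getLast?_eq_some_getLast hu, Option.getD_some]

variable [Fintype O]

theorem one_le_R : 1 ≤ E.R₁ := by rw [R₁]; omega

theorem mark_eq (x : α × Bool) :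
    E.mark x = E.pad x :: List.replicate E.R₁ (li E.a₀) := rfl

theorem mark_length (x : α × Bool) : (E.mark x).length = E.R₁ + 1 := by simp [mark]

theorem red_mark (x : α × Bool) : Red (E.mark x) := by
  rw [mark, FF.Red, List.isChain_cons]
  refine ⟨fun y hy h => ?_, red_replicate _ _⟩
  obtain ⟨m, hm⟩ : ∃ m, E.R₁ = m + 1 := ⟨E.R₁ - 1, by have := E.one_le_R; omega⟩
  simp only [hm, List.replicate_succ, List.head?_cons, Option.mem_def, Option.some.injEq] at hy
  subst hy
  have h2 := congrArg li h
  rw [li_li, li_li] at h2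
  exact (E.pad_spec x).2 h2.symm

theorem mark_getLast (x : α × Bool) : (E.mark x).getLast? = some (li E.a₀) := by
  obtain ⟨m, hm⟩ : ∃ m, E.R₁ = m + 1 := ⟨E.R₁ - 1, by have := E.one_le_R; omega⟩
  rw [mark_eq, hm, List.replicate_succ', ← List.cons_append, List.getLast?_concat]

/-- A code word followed by its marker is reduced. -/
theorem red_marked {u : List (α × Bool)} (hu : E.Strict u) :
    Red (u ++ E.mark (u.getLastD E.a₀)) := by
  refine red_append.2 ⟨hu.1, E.red_mark _, fun x hx y hy => ?_⟩
  rw [E.getLastD_mem hu.2.1, Option.mem_def, Option.some.injEq] at hx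
  subst hx
  simp only [mark, List.head?_cons, Option.mem_def, Option.some.injEq] at hy
  subst hy
  exact (E.pad_spec _).1

theorem red_join {u v : List (α × Bool)} (hu : E.Strict u) (hv : E.Strict v) :
    Red (E.join u v) := by
  refine red_append.2 ⟨E.red_marked hu, hv.1, fun x hx y hy => ?_⟩
  rw [List.getLast?_append, E.mark_getLast, Option.some_or, Option.mem_def, Option.some.injEq] at hx
  subst hx
  rw [li_li]
  exact E.strict_head hv y hy

theorem strict_join {u v : List (α × Bool)} (hu : E.Strict u) (hv : E.Strict v) :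
    E.Strict (E.join u v) := by
  refine ⟨E.red_join hu hv, fun h => hu.2.1 ?_, ?_⟩
  · simp only [join, List.append_eq_nil_iff] at h; exact h.1.1
  · rw [join, List.append_assoc, List.head?_append_of_ne_nil _ hu.2.1]
    exact hu.2.2

theorem join_prefix {u v u' v' : List (α × Bool)} {W : Finset (List (α × Bool))} (hW : PrefixFree W)
    (hu : u ∈ W) (hu' : u' ∈ W) (h : E.join u v <+: E.join u' v') : u = u' ∧ v <+: v' := by
  simp only [join, List.append_assoc] at h
  have he : u = u' := by
    rcases List.prefix_or_prefix_of_prefix (l₃ := u' ++ (E.mark (u'.getLastD E.a₀) ++ v'))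
      ((List.prefix_append u _).trans h) (List.prefix_append u' _) with hc | hc
    · exact hW u hu u' hu' hc
    · exact (hW u' hu' u hu hc).symm
  subst he
  exact ⟨rfl, (List.prefix_append_right_inj _).1 ((List.prefix_append_right_inj _).1 h)⟩

/-- Near a reduced word that starts differently there is no point of the fixed half space. -/
theorem not_b₀ {p : List (α × Bool)} (hp : Red p) (hh : p.head? ≠ some E.a₀) {y : FreeGroup α}
    (hn : ((mk p)⁻¹ * y).norm < E.R₁) : ¬ E.b₀ <+: y.toWord := by
  intro hb
  have hR := E.one_le_R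
  have hlen : E.R₁ ≤ y.toWord.length := by
    have := hb.length_le
    simpa [b₀] using this
  have hne : y.toWord.head? = some E.a₀ := by
    obtain ⟨c, hc⟩ := hb
    rw [← hc, b₀]
    obtain ⟨m, hm⟩ : ∃ m, E.R₁ = m + 1 := ⟨E.R₁ - 1, by omega⟩
    simp [hm, List.replicate_succ]
  have := norm_ge_of_head hp (y := y) fun x hx b hb' h => hh (by
    rw [Option.mem_def] at hx hb'
    rw [hne, Option.some.injEq] at hb'
    rw [hx, h, hb'])
  simp only [FreeGroup.norm] at this hn ⊢
  omega

end Base

end Vale.Agent.P165.FP
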