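import Vale.Agent.P165.FP.Cross
import Vale.Agent.P165.FP.Marks

/-!
# Decay of the connections to deep half spaces

A connection to the half space of a long word passes every cut along the word. The fibres at the
cuts form a few prefix-free families, so, given the bound on such families, the average cut costs a
small power of the radius over the length. A fixed number of cuts gives any power of the radius.
-/

namespace Vale.Agent.P165.FP

open Finset FF FreeGroup Filter

section Words

variable {α : Type} [DecidableEq α]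

/-- Removing an initial part of a reduced word. -/
theorem prefix_drop {P Q : List (α × Bool)} {g : FreeGroup α} (h : P ++ Q <+: g.toWord) :
    Q <+: ((mk P)⁻¹ * g).toWord := by
  obtain ⟨c, hc⟩ := h
  have hg := red_toWord g
  rw [← hc, List.append_assoc] at hg
  rw [← mk_toWord (x := g), ← hc, List.append_assoc, ← mul_mk, inv_mul_cancel_left,
    toWord_mk' (red_append.1 hg).2.1]
  exact List.prefix_append _ _

omit [DecidableEq α] in
/-- An extended word that branches off `v` is not below a later cut of `v`. -/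
theorem not_prefix_take {v x y : List (α × Bool)} {e d : α × Bool} {r : ℕ}
    (he : e ≠ v.getD x.length d) (hx : x.length + 1 ≤ r) (hr : r ≤ v.length)
    (hy : v.take r <+: y) : ¬ x ++ [e] <+: y := by
  intro h
  have h1 : x ++ [e] <+: v.take r := List.prefix_of_prefix_length_le h hy (by
    rw [List.length_take, List.length_append, List.length_singleton]; omega)
  obtain ⟨c, hc⟩ := h1.trans (List.take_prefix r v)
  refine he ?_
  rw [← hc]
  simp [List.getD_eq_getElem?_getD]

end Words

namespace Env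

open Base

variable {Γ O ι α : Type} [Group Γ] [Fintype ι] [DecidableEq α] [Fintype α] [Fintype O]
  [DecidableEq Γ] [DecidableEq O] (E : Env Γ O ι α) {p : ℝ}

/-- The bound on the sum of the fibres of a prefix-free family seen from the tip of a half space. -/
def TailBound (p δ : ℝ) (R₀ : ℕ) : Prop :=
  ∀ R, R₀ ≤ R → ∀ (m : α × Bool) (a : Γ × O), a ∈ E.above 1 [m] →
    (E.pos a).norm ≤ E.L + 1 → ∀ (Q : Finset (FreeGroup α)) (ext : FreeGroup α → α × Bool),
    (∀ x ∈ Q, [m] <+: x.toWord ∧ Red (x.toWord ++ [ext x])) →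
    Set.InjOn (fun x => x.toWord ++ [ext x]) Q →
    PrefixFree (Q.image fun x => x.toWord ++ [ext x]) →
      ∑ x ∈ Q, E.mass p (E.side a R m) a x ≤ (R : ℝ) ^ δ

open Classical in
/-- The points of a window at which a cut of `v` can be entered. -/
noncomputable def gate (S : Finset (Γ × O)) (v : List (α × Bool)) (r : ℕ) : Finset (Γ × O) :=
  S.filter fun z => v.take r <+: (E.pos z).toWord ∧ ((mk (v.take r))⁻¹ * E.pos z).norm ≤ E.L

/-- All cuts of a word together cost a small power of the radius. -/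
theorem gate_sum_le (hp : 0 ≤ p) (hp1 : p ≤ 1) {δ : ℝ} {R₀ R : ℕ} (ht : E.TailBound p δ R₀)
    (hR : R₀ ≤ R) {m : α × Bool} {a : Γ × O} (ha : a ∈ E.above 1 [m])
    (hna : (E.pos a).norm ≤ E.L + 1) {v : List (α × Bool)} (hm : v.head? = some m) (I : Finset ℕ)
    (hI : ∀ r ∈ I, 1 ≤ r ∧ r ≤ v.length) :
    ∑ r ∈ I, ∑ z ∈ E.gate (E.side a R m) v r, tauIn E.nb (E.side a R m) p a z
      ≤ (((ballF (α := α) E.L).card * (E.L + 1) : ℕ) : ℝ) * (R : ℝ) ^ δ := by
  classical
  set S := E.side a R m
  set x : ℕ → FreeGroup α → FreeGroup α := fun r s => mk (v.take r) * s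
  set good : ℕ → FreeGroup α → Prop := fun r s => v.take r <+: (x r s).toWord
  have hword : ∀ r s, good r s → (x r s).toWord = v.take r ++ s.toWord := by
    intro r s h
    obtain ⟨c, hc⟩ := h
    have hs : s = mk c := mul_left_cancel (a := mk (v.take r)) (by
      rw [mul_mk, hc, mk_toWord])
    have hred := red_toWord (x r s)
    rw [← hc] at hred
    rw [← hc, hs, toWord_mk' (red_append.1 hred).2.1]
  have h1 : ∀ r ∈ I, ∑ z ∈ E.gate S v r, tauIn E.nb S p a z
      ≤ ∑ s ∈ (ballF E.L).filter (good r), E.mass p S a (x r s) := by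
    intro r _
    have hmap : ∀ z ∈ E.gate S v r, (mk (v.take r))⁻¹ * E.pos z ∈ (ballF E.L).filter (good r) := by
      intro z hz
      obtain ⟨-, hz1, hz2⟩ := mem_filter.1 hz
      refine mem_filter.2 ⟨mem_ballF hz2, ?_⟩
      simpa only [good, x, mul_inv_cancel_left] using hz1
    rw [← sum_fiberwise_of_maps_to hmap]
    refine sum_le_sum fun s _ => sum_le_sum_of_subset_of_nonneg ?_
      fun z _ _ => tauIn_nonneg S hp hp1 a z
    intro z hz
    obtain ⟨hzg, hzs⟩ := mem_filter.1 hz
    refine mem_filter.2 ⟨(mem_filter.1 hzg).1, ?_⟩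
    simp only [x, ← hzs, mul_inv_cancel_left]
  refine (sum_le_sum h1).trans ?_
  rw [sum_comm' (t' := ballF E.L) (s' := fun s => I.filter fun r => good r s)
    (fun r s => by simp only [mem_filter]; tauto)]
  refine (sum_le_card_nsmul _ _ (((E.L + 1 : ℕ) : ℝ) * (R : ℝ) ^ δ) fun s hs => ?_).trans
    (le_of_eq (by rw [nsmul_eq_mul, Nat.cast_mul, mul_assoc]))
  rw [mem_ballF_iff] at hs
  rw [← sum_fiberwise_of_maps_to (g := fun r => r % (E.L + 1)) (t := range (E.L + 1))
    fun r _ => mem_range.2 (Nat.mod_lt _ (Nat.succ_pos _))]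
  refine (sum_le_card_nsmul _ _ ((R : ℝ) ^ δ) fun c _ => ?_).trans
    (le_of_eq (by rw [nsmul_eq_mul, card_range]))
  set F := (I.filter fun r => good r s).filter fun r => r % (E.L + 1) = c
  have hF : ∀ r ∈ F, 1 ≤ r ∧ r ≤ v.length ∧ (x r s).toWord = v.take r ++ s.toWord ∧
      (x r s).toWord.length = r + s.norm ∧ r % (E.L + 1) = c := by
    intro r hr
    obtain ⟨hr', hc⟩ := mem_filter.1 hr
    obtain ⟨hr1, hr2⟩ := mem_filter.1 hr'
    obtain ⟨g1, g2⟩ := hI r hr1
    refine ⟨g1, g2, hword r s hr2, ?_, hc⟩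
    rw [hword r s hr2, List.length_append, List.length_take, FreeGroup.norm, min_eq_left g2]
  have havoid : ∀ y : FreeGroup α, ∃ e, e ∉ [li (y.toWord.getLastD E.a₀), v.getD y.toWord.length E.a₀] :=
    fun y => exists_avoid E.rank _ (by simp)
  choose ext hext using havoid
  simp only [List.mem_cons, List.not_mem_nil, or_false, not_or] at hext
  have hinj : Set.InjOn (fun r => x r s) ↑F := by
    intro r hr r' hr' e
    have h := congrArg (fun g : FreeGroup α => g.toWord.length) e
    simp only [(hF r hr).2.2.2.1, (hF r' hr').2.2.2.1] at h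
    omega
  rw [← sum_image (g := fun r => x r s) (f := fun q => E.mass p S a q) hinj]
  refine ht R hR m a ha hna _ ext (fun y hy => ?_) ?_ ?_
  · obtain ⟨r, hr, rfl⟩ := mem_image.1 hy
    obtain ⟨h1, h2, h3, -⟩ := hF r hr
    refine ⟨?_, red_append.2 ⟨red_toWord _, List.isChain_singleton _, fun z hz w hw => ?_⟩⟩
    · rw [h3]
      refine List.IsPrefix.trans ?_ (List.prefix_append _ _)
      cases v with
      | nil => simp at hm
      | cons b t =>
        simp only [List.head?_cons, Option.some.injEq] at hm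
        subst hm
        obtain ⟨r, rfl⟩ : ∃ i, r = i + 1 := ⟨r - 1, by omega⟩
        simp [List.take_succ_cons]
    · simp only [List.head?_cons, Option.mem_def, Option.some.injEq] at hw
      subst hw
      have := (hext (x r s)).1
      rwa [List.getLastD_eq_getLast?, Option.mem_def.1 hz, Option.getD_some] at this
  · intro y _ y' _ e
    exact toWord_injective (List.append_inj_left' e rfl)
  · intro u hu u' hu' hpre
    obtain ⟨y, hy, rfl⟩ := mem_image.1 hu
    obtain ⟨r, hr, rfl⟩ := mem_image.1 hy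
    obtain ⟨y', hy', rfl⟩ := mem_image.1 hu'
    obtain ⟨r', hr', rfl⟩ := mem_image.1 hy'
    obtain ⟨-, -, e1, l1, c1⟩ := hF r hr
    obtain ⟨-, k2, e2, l2, c2⟩ := hF r' hr'
    have hlen := hpre.length_le
    simp only [List.length_append, List.length_singleton, l1, l2] at hlen
    rcases eq_or_lt_of_le (show r ≤ r' by omega) with rfl | hlt
    · rfl
    · have hmod : r + (E.L + 1) ≤ r' := by
        have h := (Nat.modEq_iff_dvd' hlt.le).1 (show r ≡ r' [MOD E.L + 1] from c1.trans c2.symm)
        have := Nat.le_of_dvd (by omega) h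
        omega
      refine absurd hpre (not_prefix_take (hext (x r s)).2 (by rw [l1]; omega) k2 ?_)
      rw [e2, List.append_assoc]
      exact List.prefix_append _ _

/-- A fixed number of cuts. -/
theorem hit_cuts (hp : 0 ≤ p) (hp1 : p ≤ 1) {δ : ℝ} {R₀ : ℕ}
    (ht : E.TailBound p δ R₀) (k : ℕ) :
    ∃ (C : ℝ) (N₁ : ℕ), 0 ≤ C ∧ ∀ R, R₀ ≤ R → ∀ (m : α × Bool) (a : Γ × O), a ∈ E.above 1 [m] →
      (E.pos a).norm ≤ E.L + 1 → ∀ v : List (α × Bool), Red v → v.head? = some m →
      N₁ ≤ v.length →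
        hit E.nb (E.side a R m) p a (E.above 1 v) ≤ C * ((R : ℝ) ^ δ / v.length) ^ k := by
  classical
  induction k with
  | zero =>
    exact ⟨1, 0, zero_le_one, fun R _ m a _ _ v _ _ _ => by
      rw [pow_zero, one_mul]; exact hit_le_one _ hp hp1 _ _⟩
  | succ k ih =>
    obtain ⟨C, N₁, hC, hih⟩ := ih
    set CT : ℝ := (((ballF (α := α) E.L).card * (E.L + 1) : ℕ) : ℝ)
    refine ⟨8 * CT * (C * (2 * (2 : ℝ) ^ δ) ^ k), 2 * N₁ + 8 * (E.L + 3), by positivity,
      fun R hR m a ha hna v hv hm hN => ?_⟩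
    set N := v.length with hNdef
    set S := E.side a R m
    set X : ℝ := (R : ℝ) ^ δ / N
    set B : ℝ := C * (2 * (2 : ℝ) ^ δ) ^ k * X ^ k
    have hB : 0 ≤ B := by positivity
    have hN0 : (0 : ℝ) < N := by exact_mod_cast (show 0 < N by omega)
    set I := Finset.Ioc (N / 4) (N / 2)
    have hI : ∀ r ∈ I, E.L + 2 ≤ r ∧ r ≤ N ∧ 2 * r ≤ N := fun r hr => by
      have := Finset.mem_Ioc.1 hr
      omega
    have hcut : ∀ r ∈ I, hit E.nb S p a (E.above 1 v)
        ≤ (∑ z ∈ E.gate S v r, tauIn E.nb S p a z) * B := by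
      intro r hr
      obtain ⟨hr1, hr2, hr3⟩ := hI r hr
      have haK : a ∉ E.above 1 (v.take r) := by
        rw [E.mem_above_one]
        intro h
        have := h.length_le
        rw [List.length_take] at this
        simp only [FreeGroup.norm] at hna
        omega
      have hZ : ∀ x y, E.G.Adj x y → x ∉ E.above 1 (v.take r) → y ∈ E.above 1 (v.take r) → y ∈ S →
          y ∈ E.gate S v r := by
        intro x y hxy hx hy hyS
        refine mem_filter.2 ⟨hyS, E.mem_above_one.1 hy, ?_⟩
        have h := E.cross hxy hx hy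
        rw [one_mul] at h
        exact h.le
      set S' := S.filter fun y => y ∈ E.above 1 (v.take r) with hS'
      refine (hit_last_entrance E.hl S S' (E.above 1 (v.take r)) (E.gate S v r) hp hp1 haK hZ
        (fun y hy hyK => mem_filter.2 ⟨hy, hyK⟩) (E.above 1 v) fun y hy =>
          E.mem_above_one.2 ((List.take_prefix r v).trans (E.mem_above_one.1 hy))).trans ?_
      rw [sum_mul]
      refine sum_le_sum fun z hz => mul_le_mul_of_nonneg_left ?_ (tauIn_nonneg S hp hp1 a z)
      obtain ⟨hzS, hz1, hz2⟩ := mem_filter.1 hz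
      obtain ⟨i, rfl⟩ : ∃ i, r = i + 1 := ⟨r - 1, by omega⟩
      have hi : i < v.length := by omega
      have htake : v.take (i + 1) = v.take i ++ [v[i]] := (List.take_concat_get' v i hi).symm
      obtain ⟨γ, hγ⟩ := E.surj (mk (v.take i))⁻¹
      have hT : E.above 1 v ⊆ E.above (mk (v.take i)) (v.drop i) := fun y hy => by
        refine prefix_drop ?_
        rw [List.take_append_drop]
        exact E.mem_above_one.1 hy
      refine (hit_mono E.hl Subset.rfl hT hp hp1 z).trans ?_
      have hteq := E.hit_tr γ S' p z 1 (v.drop i)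
      rw [hγ, inv_inv, mul_one] at hteq
      rw [← hteq]
      have hin : ∀ y ∈ S', tr γ y ∈ E.side (tr γ z) (2 * R) v[i] := by
        intro y hy
        obtain ⟨hyS, hyK⟩ := mem_filter.1 hy
        have l1 : E.len (a.1⁻¹ * y.1) ≤ R := E.mem_cyl.1 (mem_filter.1 hyS).1
        have l2 : E.len (a.1⁻¹ * z.1) ≤ R := E.mem_cyl.1 (mem_filter.1 hzS).1
        refine mem_filter.2 ⟨E.mem_cyl.2 ?_, E.mem_above_one.2 ?_⟩
        · show E.len ((γ * z.1)⁻¹ * (γ * y.1)) ≤ 2 * R
          rw [show (γ * z.1)⁻¹ * (γ * y.1) = (a.1⁻¹ * z.1)⁻¹ * (a.1⁻¹ * y.1) by group]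
          refine (E.len_mul _ _).trans ?_
          rw [E.len_inv]
          omega
        · rw [E.pos_tr, hγ]
          exact prefix_drop (htake ▸ E.mem_above_one.1 hyK)
      refine (hit_mono E.hl (fun y hy => ?_) Set.Subset.rfl hp hp1 _).trans
        ((hih (2 * R) (by omega) v[i] (tr γ z) ?_ ?_ (v.drop i) (red_drop hv i) ?_ ?_).trans ?_)
      · obtain ⟨y, hy', rfl⟩ := mem_image.1 hy
        exact hin y hy'
      · rw [E.mem_above_one, E.pos_tr, hγ]
        exact prefix_drop (htake ▸ hz1)
      · rw [E.pos_tr, hγ]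
        have e : (mk (v.take i))⁻¹ * E.pos z = mk [v[i]] * ((mk (v.take (i + 1)))⁻¹ * E.pos z) := by
          rw [htake, ← mul_mk]; group
        rw [e]
        refine (FreeGroup.norm_mul_le _ _).trans ?_
        have := FreeGroup.norm_mk_le (L₁ := [v[i]])
        simp only [List.length_singleton] at this
        omega
      · rw [List.head?_drop, List.getElem?_eq_getElem hi]
      · rw [List.length_drop]; omega
      · simp only [B, mul_assoc]
        refine mul_le_mul_of_nonneg_left ?_ hC
        rw [← mul_pow]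
        refine pow_le_pow_left₀ (by positivity) ?_ k
        have hle : (N : ℝ) / 2 ≤ ((v.drop i).length : ℝ) := by
          have : N ≤ 2 * (v.drop i).length := by rw [List.length_drop]; omega
          have h : (N : ℝ) ≤ 2 * ((v.drop i).length : ℝ) := by exact_mod_cast this
          linarith
        refine (div_le_div_of_nonneg_left (by positivity) (by linarith) hle).trans (le_of_eq ?_)
        push_cast
        rw [Real.mul_rpow (by norm_num) (Nat.cast_nonneg R)]
        simp only [X]
        field_simp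
    have hsum := sum_le_sum hcut
    rw [sum_const, nsmul_eq_mul, Nat.card_Ioc, ← sum_mul] at hsum
    replace hsum := hsum.trans (mul_le_mul_of_nonneg_right
      (E.gate_sum_le hp hp1 ht hR ha hna hm I fun r hr => ⟨by have := hI r hr; omega, (hI r hr).2.1⟩) hB)
    have hcard : (N : ℝ) ≤ 8 * ((N / 2 - N / 4 : ℕ) : ℝ) := by
      exact_mod_cast (show N ≤ 8 * (N / 2 - N / 4) by omega)
    have h0 := hit_nonneg (nb := E.nb) S hp hp1 a (E.above 1 v)
    have key : (N : ℝ) * hit E.nb S p a (E.above 1 v) ≤ 8 * (CT * (R : ℝ) ^ δ * B) :=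
      (mul_le_mul_of_nonneg_right hcard h0).trans (by linarith)
    calc hit E.nb S p a (E.above 1 v) ≤ 8 * (CT * (R : ℝ) ^ δ * B) / N := by
          rw [le_div_iff₀ hN0, mul_comm]; exact key
      _ = _ := by simp only [B, X]; ring

/-- The decay, given the bound on prefix-free families of fibres. -/
theorem exists_decay_of_tail (hp : E.Crit p) {ε : ℝ} (hε : 0 < ε) (A : ℕ)
    (ht : ∃ R₀, E.TailBound p (ε / 2) R₀) :
    ∃ R₀ : ℕ, ∀ R, R₀ ≤ R → ∀ (m : α × Bool) (a : Γ × O), a ∈ E.above 1 [m] →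
      (E.pos a).norm ≤ E.L + 1 → ∀ v : List (α × Bool), Red v → v.head? = some m →
      (R : ℝ) ^ ε ≤ v.length →
        hit E.nb (E.side a R m) p a (E.above 1 v) ≤ 1 / (R : ℝ) ^ A := by
  obtain ⟨Rt, ht⟩ := ht
  obtain ⟨k, hk⟩ := exists_nat_ge (((A : ℝ) + 1) / (ε / 2))
  rw [div_le_iff₀ (by positivity)] at hk
  obtain ⟨C, N₁, hC, hcuts⟩ := E.hit_cuts hp.1.le hp.2.1 ht k
  have hev : ∀ᶠ R : ℕ in atTop, (N₁ : ℝ) ≤ (R : ℝ) ^ ε :=
    ((tendsto_rpow_atTop hε).comp tendsto_natCast_atTop_atTop).eventually (eventually_ge_atTop _)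
  obtain ⟨R₁, hR₁⟩ := eventually_atTop.1 hev
  refine ⟨Rt + R₁ + ⌈C⌉₊ + 1, fun R hR m a ha hna v hv hm hN => ?_⟩
  have hRpos : (0 : ℝ) < R := by exact_mod_cast (show 0 < R by omega)
  have hR1 : (1 : ℝ) ≤ R := by exact_mod_cast (show 1 ≤ R by omega)
  have hlen : N₁ ≤ v.length := by exact_mod_cast (hR₁ R (by omega)).trans hN
  refine (hcuts R (by omega) m a ha hna v hv hm hlen).trans ?_
  have hX : (R : ℝ) ^ (ε / 2) / v.length ≤ ((R : ℝ) ^ (ε / 2))⁻¹ := by
    refine (div_le_div_of_nonneg_left (by positivity) (Real.rpow_pos_of_pos hRpos ε) hN).trans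
      (le_of_eq ?_)
    rw [show (R : ℝ) ^ ε = (R : ℝ) ^ (ε / 2) * (R : ℝ) ^ (ε / 2) by
      rw [← Real.rpow_add hRpos, add_halves]]
    field_simp
  refine (mul_le_mul_of_nonneg_left (pow_le_pow_left₀ (by positivity) hX k) hC).trans ?_
  rw [inv_pow, ← Real.rpow_natCast ((R : ℝ) ^ (ε / 2)) k, ← Real.rpow_mul hRpos.le, one_div,
    ← div_eq_mul_inv, div_le_iff₀ (Real.rpow_pos_of_pos hRpos _), ← Real.rpow_natCast (R : ℝ) A,
    ← Real.rpow_neg hRpos.le, ← Real.rpow_add hRpos]
  refine (Nat.le_ceil C).trans (le_trans (show (⌈C⌉₊ : ℝ) ≤ (R : ℝ) by exact_mod_cast (show ⌈C⌉₊ ≤ R by omega)) ?_)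
  refine le_trans (le_of_eq (Real.rpow_one _).symm) (Real.rpow_le_rpow_of_exponent_le hR1 ?_)
  linarith

end Env

end Vale.Agent.P165.FP
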