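import Vale.Agent.P165.FF.Sub
import Vale.Agent.P165.FXZ.Pivot

/-!
# Groups with a free quotient and a kernel of polynomial growth: definitions

A graph on finitely many copies of a group, invariant under translations, the map to the free
quotient, balls for a length function, and connection probabilities to half spaces of the quotient.
-/

namespace Vale.Agent.P165.FP

open Finset FF

variable {α : Type}

/-- No word of the family is a proper prefix of another one. -/
def PrefixFree (W : Finset (List (α × Bool))) : Prop := ∀ u ∈ W, ∀ v ∈ W, u <+: v → u = v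

section Hit

variable {V ι : Type} [DecidableEq V] [Fintype ι]

/-- The probability that `a` is joined to the set `T` inside `S`. -/
noncomputable def hit (nb : V → ι → V) (S : Finset V) (p : ℝ) (a : V) (T : Set V) : ℝ :=
  avg (inE nb S) p fun η => ind (FXZ.Hit T a η)

end Hit

/-- An invariant graph on `Γ × O`, a free quotient of `Γ` and a length. Nothing is assumed on the
kernel. -/
structure Base (Γ O ι α : Type) [Group Γ] [Fintype ι] [DecidableEq α] [Fintype α] where
  make ::
  /-- The graph. -/
  G : SimpleGraph (Γ × O)
  /-- The neighbours of a vertex. -/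
  nb : Γ × O → ι → Γ × O
  hl : Labelling G nb
  hinv : Inv G
  conn : G.Connected
  /-- The anchor type. -/
  o₁ : O
  rank : 2 ≤ Fintype.card α
  /-- The quotient map. -/
  π : Γ →* FreeGroup α
  surj : Function.Surjective π
  /-- The length. -/
  len : Γ → ℕ
  len_one : len 1 = 0
  len_mul : ∀ g h, len (g * h) ≤ len g + len h
  len_inv : ∀ g, len g⁻¹ = len g
  len_finite : ∀ R, {g | len g ≤ R}.Finite
  step : ∀ x y, G.Adj x y → len (x.1⁻¹ * y.1) ≤ 1
  /-- The Lipschitz constant of the quotient map. -/
  L : ℕ
  one_le_L : 1 ≤ L
  lip : ∀ g, (π g).norm ≤ L * len g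

/-- A setting in which, for the length, the kernel has polynomial growth. -/
structure Env (Γ O ι α : Type) [Group Γ] [Fintype ι] [DecidableEq α] [Fintype α]
    extends Base Γ O ι α where
  build ::
  /-- The constant in the growth of the kernel. -/
  Cg : ℕ
  /-- The degree of the growth of the kernel. -/
  deg : ℕ
  growth : ∀ R, {g | toBase.π g = 1 ∧ toBase.len g ≤ R}.ncard ≤ Cg * (R + 1) ^ deg

namespace Base

variable {Γ O ι : Type} [Group Γ] [Fintype ι] [DecidableEq α] [Fintype α] (E : Base Γ O ι α)

/-- The image of a vertex in the free group. -/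
def pos (x : Γ × O) : FreeGroup α := E.π x.1

/-- The vertices whose image, seen from `q`, begins with the word `w`. -/
def above (q : FreeGroup α) (w : List (α × Bool)) : Set (Γ × O) :=
  {x | w <+: (q⁻¹ * E.pos x).toWord}

/-- The ball of the length around a vertex, with all types. -/
noncomputable def cyl [Fintype O] (a : Γ × O) (R : ℕ) : Finset (Γ × O) :=
  ((E.len_finite R).toFinset.map (mulLeftEmbedding a.1)) ×ˢ univ

/-- The number of elements of the kernel of length at most `R`. -/
noncomputable def kerCount (R : ℕ) : ℕ := {g | E.π g = 1 ∧ E.len g ≤ R}.ncard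

include E in
theorem nonempty_alpha : Nonempty α := Fintype.card_pos_iff.1 (by have := E.rank; omega)

/-- A fixed letter. -/
noncomputable def a₀ : α × Bool := (E.nonempty_alpha.some, true)

/-- A letter may be followed by any nonempty reduced word that starts differently. -/
def Strict (v : List (α × Bool)) : Prop := Red v ∧ v ≠ [] ∧ v.head? ≠ some E.a₀

/-- The letter following `x` in a marker. -/
noncomputable def pad (x : α × Bool) : α × Bool :=
  @Classical.epsilon _ ⟨E.a₀⟩ fun y => y ≠ li x ∧ y ≠ E.a₀

theorem mem_cyl [Fintype O] {a x : Γ × O} {R : ℕ} : x ∈ E.cyl a R ↔ E.len (a.1⁻¹ * x.1) ≤ R := by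
  simp only [cyl, mem_product, mem_univ, and_true, mem_map, Set.Finite.mem_toFinset,
    Set.mem_ofPred_eq, mulLeftEmbedding_apply]
  exact ⟨fun ⟨g, hg, h⟩ => by rw [← h, inv_mul_cancel_left]; exact hg,
    fun h => ⟨_, h, mul_inv_cancel_left _ _⟩⟩

variable [Fintype O] [DecidableEq Γ] [DecidableEq O]

/-- The expected number of points over `q` joined to `a` inside `U`. -/
noncomputable def mass (p : ℝ) (U : Finset (Γ × O)) (a : Γ × O) (q : FreeGroup α) : ℝ :=
  ∑ y ∈ U.filter fun y => E.pos y = q, tauIn E.nb U p a y

open Classical in
/-- The window of radius `R` around `a`, over the words beginning with `m`. -/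
noncomputable def side (a : Γ × O) (R : ℕ) (m : α × Bool) : Finset (Γ × O) :=
  (E.cyl a R).filter fun x => x ∈ E.above 1 [m]

end Base

end Vale.Agent.P165.FP
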