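import Vale.Agent.P165.FP.Defs

/-!
# The setting from a free quotient

The length is the word length in the displacements along the edges. Products of a free group and an
abelian group satisfy the hypothesis on the kernel.
-/

namespace Vale.Agent.P165.FP

open Finset FF

/-- Kernel elements among the short products of any finite set grow at most polynomially. -/
def PolyKernel {Γ H : Type} [Group Γ] [Group H] (π : Γ →* H) : Prop :=
  ∀ S : Finset Γ, ∃ C d : ℕ, ∀ n : ℕ,
    {g : Γ | π g = 1 ∧ ∃ l : List Γ, l.length ≤ n ∧ (∀ s ∈ l, s ∈ S) ∧ l.prod = g}.ncard ≤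
      C * (n + 1) ^ d

section Products

variable {M : Type} [Monoid M]

/-- The products of at most `n` elements of a finite set form a finite set. -/
theorem finite_short (S : Finset M) (n : ℕ) :
    {g : M | ∃ l : List M, l.length ≤ n ∧ (∀ s ∈ l, s ∈ S) ∧ l.prod = g}.Finite := by
  induction n with
  | zero =>
    refine (Set.finite_singleton 1).subset ?_
    rintro g ⟨l, hl, -, rfl⟩
    simp [List.length_eq_zero_iff.1 (Nat.le_zero.1 hl)]
  | succ n ih =>
    refine ((Set.finite_singleton 1).union (S.finite_toSet.image2 (· * ·) ih)).subset ?_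
    rintro g ⟨_ | ⟨a, l⟩, hl, hS, rfl⟩
    · exact Or.inl rfl
    · refine Or.inr ⟨a, hS a List.mem_cons_self, l.prod, ⟨l, Nat.le_of_succ_le_succ hl,
        fun s hs => hS s (List.mem_cons_of_mem a hs), rfl⟩, (List.prod_cons).symm⟩

/-- In a commutative monoid there are polynomially many short products. -/
theorem ncard_short_le {A : Type} [CommMonoid A] (T : Finset A) (n : ℕ) :
    {a : A | ∃ l : List A, l.length ≤ n ∧ (∀ s ∈ l, s ∈ T) ∧ l.prod = a}.ncard ≤
      (n + 1) ^ T.card := by
  classical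
  let f : (T → Fin (n + 1)) → A := fun k => ∏ t : T, (t : A) ^ (k t : ℕ)
  calc _ ≤ (Set.range f).ncard := by
        refine Set.ncard_le_ncard ?_ (Set.finite_range f)
        rintro a ⟨l, hl, hT, rfl⟩
        refine ⟨fun t => ⟨l.count (t : A), Nat.lt_succ_of_le (l.count_le_length.trans hl)⟩, ?_⟩
        show ∏ t : T, (t : A) ^ l.count (t : A) = l.prod
        rw [Finset.prod_list_count l, Finset.prod_coe_sort T fun a => a ^ l.count a]
        refine (prod_subset (fun a ha => hT a (List.mem_toFinset.1 ha)) fun a _ ha => ?_).symm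
        rw [List.count_eq_zero.2 (fun h => ha (List.mem_toFinset.2 h)), pow_zero]
    _ ≤ Nat.card (T → Fin (n + 1)) := by
        rw [← Nat.card_coe_set_eq]
        exact Finite.card_range_le f
    _ = _ := by simp

end Products

/-- The projection of a product with an abelian group has a kernel of polynomial growth. -/
theorem polyKernel_fst {F A : Type} [Group F] [CommGroup A] :
    PolyKernel (MonoidHom.fst F A) := by
  classical
  intro S
  refine ⟨1, (S.image Prod.snd).card, fun n => ?_⟩
  rw [one_mul]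
  refine le_trans ?_ (ncard_short_le (S.image Prod.snd) n)
  refine Set.ncard_le_ncard_of_injOn Prod.snd ?_ ?_ (finite_short _ n)
  · rintro g ⟨-, l, hl, hS, rfl⟩
    refine ⟨l.map Prod.snd, by simpa using hl, fun s hs => ?_,
      (map_list_prod (MonoidHom.snd F A) l).symm⟩
    obtain ⟨a, ha, rfl⟩ := List.mem_map.1 hs
    exact mem_image_of_mem _ (hS a ha)
  · rintro g ⟨hg, -⟩ g' ⟨hg', -⟩ h
    exact Prod.ext (hg.trans hg'.symm) h

variable {Γ O ι α : Type} [Group Γ] [Fintype ι] [DecidableEq α] [Fintype α] [Fintype O]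
  {G : SimpleGraph (Γ × O)} {nb : Γ × O → ι → Γ × O}

/-- The setting exists, with the length a word length. -/
theorem exists_base [Nonempty O] (hl : Labelling G nb) (hinv : Inv G) (hc : G.Connected)
    (hr : 2 ≤ Fintype.card α) (π : Γ →* FreeGroup α) (hπ : Function.Surjective π) :
    ∃ E : Base Γ O ι α, E.G = G ∧ E.π = π ∧ ∃ S : Finset Γ, ∀ g n, E.len g ≤ n →
      ∃ l : List Γ, l.length ≤ n ∧ (∀ s ∈ l, s ∈ S) ∧ l.prod = g := by
  classical
  set D : Finset Γ := (univ : Finset (O × ι)).image fun q => (nb ((1 : Γ), q.1) q.2).1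
  set S : Finset Γ := D ∪ D.image fun g => g⁻¹
  have hSinv : ∀ s ∈ S, s⁻¹ ∈ S := fun s hs => by
    rcases mem_union.1 hs with h | h
    · exact mem_union_right _ (mem_image_of_mem _ h)
    · obtain ⟨t, ht, rfl⟩ := mem_image.1 h
      rw [inv_inv]; exact mem_union_left _ ht
  have hedge : ∀ x y, G.Adj x y → x.1⁻¹ * y.1 ∈ S := fun x y h => by
    have h' := (hinv x.1⁻¹ x y).2 h
    rw [show tr x.1⁻¹ x = ((1 : Γ), x.2) by simp [tr]] at h'
    obtain ⟨j, hj⟩ := (hl.adj _ _).1 h'
    exact mem_union_left _ (mem_image.2 ⟨(x.2, j), mem_univ _, by rw [hj]; rfl⟩)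
  set P : Γ → ℕ → Prop := fun g n => ∃ l : List Γ, l.length ≤ n ∧ (∀ s ∈ l, s ∈ S) ∧ l.prod = g
  have hex : ∀ g, ∃ n, P g n := fun g => by
    obtain ⟨w⟩ := hc.preconnected ((1 : Γ), Classical.arbitrary O) (g, Classical.arbitrary O)
    have key : ∀ {x y : Γ × O} (w : G.Walk x y), P (x.1⁻¹ * y.1) w.length := by
      intro x y w
      induction w with
      | nil => exact ⟨[], le_rfl, by simp, by simp⟩
      | @cons a b c h q ih =>
        obtain ⟨l, hl', hlS, hlp⟩ := ih
        refine ⟨(a.1⁻¹ * b.1) :: l, Nat.succ_le_succ hl',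
          List.forall_mem_cons.2 ⟨hedge a b h, hlS⟩, ?_⟩
        rw [List.prod_cons, hlp, mul_assoc, mul_inv_cancel_left]
    exact ⟨w.length, by simpa using key w⟩
  set len : Γ → ℕ := fun g => Nat.find (hex g)
  have hlen : ∀ g, P g (len g) := fun g => Nat.find_spec (hex g)
  have hle : ∀ {g n}, P g n → len g ≤ n := fun {g n} h => Nat.find_min' (hex g) h
  have hP : ∀ {g n}, len g ≤ n → P g n := fun {g n} h => by
    obtain ⟨l, h1, h2⟩ := hlen g
    exact ⟨l, h1.trans h, h2⟩
  set L := 1 + ∑ s ∈ S, (π s).norm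
  refine ⟨Base.make G nb hl hinv hc (Classical.arbitrary O) hr π hπ len ?_ ?_ ?_ ?_ ?_ L
    (Nat.le_add_right 1 _) ?_, rfl, rfl, S, fun g n h => hP h⟩
  · exact Nat.le_zero.1 (hle ⟨[], le_rfl, by simp, rfl⟩)
  · intro g h
    obtain ⟨l, h1, h2, h3⟩ := hlen g
    obtain ⟨l', h1', h2', h3'⟩ := hlen h
    refine hle ⟨l ++ l', by rw [List.length_append]; omega, fun s hs => ?_,
      by rw [List.prod_append, h3, h3']⟩
    rcases List.mem_append.1 hs with hs | hs
    exacts [h2 s hs, h2' s hs]
  · intro g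
    have key : ∀ g, len g⁻¹ ≤ len g := fun g => by
      obtain ⟨l, h1, h2, h3⟩ := hlen g
      refine hle ⟨(l.map fun s => s⁻¹).reverse, by simpa using h1, fun s hs => ?_,
        by rw [← h3, List.prod_inv_reverse]⟩
      obtain ⟨t, ht, rfl⟩ := List.mem_map.1 (List.mem_reverse.1 hs)
      exact hSinv t (h2 t ht)
    exact le_antisymm (key g) (by simpa using key g⁻¹)
  · exact fun R => (finite_short S R).subset fun g hg => hP hg
  · exact fun x y h => hle ⟨[x.1⁻¹ * y.1], le_rfl, by simpa using hedge x y h, by simp⟩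
  · intro g
    obtain ⟨l, h1, h2, h3⟩ := hlen g
    refine le_trans ?_ (Nat.mul_le_mul le_rfl h1)
    rw [← h3]
    clear h1 h3
    induction l with
    | nil => simp
    | cons s l ih =>
      rw [List.prod_cons, map_mul, List.length_cons, Nat.mul_succ, add_comm]
      refine (FreeGroup.norm_mul_le _ _).trans (add_le_add ?_ (ih fun t ht =>
        h2 t (List.mem_cons_of_mem s ht)))
      exact (single_le_sum (f := fun t => (π t).norm) (fun _ _ => Nat.zero_le _)
        (h2 s List.mem_cons_self)).trans (Nat.le_add_left _ 1)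

/-- The setting with a kernel of polynomial growth exists. -/
theorem exists_env [Nonempty O] (hl : Labelling G nb) (hinv : Inv G) (hc : G.Connected)
    (hr : 2 ≤ Fintype.card α) (π : Γ →* FreeGroup α) (hπ : Function.Surjective π)
    (hpoly : PolyKernel π) : ∃ E : Env Γ O ι α, E.G = G := by
  classical
  obtain ⟨B, rfl, rfl, S, hS⟩ := exists_base (nb := nb) hl hinv hc hr π hπ
  obtain ⟨C, d, hCd⟩ := hpoly S
  refine ⟨Env.build B C d fun R => ?_, rfl⟩
  refine le_trans (Set.ncard_le_ncard (fun g hg => ?_)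
    ((finite_short S R).subset fun g hg => hg.2)) (hCd R)
  exact ⟨hg.1, hS g R hg.2⟩

end Vale.Agent.P165.FP
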