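import Vale.Agent.P165.FP.Cross
import Vale.Agent.P165.FP.Recursion

/-!
# The exit kernel of a large ball is small

A connection from the centre of a ball to its boundary passes a vertex at every smaller displacement,
so by the BK inequality the exit kernel of radius `n` is at most `1 / n` times a product of two
connection probabilities. Two uses of the quadratic form bound for these make it small.
-/

namespace Vale.Agent.P165.FP

open Finset FF

namespace Env

open Base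

variable {Γ O ι α : Type} [Group Γ] [Fintype ι] [DecidableEq α] [Fintype α] [Fintype O]
  [DecidableEq Γ] [DecidableEq O] (E : Env Γ O ι α) {p : ℝ}

/-- One use of the BK inequality at every displacement. -/
theorem mul_tauIn_le (hp : 0 ≤ p) (hp1 : p ≤ 1) {n : ℕ} {x a : Γ × O}
    (ha : E.len (x.1⁻¹ * a.1) = n) :
    (n : ℝ) * tauIn E.nb (E.cyl x n) p x a ≤ ∑ z ∈ E.cyl x n,
      tauIn E.nb (E.cyl x n) p x z * tauIn E.nb (E.cyl z (2 * n)) p z a := by
  classical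
  set t : Γ × O → ℝ := fun z =>
    tauIn E.nb (E.cyl x n) p x z * tauIn E.nb (E.cyl x n) p z a with ht
  have ht0 : ∀ z, 0 ≤ t z := fun z =>
    mul_nonneg (tauIn_nonneg _ hp hp1 _ _) (tauIn_nonneg _ hp hp1 _ _)
  have hi : ∀ i ∈ Icc 1 n, tauIn E.nb (E.cyl x n) p x a ≤
      ∑ z ∈ (E.cyl x n).filter fun z => E.len (x.1⁻¹ * z.1) = i, t z := by
    intro i hi
    rw [mem_Icc] at hi
    refine tau_last_entrance E.hl _ _ {v | i ≤ E.len (x.1⁻¹ * v.1)} _ hp hp1 ?_ ?_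
      (fun _ h _ => h) (by simp [ha, hi.2])
    · simp [E.len_one]; omega
    · intro u v huv hu hv hvS
      simp only [Set.mem_ofPred_eq, not_le] at hu hv
      refine mem_filter.2 ⟨hvS, ?_⟩
      have h1 := E.len_mul (x.1⁻¹ * u.1) (u.1⁻¹ * v.1)
      rw [mul_assoc, mul_inv_cancel_left] at h1
      have := E.step u v huv
      omega
  calc (n : ℝ) * tauIn E.nb (E.cyl x n) p x a
      = ∑ _i ∈ Icc 1 n, tauIn E.nb (E.cyl x n) p x a := by simp
    _ ≤ ∑ i ∈ Icc 1 n, ∑ z ∈ E.cyl x n, if E.len (x.1⁻¹ * z.1) = i then t z else 0 :=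
        sum_le_sum fun i h => (hi i h).trans_eq (sum_filter _ _)
    _ = ∑ z ∈ E.cyl x n, if E.len (x.1⁻¹ * z.1) ∈ Icc 1 n then t z else 0 := by
        rw [sum_comm]; exact sum_congr rfl fun z _ => sum_ite_eq _ _ _
    _ ≤ _ := sum_le_sum fun z hz => by
        split_ifs
        · refine mul_le_mul_of_nonneg_left (tauIn_mono E.hl (fun w hw => E.mem_cyl.2 ?_) hp hp1 _ _)
            (tauIn_nonneg _ hp hp1 _ _)
          have h1 := E.len_mul (z.1⁻¹ * x.1) (x.1⁻¹ * w.1)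
          rw [mul_assoc, mul_inv_cancel_left] at h1
          have := E.mem_cyl.1 hw
          have := E.mem_cyl.1 (E.mem_cyl_comm.1 hz)
          omega
        · exact mul_nonneg (tauIn_nonneg _ hp hp1 _ _) (tauIn_nonneg _ hp hp1 _ _)

open Classical in
theorem mul_exitKer_le (hp : 0 ≤ p) (hp1 : p ≤ 1) (n : ℕ) (x y : Γ × O) :
    (n : ℝ) * E.exitKer n p x y ≤ ∑ a ∈ E.cyl x n, if E.G.Adj a y then
      ∑ z ∈ E.cyl x n, tauIn E.nb (E.cyl x n) p x z * tauIn E.nb (E.cyl z (2 * n)) p z a else 0 := by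
  rw [E.exitKer_eq]
  refine (mul_le_mul_of_nonneg_left (mul_le_of_le_one_left (sum_nonneg fun a _ => ?_) hp1)
    (Nat.cast_nonneg n)).trans ?_
  · split_ifs
    · exact tauIn_nonneg _ hp hp1 _ _
    · exact le_rfl
  rw [mul_sum]
  refine sum_le_sum fun a ha => ?_
  by_cases hy : E.G.Adj a y
  swap
  · simp [hy]
  rw [if_pos hy]
  by_cases hout : y ∈ E.cyl x n
  · simp [hout]
    exact sum_nonneg fun z _ => mul_nonneg (tauIn_nonneg _ hp hp1 _ _) (tauIn_nonneg _ hp hp1 _ _)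
  rw [if_pos ⟨hout, hy⟩]
  refine E.mul_tauIn_le hp hp1 ?_
  have h1 := E.len_mul (x.1⁻¹ * a.1) (a.1⁻¹ * y.1)
  rw [mul_assoc, mul_inv_cancel_left] at h1
  have := E.step a y hy
  have := E.mem_cyl.1 ha
  rw [E.mem_cyl] at hout
  omega

/-- A quadratic form bound of order less than `√R` makes some exit kernel small. -/
theorem exitSmall_of_norm (hp : 0 ≤ p) (hp1 : p ≤ 1)
    (hnorm : ∃ R₀ : ℕ, ∀ R, R₀ ≤ R → ∀ (F H : Finset (Γ × O)) (f h : Γ × O → ℝ),
      (∀ x, 0 ≤ f x) → (∀ x, 0 ≤ h x) →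
      ∑ x ∈ F, ∑ y ∈ H, f x * h y * tauIn E.nb (E.cyl x R) p x y
        ≤ (R : ℝ) ^ (1 / 4 : ℝ) * Real.sqrt (∑ x ∈ F, f x ^ 2) * Real.sqrt (∑ y ∈ H, h y ^ 2)) :
    ∃ n, E.ExitSmall n p (1 / 4) := by
  classical
  obtain ⟨R₀, hR⟩ := hnorm
  set d := Fintype.card ι with hd
  set n := R₀ + 32 * d ^ 2 + 1 with hn
  refine ⟨n, fun F f hf => ?_⟩
  set A : Finset (Γ × O) := F.biUnion fun y => univ.image (E.nb y)
  set Z : Finset (Γ × O) := F.biUnion fun x => E.cyl x n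
  set g : Γ × O → ℝ := fun a => ∑ y ∈ F, if E.G.Adj a y then f y else 0 with hgdef
  set h : Γ × O → ℝ := fun z => ∑ a ∈ A, g a * tauIn E.nb (E.cyl z (2 * n)) p z a with hhdef
  have hg : ∀ a, 0 ≤ g a := fun a => sum_nonneg fun y _ => by split_ifs <;> simp [hf]
  have hh : ∀ z, 0 ≤ h z := fun z =>
    sum_nonneg fun a _ => mul_nonneg (hg a) (tauIn_nonneg _ hp hp1 _ _)
  have hmem : ∀ a y, E.G.Adj a y → a ∈ univ.image (E.nb y) := fun a y hay => by
    obtain ⟨j, hj⟩ := (E.hl.adj _ _).1 hay.symm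
    exact mem_image.2 ⟨j, mem_univ j, hj⟩
  have hg0 : ∀ a, a ∉ A → g a = 0 := fun a ha => sum_eq_zero fun y hy =>
    if_neg fun hay => ha (mem_biUnion.2 ⟨y, hy, hmem a y hay⟩)
  have hcard : ∀ (S : Finset (Γ × O)) a, ((S.filter fun y => E.G.Adj a y).card : ℝ) ≤ d :=
    fun S a => Nat.cast_le.2 ((card_le_card fun y hy => hmem y a (mem_filter.1 hy).2.symm).trans
      card_image_le)
  have hgF : ∑ a ∈ A, g a ^ 2 ≤ (d : ℝ) ^ 2 * ∑ y ∈ F, f y ^ 2 := by
    calc ∑ a ∈ A, g a ^ 2 ≤ ∑ a ∈ A, (d : ℝ) * ∑ y ∈ F, if E.G.Adj a y then f y ^ 2 else 0 := by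
          refine sum_le_sum fun a _ => ?_
          simp only [hgdef, ← sum_filter]
          exact sq_sum_le_card_mul_sum_sq.trans
            (mul_le_mul_of_nonneg_right (hcard F a) (sum_nonneg fun _ _ => sq_nonneg _))
      _ ≤ (d : ℝ) * ((d : ℝ) * ∑ y ∈ F, f y ^ 2) := by
          rw [← mul_sum, sum_comm]
          refine mul_le_mul_of_nonneg_left ?_ (Nat.cast_nonneg d)
          rw [mul_sum]
          refine sum_le_sum fun y _ => ?_
          rw [← sum_filter, sum_const, nsmul_eq_mul]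
          refine mul_le_mul_of_nonneg_right ?_ (sq_nonneg _)
          simp only [E.G.adj_comm _ y]
          exact hcard A y
      _ = _ := by ring
  set sf := Real.sqrt (∑ x ∈ F, f x ^ 2)
  set sg := Real.sqrt (∑ a ∈ A, g a ^ 2)
  set sh := Real.sqrt (∑ z ∈ Z, h z ^ 2)
  have hsg : sg ≤ (d : ℝ) * sf := by
    refine (Real.sqrt_le_sqrt hgF).trans_eq ?_
    rw [Real.sqrt_mul (sq_nonneg _), Real.sqrt_sq (Nat.cast_nonneg d)]
  have hsh : sh ≤ ((2 * n : ℕ) : ℝ) ^ (1 / 4 : ℝ) * sg := by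
    have h1 := hR (2 * n) (by omega) Z A h g hh hg
    rw [show ∑ z ∈ Z, ∑ a ∈ A, h z * g a * tauIn E.nb (E.cyl z (2 * n)) p z a =
      ∑ z ∈ Z, h z ^ 2 from sum_congr rfl fun z _ => by
        simp only [mul_assoc, ← mul_sum]; rw [sq]] at h1
    have h2 : sh * sh = ∑ z ∈ Z, h z ^ 2 := Real.mul_self_sqrt (sum_nonneg fun _ _ => sq_nonneg _)
    by_contra hlt
    rw [not_le] at hlt
    have hpos : 0 < sh := (mul_nonneg (Real.rpow_nonneg (Nat.cast_nonneg _) _)
      (Real.sqrt_nonneg _)).trans_lt hlt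
    nlinarith [mul_lt_mul_of_pos_left hlt hpos]
  have hker : (n : ℝ) * ∑ x ∈ F, ∑ y ∈ F, f x * f y * E.exitKer n p x y ≤
      ∑ x ∈ F, ∑ z ∈ Z, f x * h z * tauIn E.nb (E.cyl x n) p x z := by
    rw [mul_sum]
    refine sum_le_sum fun x hx => ?_
    calc (n : ℝ) * ∑ y ∈ F, f x * f y * E.exitKer n p x y
        = f x * ∑ y ∈ F, f y * ((n : ℝ) * E.exitKer n p x y) := by
          simp only [mul_sum]; exact sum_congr rfl fun y _ => by ring
      _ ≤ f x * ∑ a ∈ E.cyl x n, g a * ∑ z ∈ E.cyl x n,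
            tauIn E.nb (E.cyl x n) p x z * tauIn E.nb (E.cyl z (2 * n)) p z a := by
          refine mul_le_mul_of_nonneg_left ((sum_le_sum fun y _ =>
            mul_le_mul_of_nonneg_left (E.mul_exitKer_le hp hp1 n x y) (hf y)).trans_eq ?_) (hf x)
          rw [sum_congr rfl fun y _ => mul_sum _ _ (f y), sum_comm]
          refine sum_congr rfl fun a _ => ?_
          simp only [hgdef, sum_mul, mul_ite, mul_zero, ite_mul, zero_mul]
      _ ≤ f x * ∑ a ∈ A, g a * ∑ z ∈ E.cyl x n,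
            tauIn E.nb (E.cyl x n) p x z * tauIn E.nb (E.cyl z (2 * n)) p z a := by
          refine mul_le_mul_of_nonneg_left ?_ (hf x)
          refine (sum_le_sum_of_subset_of_nonneg (subset_union_left (s₂ := A)) fun a _ _ =>
            mul_nonneg (hg a) (sum_nonneg fun z _ =>
              mul_nonneg (tauIn_nonneg _ hp hp1 _ _) (tauIn_nonneg _ hp hp1 _ _))).trans_eq ?_
          exact (sum_subset subset_union_right fun a _ ha => by rw [hg0 a ha, zero_mul]).symm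
      _ = ∑ z ∈ E.cyl x n, f x * h z * tauIn E.nb (E.cyl x n) p x z := by
          simp only [hhdef, mul_sum, sum_mul]
          rw [sum_comm]
          exact sum_congr rfl fun z _ => sum_congr rfl fun a _ => by ring
      _ ≤ _ := sum_le_sum_of_subset_of_nonneg (subset_biUnion_of_mem (fun x => E.cyl x n) hx)
          fun z _ _ => mul_nonneg (mul_nonneg (hf x) (hh z)) (tauIn_nonneg _ hp hp1 _ _)
  have h2 := hker.trans (hR n (by omega) F Z f h hf hh)
  have hn0 : (0 : ℝ) < n := Nat.cast_pos.2 (by omega)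
  set u := ((2 * n : ℕ) : ℝ) ^ (1 / 4 : ℝ) with hu
  have hu0 : 0 ≤ u := Real.rpow_nonneg (Nat.cast_nonneg _) _
  have hun : (n : ℝ) ^ (1 / 4 : ℝ) ≤ u :=
    Real.rpow_le_rpow hn0.le (Nat.cast_le.2 (by omega)) (by norm_num)
  have hu2 : (u * u) * d ≤ n / 4 := by
    rw [hu, ← Real.rpow_add (by positivity : (0 : ℝ) < ((2 * n : ℕ) : ℝ)),
      show (1 / 4 : ℝ) + 1 / 4 = 1 / 2 by norm_num, ← Real.sqrt_eq_rpow]
    have h32 : 32 * (d : ℝ) ^ 2 ≤ n := by
      rw [hn]; push_cast; linarith [(Nat.cast_nonneg R₀ : (0 : ℝ) ≤ _)]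
    have hs := Real.sq_sqrt (by positivity : (0 : ℝ) ≤ ((2 * n : ℕ) : ℝ))
    push_cast at hs ⊢
    refine le_of_pow_le_pow_left₀ two_ne_zero (by positivity) ?_
    rw [mul_pow, hs]
    nlinarith [mul_le_mul_of_nonneg_left h32 hn0.le]
  have hsf : sf * sf = ∑ x ∈ F, f x ^ 2 := Real.mul_self_sqrt (sum_nonneg fun _ _ => sq_nonneg _)
  have hsf0 : 0 ≤ sf := Real.sqrt_nonneg _
  have h3 : (n : ℝ) * ∑ x ∈ F, ∑ y ∈ F, f x * f y * E.exitKer n p x y ≤
      (u * u) * d * ∑ x ∈ F, f x ^ 2 := by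
    refine h2.trans ((mul_le_mul (mul_le_mul_of_nonneg_right hun hsf0)
      (hsh.trans (mul_le_mul_of_nonneg_left hsg hu0)) (Real.sqrt_nonneg _)
      (mul_nonneg hu0 hsf0)).trans_eq ?_)
    rw [← hsf]; ring
  refine le_of_mul_le_mul_left (h3.trans ((mul_le_mul_of_nonneg_right hu2
    (sum_nonneg fun _ _ => sq_nonneg _)).trans_eq ?_)) hn0
  ring

end Env

end Vale.Agent.P165.FP
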