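import Vale.Agent.P165.FP.Psi

/-!
# Gluing two connections through a bounded block

An exploration by a fixed set of edges finds a block next to a half space; opening the block continues
the connection with edges not yet explored.
-/

namespace Vale.Agent.P165.FP

open Finset FF

variable {V ι : Type} [DecidableEq V] [Fintype ι] {nb : V → ι → V} {G : SimpleGraph V}

/-- The vertices of a block. -/
def OnBlock (B : V → Finset (Sym2 V)) (z v : V) : Prop := v = z ∨ ∃ e ∈ B z, v ∈ e

/-- A connection into `K`, continued through a block by a connection inside `K`. -/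
theorem glue (hl : Labelling G nb) {S S1 : Finset V} (hS1 : S1 ⊆ S) {p : ℝ} (h0 : 0 ≤ p)
    (h1 : p ≤ 1) {a : V} {K T : Set V} (Z : Finset V) (ha : a ∉ K)
    (hZ : ∀ x y, G.Adj x y → x ∉ K → y ∈ K → y ∈ S1 → y ∈ Z)
    (B : V → Finset (Sym2 V)) (g : V → V) (k : ℕ)
    (hB : ∀ z ∈ Z, B z ⊆ inE nb S ∧ (B z).card ≤ k ∧ ∀ v, OnBlock B z v → cl (B z) v (g z))
    (S2 : V → Finset V) (hS2 : ∀ z ∈ Z, S2 z ⊆ S ∧ ∀ x ∈ S2 z, x ∈ K) {β : ℝ}
    (hβ0 : 0 ≤ β) (hβ : ∀ z ∈ Z, β ≤ hit nb (S2 z) p (g z) T) :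
    p ^ k * β * hit nb S1 p a K ≤ hit nb S p a T := by
  classical
  set E := inE nb S
  set E1 := inE nb S1
  have hE1 : E1 ⊆ E := inE_mono hl hS1
  set D := E1.filter fun e => (∃ v ∈ e, v ∉ K) ∧ ∀ z ∈ Z, e ∉ B z with hD
  have hDE : D ⊆ E := (filter_subset _ _).trans hE1
  let touched : Finset (Sym2 V) → Finset V := fun η =>
    Z.filter fun z => ∃ v, OnBlock B z v ∧ cl (η ∩ D) a v
  let sel : V → Finset (Sym2 V) → Prop := fun z η => (touched η).toList.head? = some z
  have hsel : ∀ z η, sel z η → z ∈ touched η := fun z η h =>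
    mem_toList.1 (List.mem_of_head? h)
  have hloc : ∀ z η, sel z η ↔ sel z (η ∩ D) := fun z η => by
    simp only [sel, touched, inter_assoc, inter_self]
  -- a connection into `K` touches a block
  have hfind : ∀ η, η ⊆ E → FXZ.Hit K a (η ∩ E1) → (touched η).Nonempty := by
    rintro η hη ⟨t, ht, ⟨π⟩⟩
    set Q : Set V := {v | v ∉ K ∧ ∀ z ∈ Z, ¬ OnBlock B z v}
    by_cases haQ : a ∈ Q
    swap
    · simp only [Q, Set.mem_ofPred_eq, not_and, not_forall, not_not] at haQ
      obtain ⟨z, hz, hon⟩ := haQ ha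
      exact ⟨z, mem_filter.2 ⟨hz, a, hon, SimpleGraph.Reachable.refl _⟩⟩
    rcases exit_split Q π haQ with hin | ⟨a', b, w1, hab, w2, ha', hb, hw1, hed, -⟩
    · exact absurd ht (hin t π.end_mem_support).1
    have hmem : ∀ e ∈ π.edges, e ∈ η ∩ E1 := fun e he => by
      have := π.edges_subset_edgeSet he
      rw [SimpleGraph.edgeSet_fromEdgeSet] at this
      exact this.1
    have hD1 : ∀ e ∈ η ∩ E1, ∀ u ∈ e, u ∈ Q → e ∈ η ∩ D := fun e he u hu huQ =>
      mem_inter.2 ⟨(mem_inter.1 he).1, mem_filter.2 ⟨(mem_inter.1 he).2, ⟨u, hu, huQ.1⟩,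
        fun z hz hez => huQ.2 z hz (Or.inr ⟨e, hez, hu⟩)⟩⟩
    have hw : cl (η ∩ D) a a' := cl_of_walk w1 fun e he => by
      induction e using Sym2.ind with
      | _ u v =>
        exact hD1 _ (hmem _ (by simp [hed, he])) u (Sym2.mem_mk_left u v) (hw1 u (w1.fst_mem_support_of_mem_edges he))
    have hab' : s(a', b) ∈ η ∩ E1 := hmem _ (by simp [hed])
    have hclb : cl (η ∩ D) a b := hw.trans (cl_edge hab.ne
      (hD1 _ hab' a' (Sym2.mem_mk_left a' b) ha'))
    by_cases hbK : b ∈ K
    · have hbG := (inE_iff hl).1 (mem_inter.1 hab').2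
      exact ⟨b, mem_filter.2 ⟨hZ a' b hbG.1 ha'.1 hbK (hbG.2 b (Sym2.mem_mk_right a' b)),
        b, Or.inl rfl, hclb⟩⟩
    · simp only [Q, Set.mem_ofPred_eq, not_and, not_forall, not_not] at hb
      obtain ⟨z, hz, hon⟩ := hb hbK
      exact ⟨z, mem_filter.2 ⟨hz, b, hon, hclb⟩⟩
  let cont : V → Finset (Sym2 V) → Prop := fun z η =>
    B z ⊆ η ∧ FXZ.Hit T (g z) (η ∩ inE nb (S2 z))
  have hjoin : ∀ η, η ⊆ E → ∀ z, sel z η → cont z η → FXZ.Hit T a η := by
    rintro η - z hz ⟨hBη, t, ht, hc⟩
    obtain ⟨hzZ, v, hon, hv⟩ := mem_filter.1 (hsel z η hz)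
    exact ⟨t, ht, ((cl_mono inter_subset_left hv).trans
      (cl_mono hBη ((hB z hzZ).2.2 v hon))).trans (cl_mono inter_subset_left hc)⟩
  -- the chosen block and its continuation use disjoint edges
  have hfac : ∀ z ∈ Z, p ^ k * β * avg E p (fun η => ind (sel z η))
      ≤ avg E p fun η => ind (sel z η) * ind (cont z η) := by
    intro z hz
    have hBD : ∀ e ∈ B z, e ∉ D := fun e he h => ((mem_filter.1 h).2.2 z hz) he
    have hSD : ∀ e ∈ inE nb (S2 z), e ∉ D := fun e he h => by
      obtain ⟨v, hv, hvK⟩ := (mem_filter.1 h).2.1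
      exact hvK ((hS2 z hz).2 v (inE_mem he hv))
    have hcont : ∀ η, cont z η ↔ cont z (η \ D) := fun η => by
      have hi : (η \ D) ∩ inE nb (S2 z) = η ∩ inE nb (S2 z) := by
        ext e; simp only [mem_inter, mem_sdiff]
        exact ⟨fun h => ⟨h.1.1, h.2⟩, fun h => ⟨⟨h.1, hSD e h.2⟩, h.2⟩⟩
      have hs : B z ⊆ η ↔ B z ⊆ η \ D := ⟨fun h e he => mem_sdiff.2 ⟨h he, hBD e he⟩,
        fun h => h.trans sdiff_subset⟩
      simp only [cont, hi, hs]
    have hA : avg E p (fun η => ind (sel z η)) = avg D p fun η => ind (sel z η) := by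
      have h := avg_split hDE p (fun η => ind (sel z η)) fun _ => (1 : ℝ)
      simp only [mul_one, avg_one] at h
      rw [← h]
      exact avg_congr _ _ fun η _ => congrArg ind (propext (hloc z η))
    have hBsub : B z ⊆ E \ D := fun e he => mem_sdiff.2 ⟨(hB z hz).1 he, hBD e he⟩
    have hSsub : inE nb (S2 z) ⊆ E \ D := fun e he =>
      mem_sdiff.2 ⟨inE_mono hl (hS2 z hz).1 he, hSD e he⟩
    have hlow : p ^ k * β ≤ avg (E \ D) p fun η => ind (cont z η) := by
      refine le_trans (mul_le_mul ((pow_le_pow_of_le_one h0 h1 (hB z hz).2.1).trans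
        (pow_card_le (B z) h0 h1 hBsub)) (?_ : β ≤ avg (E \ D) p
          fun η => ind (FXZ.Hit T (g z) (η ∩ inE nb (S2 z)))) hβ0
        (avg_nonneg _ h0 h1 fun _ _ => ind_nonneg _)) (le_trans (harris (E \ D) h0 h1 _ _
          (monotone_ind (A := fun η => B z ⊆ η) fun _ _ h h' => h'.trans h)
          (monotone_ind fun η η' h h' => inc_hit T (g z) _ _ (inter_subset_inter h le_rfl) h'))
          (avg_mono _ h0 h1 fun η _ => ?_))
      · have h := avg_split hSsub p (fun η => ind (FXZ.Hit T (g z) η)) fun _ => (1 : ℝ)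
        simp only [mul_one, avg_one] at h
        exact (hβ z hz).trans (le_of_eq h.symm)
      · show ind (B z ⊆ η) * ind _ ≤ ind (cont z η)
        unfold ind
        by_cases hb : B z ⊆ η
        · by_cases hh : FXZ.Hit T (g z) (η ∩ inE nb (S2 z))
          · rw [if_pos hb, if_pos hh, if_pos (show cont z η from ⟨hb, hh⟩), mul_one]
          · rw [if_neg hh, mul_zero]; split_ifs <;> norm_num
        · rw [if_neg hb, zero_mul]; split_ifs <;> norm_num
    rw [avg_congr E p (g := fun η => (fun x => ind (sel z x)) (η ∩ D) *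
      (fun x => ind (cont z x)) (η \ D)) fun η _ => congrArg₂ (· * ·)
        (congrArg ind (propext (hloc z η))) (congrArg ind (propext (hcont η))),
      avg_split hDE p (fun η => ind (sel z η)) fun η => ind (cont z η), hA, mul_comm]
    exact mul_le_mul_of_nonneg_left hlow (avg_nonneg _ h0 h1 fun _ _ => ind_nonneg _)
  have hfirst : hit nb S1 p a K ≤ ∑ z ∈ Z, avg E p fun η => ind (sel z η) := by
    have h := avg_split hE1 p (fun η => ind (FXZ.Hit K a η)) fun _ => (1 : ℝ)
    simp only [mul_one, avg_one] at h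
    rw [← avg_sum, hit, ← h]
    refine avg_mono E h0 h1 fun η hη => ?_
    by_cases hh : FXZ.Hit K a (η ∩ E1)
    · obtain ⟨z, hz⟩ : ∃ z, sel z η := by
        cases hL : (touched η).toList with
        | nil => exact absurd (toList_eq_nil.1 hL) (hfind η hη hh).ne_empty
        | cons z l => exact ⟨z, by simp [sel, hL]⟩
      refine le_trans (ind_le_one _) ?_
      refine le_trans ?_ (single_le_sum (f := fun z => ind (sel z η)) (fun _ _ => ind_nonneg _)
        (mem_filter.1 (hsel z η hz)).1)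
      exact le_of_eq (if_pos hz).symm
    · exact le_trans (le_of_eq (if_neg hh)) (sum_nonneg fun _ _ => ind_nonneg _)
  calc p ^ k * β * hit nb S1 p a K
      ≤ p ^ k * β * ∑ z ∈ Z, avg E p (fun η => ind (sel z η)) :=
        mul_le_mul_of_nonneg_left hfirst (by positivity)
    _ ≤ ∑ z ∈ Z, avg E p (fun η => ind (sel z η) * ind (cont z η)) := by
        rw [mul_sum]; exact sum_le_sum hfac
    _ ≤ hit nb S p a T := by
        rw [← avg_sum]
        refine avg_mono E h0 h1 fun η hη => ?_
        by_cases hex : ∃ z, sel z η ∧ cont z η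
        · obtain ⟨z, hz, hc⟩ := hex
          refine le_trans ?_ (le_of_eq (if_pos (hjoin η hη z hz hc)).symm)
          rw [sum_eq_single z (fun z' _ hne => ?_) fun hn =>
            absurd (mem_filter.1 (hsel z η hz)).1 hn]
          · exact mul_le_one₀ (ind_le_one _) (ind_nonneg _) (ind_le_one _)
          · have : ¬ sel z' η := fun h => hne (Option.some.inj (h.symm.trans hz))
            rw [show ind (sel z' η) = 0 from if_neg this, zero_mul]
        · push Not at hex
          refine le_trans (le_of_eq (sum_eq_zero fun z _ => ?_)) (ind_nonneg _)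
          by_cases hz : sel z η
          · rw [show ind (cont z η) = 0 from if_neg (hex z hz), mul_zero]
          · rw [show ind (sel z η) = 0 from if_neg hz, zero_mul]

end Vale.Agent.P165.FP
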