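import Vale.Agent.P165.FP.Walks

/-!
# Insertion: a resampled cluster reaches the target

The edges seen by the cluster inside `U` are resampled. With good probability one of its marked
points is then joined to the target near itself; either the old configuration already joins the
start to the target, or one closed edge does so when opened, and that costs little since many
pivotal edges make a long path near one marked point.
-/

namespace Vale.Agent.P165.FP

open Finset FF

variable {V ι : Type} [DecidableEq V] [Fintype ι] {nb : V → ι → V} {G : SimpleGraph V}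

open FXZ (InC Hit Exit LongPath)

/-! ### Walks -/

omit [DecidableEq V] in
/-- A walk in a graph whose edges lie in a set stays in that set. -/
theorem support_in {H : SimpleGraph V} {P : V → Prop} (h : ∀ u v, H.Adj u v → P v) :
    ∀ {x y : V} (w : H.Walk x y), P x → ∀ v ∈ w.support, P v
  | _, _, .nil, hx, v, hv => by
      simp only [SimpleGraph.Walk.support_nil, List.mem_singleton] at hv
      exact hv ▸ hx
  | _, _, .cons hadj w, hx, v, hv => by
      rw [SimpleGraph.Walk.support_cons, List.mem_cons] at hv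
      rcases hv with rfl | hv
      · exact hx
      · exact support_in h w (h _ _ hadj) v hv

omit [DecidableEq V] in
/-- The last step of a walk out of a set. -/
theorem last_leave {H : SimpleGraph V} (P : V → Prop) :
    ∀ {x t : V} (w : H.Walk x t), (∃ v ∈ w.support, P v) → ¬ P t →
      ∃ y x', H.Adj y x' ∧ P y ∧ ¬ P x' ∧ ∃ σ : H.Walk x' t, ∀ v ∈ σ.support, ¬ P v
  | x, _, .nil, ⟨v, hv, hP⟩, ht => by
      simp only [SimpleGraph.Walk.support_nil, List.mem_singleton] at hv
      exact absurd (hv ▸ hP) ht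
  | x, t, .cons (v := x₁) hadj w, ⟨v, hv, hP⟩, ht => by
      by_cases hrest : ∃ u ∈ w.support, P u
      · exact last_leave P w hrest ht
      · push Not at hrest
        rw [SimpleGraph.Walk.support_cons, List.mem_cons] at hv
        rcases hv with rfl | hv
        · exact ⟨v, x₁, hadj, hP, hrest _ w.start_mem_support, w, hrest⟩
        · exact absurd hP (hrest v hv)

/-! ### The cluster inside `U` -/

omit [Fintype ι] [DecidableEq V] in
theorem inc_inC (U : Finset V) (a v : V) : Inc (fun η : Finset (Sym2 V) => InC U a η v) :=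
  fun _ _ h hv => by
    classical
    exact cl_mono (filter_subset_filter _ h) hv

omit [Fintype ι] [DecidableEq V] in
theorem cl_of_inC {U : Finset V} {a v : V} {η : Finset (Sym2 V)} (h : InC U a η v) : cl η a v := by
  classical
  exact cl_mono (filter_subset _ _) h

omit [Fintype ι] [DecidableEq V] in
theorem inC_mem {U : Finset V} {a v : V} {η : Finset (Sym2 V)} (h : InC U a η v) :
    v = a ∨ v ∈ U := by
  classical
  obtain ⟨w⟩ := h.symm
  cases w with
  | nil => exact Or.inl rfl
  | cons hadj _ =>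
    exact Or.inr ((mem_filter.1 ((SimpleGraph.fromEdgeSet_adj _).1 hadj).1).2 _ (Sym2.mem_mk_left _ _))

open Classical in
/-- The vertices joined to `a` inside `U`. -/
noncomputable def comp (U : Finset V) (a : V) (η : Finset (Sym2 V)) : Finset V :=
  (insert a U).filter (InC U a η)

omit [Fintype ι] in
theorem mem_comp {U : Finset V} {a v : V} {η : Finset (Sym2 V)} :
    v ∈ comp U a η ↔ InC U a η v := by
  classical
  refine ⟨fun h => (mem_filter.1 h).2, fun h => mem_filter.2 ⟨?_, h⟩⟩
  rcases inC_mem h with rfl | h'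
  · exact mem_insert_self _ _
  · exact mem_insert_of_mem h'

open Classical in
/-- The edges inside `U` seen by a cluster. -/
noncomputable def seen (nb : V → ι → V) (U C : Finset V) : Finset (Sym2 V) :=
  (inE nb U).filter fun e => ∃ v ∈ e, v ∈ C

theorem comp_congr (hl : Labelling G nb) {S U : Finset V} {a : V} {η η' : Finset (Sym2 V)}
    (hη : η ⊆ inE nb S) (hη' : η' ⊆ inE nb S)
    (h : η' ∩ seen nb U (comp U a η) = η ∩ seen nb U (comp U a η)) :
    comp U a η' = comp U a η := by
  classical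
  have hU : ∀ {ζ : Finset (Sym2 V)}, ζ ⊆ inE nb S → ∀ e ∈ ζ.filter (fun e => ∀ u ∈ e, u ∈ U),
      e ∈ ζ ∧ e ∈ inE nb U := fun hζ e he =>
    ⟨(mem_filter.1 he).1, (inE_iff hl).2
      ⟨((inE_iff hl).1 (hζ (mem_filter.1 he).1)).1, (mem_filter.1 he).2⟩⟩
  ext v
  simp only [mem_comp]
  constructor
  · intro hv
    obtain ⟨w⟩ := hv
    suffices key : ∀ {x y : V} (_ : (SimpleGraph.fromEdgeSet
        ((η'.filter fun e => ∀ u ∈ e, u ∈ U : Finset (Sym2 V)) : Set (Sym2 V))).Walk x y),
        InC U a η x → InC U a η y from key w (SimpleGraph.Reachable.refl _)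
    intro x y w hx
    induction w with
    | nil => exact hx
    | @cons u u' _ hadj _ ih =>
      refine ih ?_
      obtain ⟨he, hne⟩ := (SimpleGraph.fromEdgeSet_adj _).1 hadj
      have he' := hU hη' _ (mem_coe.1 he)
      have hmem : s(u, u') ∈ η' ∩ seen nb U (comp U a η) := mem_inter.2
        ⟨he'.1, mem_filter.2 ⟨he'.2, u, Sym2.mem_mk_left _ _, mem_comp.2 hx⟩⟩
      rw [h] at hmem
      exact SimpleGraph.Reachable.trans hx (cl_edge hne (mem_filter.2
        ⟨(mem_inter.1 hmem).1, (mem_filter.1 he).2⟩))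
  · intro hv
    obtain ⟨w⟩ := hv
    refine cl_of_walk w fun e he => ?_
    have heη := w.edges_subset_edgeSet he
    rw [SimpleGraph.edgeSet_fromEdgeSet] at heη
    have he' := hU hη _ (mem_coe.1 heη.1)
    induction e using Sym2.ind with
    | _ x y =>
      have hmem : s(x, y) ∈ η ∩ seen nb U (comp U a η) := mem_inter.2
        ⟨he'.1, mem_filter.2 ⟨he'.2, x, Sym2.mem_mk_left _ _,
          mem_comp.2 ⟨w.takeUntil x (w.fst_mem_support_of_mem_edges he)⟩⟩⟩
      rw [← h] at hmem
      exact mem_filter.2 ⟨(mem_inter.1 hmem).1, (mem_filter.1 (mem_coe.1 heη.1)).2⟩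

/-! ### Independent trials near the marked points -/

theorem inE_disjoint {S S' : Finset V} (h : Disjoint S S') : Disjoint (inE nb S) (inE nb S') := by
  refine disjoint_left.2 fun e he he' => ?_
  induction e using Sym2.ind with
  | _ x y =>
    exact disjoint_left.1 h (inE_mem he (Sym2.mem_mk_left x y)) (inE_mem he' (Sym2.mem_mk_left x y))

theorem none_le {p : ℝ} (h0 : 0 ≤ p) (h1 : p ≤ 1) (B : V → Finset V) (T : Set V) {β : ℝ} :
    ∀ (s : Finset V) (E : Finset (Sym2 V)), (∀ z ∈ s, inE nb (B z) ⊆ E) →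
      (∀ z ∈ s, ∀ z' ∈ s, z ≠ z' → Disjoint (B z) (B z')) →
      (∀ z ∈ s, β ≤ hit nb (B z) p z T) →
        avg E p (fun η => ind (∀ z ∈ s, ¬ Hit T z (η ∩ inE nb (B z)))) ≤ (1 - β) ^ s.card := by
  classical
  intro s
  induction s using Finset.induction with
  | empty =>
    intro E _ _ _
    rw [card_empty, pow_zero]
    exact (avg_mono E h0 h1 fun η _ => ind_le_one _).trans (avg_one E p).le
  | @insert z s hz ih =>
    intro E hE hd hβ
    set A := inE nb (B z) with hA
    have hAE : A ⊆ E := hE z (mem_insert_self z s)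
    have hne : ∀ z' ∈ s, z ≠ z' := fun z' hz' h => hz (h ▸ hz')
    have hrest : ∀ z' ∈ s, inE nb (B z') ⊆ E \ A := fun z' hz' e he =>
      mem_sdiff.2 ⟨hE z' (mem_insert_of_mem hz') he, disjoint_left.1 (inE_disjoint
        (hd z' (mem_insert_of_mem hz') z (mem_insert_self z s) (hne z' hz').symm)) he⟩
    have hsplit : ∀ η, ind (∀ z' ∈ insert z s, ¬ Hit T z' (η ∩ inE nb (B z'))) =
        (fun ζ => ind (¬ Hit T z ζ)) (η ∩ A) *
          (fun ζ => ind (∀ z' ∈ s, ¬ Hit T z' (ζ ∩ inE nb (B z')))) (η \ A) := by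
      intro η
      have e : ∀ z' ∈ s, (η \ A) ∩ inE nb (B z') = η ∩ inE nb (B z') := fun z' hz' => by
        ext e
        simp only [mem_inter, mem_sdiff]
        exact ⟨fun h => ⟨h.1.1, h.2⟩,
          fun h => ⟨⟨h.1, (mem_sdiff.1 (hrest z' hz' h.2)).2⟩, h.2⟩⟩
      simp only [Finset.forall_mem_insert, ← hA]
      have e' : (∀ z' ∈ s, ¬ Hit T z' ((η \ A) ∩ inE nb (B z'))) ↔
          ∀ z' ∈ s, ¬ Hit T z' (η ∩ inE nb (B z')) := forall₂_congr fun z' hz' => by rw [e z' hz']
      simp only [e']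
      by_cases h1 : Hit T z (η ∩ A) <;> simp [ind, h1]
    rw [avg_congr E p fun η _ => hsplit η, card_insert_of_notMem hz, pow_succ']
    refine le_trans (le_of_eq (avg_split hAE p (fun ζ => ind (¬ Hit T z ζ))
      fun ζ => ind (∀ z' ∈ s, ¬ Hit T z' (ζ ∩ inE nb (B z'))))) ?_
    have hfirst : avg A p (fun ζ => ind (¬ Hit T z ζ)) = 1 - hit nb (B z) p z T := by
      have : ∀ ζ, ind (¬ Hit T z ζ) = 1 + (-1) * ind (Hit T z ζ) := fun ζ => by
        by_cases h : Hit T z ζ <;> simp [ind, h]
      rw [avg_congr A p fun ζ _ => this ζ, avg_add, avg_one, avg_mul, hit]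
      ring
    refine mul_le_mul ?_ (ih _ hrest
      (fun x hx y hy => hd x (mem_insert_of_mem hx) y (mem_insert_of_mem hy))
      fun x hx => hβ x (mem_insert_of_mem hx))
      (avg_nonneg _ h0 h1 fun _ _ => ind_nonneg _) ?_
    · rw [hfirst]
      linarith [hβ z (mem_insert_self z s)]
    · have := hit_le_one (nb := nb) (B z) h0 h1 z T
      linarith [hβ z (mem_insert_self z s)]

/-! ### Long paths in a small set -/

/-- Connections through a list of points by disjoint edge sets. -/
def stepsEv : V → List V → Finset (Sym2 V) → Prop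
  | _, [], _ => True
  | x, z :: zs, η => box (fun K => cl K x z) (stepsEv z zs) η

omit [Fintype ι] in
theorem inc_steps : ∀ (x : V) (zs : List V), Inc (stepsEv x zs)
  | _, [] => fun _ _ _ _ => trivial
  | _, _ :: _ => inc_box _ _

/-- The sum over lists of `k` points of the products of connection probabilities. -/
noncomputable def stepsVal (nb : V → ι → V) (B : Finset V) (p : ℝ) : ℕ → V → ℝ
  | 0, _ => 1
  | k + 1, x => ∑ z ∈ B, tauIn nb B p x z * stepsVal nb B p k z

/-- The lists of `k` points of a set. -/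
def lists (B : Finset V) : ℕ → Finset (List V)
  | 0 => {[]}
  | k + 1 => (B ×ˢ lists B k).image fun q => q.1 :: q.2

omit [Fintype ι] in
theorem mem_lists {B : Finset V} : ∀ {l : List V}, (∀ v ∈ l, v ∈ B) → l ∈ lists B l.length
  | [], _ => by simp [lists]
  | v :: l, h => mem_image.2 ⟨(v, l), mem_product.2 ⟨h v (by simp),
      mem_lists fun u hu => h u (by simp [hu])⟩, rfl⟩

theorem sum_steps_le (B : Finset V) {p : ℝ} (h0 : 0 ≤ p) (h1 : p ≤ 1) :
    ∀ (k : ℕ) (x : V), ∑ l ∈ lists B k, avg (inE nb B) p (fun η => ind (stepsEv x l η))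
      ≤ stepsVal nb B p k x
  | 0, x => by
      simp only [lists, sum_singleton, stepsVal]
      exact (avg_mono _ h0 h1 fun _ _ => ind_le_one _).trans (avg_one _ _).le
  | k + 1, x => by
      rw [lists, sum_image (fun q _ q' _ h => Prod.ext (List.cons.inj h).1 (List.cons.inj h).2),
        sum_product, stepsVal]
      refine sum_le_sum fun z _ => ?_
      refine (sum_le_sum (g := fun l => tauIn nb B p x z *
        avg (inE nb B) p (fun η => ind (stepsEv z l η))) fun l _ => ?_).trans ?_
      · exact bk _ h0 h1 _ _ (inc_cl x z) (inc_steps z l)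
      · rw [← mul_sum]
        exact mul_le_mul_of_nonneg_left (sum_steps_le B h0 h1 k z) (tauIn_nonneg B h0 h1 x z)

theorem stepsVal_le (B : Finset V) {p Xb : ℝ} (h0 : 0 ≤ p) (h1 : p ≤ 1)
    (hX : ∀ x, ∑ y ∈ B, tauIn nb B p x y ≤ Xb) :
    ∀ (k : ℕ) (x : V), 0 ≤ stepsVal nb B p k x ∧ stepsVal nb B p k x ≤ Xb ^ k
  | 0, x => by simp [stepsVal]
  | k + 1, x => by
      have hXb : 0 ≤ Xb := (sum_nonneg fun y _ => tauIn_nonneg B h0 h1 x y).trans (hX x)
      refine ⟨sum_nonneg fun z _ =>
        mul_nonneg (tauIn_nonneg B h0 h1 x z) (stepsVal_le B h0 h1 hX k z).1, ?_⟩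
      refine (sum_le_sum fun z _ => mul_le_mul_of_nonneg_left (stepsVal_le B h0 h1 hX k z).2
        (tauIn_nonneg B h0 h1 x z)).trans ?_
      rw [← sum_mul, pow_succ']
      exact mul_le_mul_of_nonneg_right (hX x) (pow_nonneg hXb k)

omit [Fintype ι] in
/-- Every choice of points on a path is a list of connections by disjoint parts of it. -/
theorem steps_of_path {H : SimpleGraph V} : ∀ {x y : V} (w : H.Walk x y), w.edges.Nodup →
    ∀ l : List V, List.Sublist l w.support.tail → stepsEv x l w.edges.toFinset := by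
  intro x y w
  induction w with
  | nil =>
    intro _ l hl
    rw [SimpleGraph.Walk.support_nil, List.tail_cons, List.sublist_nil] at hl
    subst hl
    trivial
  | @cons u v z hadj w ih =>
    intro hnd l hl
    rw [SimpleGraph.Walk.edges_cons, List.nodup_cons] at hnd
    rw [SimpleGraph.Walk.support_cons, List.tail_cons, ← SimpleGraph.Walk.cons_tail_support w] at hl
    have hE : (SimpleGraph.Walk.cons hadj w).edges.toFinset = insert s(u, v) w.edges.toFinset := by
      simp
    rw [hE]
    have hne : u ≠ v := hadj.ne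
    have hnot : s(u, v) ∉ w.edges.toFinset := fun h => hnd.1 (List.mem_toFinset.1 h)
    cases hl with
    | cons _ hl =>
      cases l with
      | nil => trivial
      | cons z' zs =>
        obtain ⟨K, K', hK, hK', hdis, hcl, hrest⟩ := ih hnd.2 _ hl
        refine ⟨insert s(u, v) K, K', insert_subset_insert _ hK, hK'.trans (subset_insert _ _),
          disjoint_insert_left.2 ⟨fun h => hnot (hK' h), hdis⟩, ?_, hrest⟩
        exact (cl_edge hne (mem_insert_self _ _)).trans (cl_mono (subset_insert _ _) hcl)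
    | cons_cons _ hl =>
      exact ⟨{s(u, v)}, w.edges.toFinset, singleton_subset_iff.2 (mem_insert_self _ _),
        subset_insert _ _, disjoint_singleton_left.2 hnot,
        cl_edge hne (mem_singleton_self _), ih hnd.2 _ hl⟩

/-- A path of `K` steps in a small set costs, by the BK inequality at `k` of its points. -/
theorem longPath_le (hl : Labelling G nb) {S : Finset V} (B : Finset V) (hB : B ⊆ S) {p Xb : ℝ}
    (h0 : 0 ≤ p) (h1 : p ≤ 1) (hX : ∀ x, ∑ y ∈ B, tauIn nb B p x y ≤ Xb) (x : V) {k K : ℕ}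
    (hk : k ≤ K) :
    avg (inE nb S) p (fun η => ind (LongPath (↑B) x K η)) ≤ Xb ^ k / (K.choose k : ℝ) := by
  classical
  have hpt : ∀ η, η ⊆ inE nb S → (K.choose k : ℝ) * ind (LongPath (↑B) x K η)
      ≤ ∑ l ∈ lists B k, ind (stepsEv x l (η ∩ inE nb B)) := by
    intro η hη
    by_cases hlp : LongPath (↑B) x K η
    swap
    · rw [show ind (LongPath (↑B : Set V) x K η) = 0 from if_neg hlp, mul_zero]
      exact sum_nonneg fun _ _ => ind_nonneg _
    rw [show ind (LongPath (↑B : Set V) x K η) = 1 from if_pos hlp, mul_one]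
    obtain ⟨v, σ, hσ, hlen, hin⟩ := hlp
    have hedge : σ.edges.toFinset ⊆ η ∩ inE nb B := by
      intro e he
      rw [List.mem_toFinset] at he
      have h2 := σ.edges_subset_edgeSet he
      rw [SimpleGraph.edgeSet_fromEdgeSet] at h2
      refine mem_inter.2 ⟨h2.1, (inE_iff hl).2 ⟨((inE_iff hl).1 (hη h2.1)).1, ?_⟩⟩
      induction e using Sym2.ind with
      | _ c d =>
        intro u hu
        rcases Sym2.mem_iff.1 hu with rfl | rfl
        · exact hin _ (σ.fst_mem_support_of_mem_edges he)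
        · exact hin _ (σ.snd_mem_support_of_mem_edges he)
    have hnd : σ.support.tail.Nodup := hσ.support_nodup.tail
    have hcard : ((List.sublistsLen k σ.support.tail).toFinset).card = K.choose k := by
      rw [List.toFinset_card_of_nodup (List.nodup_sublistsLen k hnd), List.length_sublistsLen,
        List.length_tail, SimpleGraph.Walk.length_support, hlen]
      rfl
    rw [← hcard]
    simp only [ind, sum_boole]
    refine Nat.cast_le.2 (card_le_card fun l hl' => ?_)
    rw [List.mem_toFinset, List.mem_sublistsLen] at hl'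
    refine mem_filter.2 ⟨hl'.2 ▸ mem_lists fun u hu => hin u (List.mem_of_mem_tail (hl'.1.subset hu)),
      inc_steps x l _ _ hedge (steps_of_path σ hσ.isTrail.edges_nodup l hl'.1)⟩
  have hBE : inE nb B ⊆ inE nb S := inE_mono hl hB
  have hcomb : ∀ l, avg (inE nb S) p (fun η => ind (stepsEv x l (η ∩ inE nb B)))
      = avg (inE nb B) p (fun η => ind (stepsEv x l η)) := fun l => by
    have h := avg_split hBE p (fun η => ind (stepsEv x l η)) fun _ => (1 : ℝ)
    simp only [mul_one, avg_one] at h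
    exact h
  rw [le_div_iff₀ (Nat.cast_pos.2 (Nat.choose_pos hk)), mul_comm, ← avg_mul]
  refine (avg_mono _ h0 h1 hpt).trans ?_
  rw [avg_sum, sum_congr rfl fun l _ => hcomb l]
  exact (sum_steps_le B h0 h1 k x).trans (stepsVal_le B h0 h1 hX k x).2

/-! ### Pivotal edges and the insertion -/

/-- The edges whose closing gives an exit near a marked point: few, unless a long path appears. -/
theorem exit_count (hl : Labelling G nb) (U S : Finset V) (a : V) (T : Set V) (Z : Finset V)
    (B : V → Finset V) (Nb : ℕ) (hNb : ∀ z ∈ Z, (B z).card < Nb) (K : ℕ)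
    {η : Finset (Sym2 V)} (hη : η ⊆ inE nb S) :
    (∑ e ∈ η, ind (Exit U a T Z (fun z => ↑(B z)) (η.erase e) e))
      ≤ ((K : ℝ) + 1) * ind (Hit T a η)
        + Nb * ∑ z ∈ Z, ∑ y ∈ B z, ∑ j, ind (box (fun L => InC U a L y)
            (LongPath (↑(B z)) (nb y j) K) η) := by
  classical
  set P := η.filter fun e => Exit U a T Z (fun z => ↑(B z)) (η.erase e) e with hP
  have hsum : (∑ e ∈ η, ind (Exit U a T Z (fun z => ↑(B z)) (η.erase e) e)) = (P.card : ℝ) := by
    simp only [ind, sum_boole, hP]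
  rw [hsum]
  have hnn : 0 ≤ ∑ z ∈ Z, ∑ y ∈ B z, ∑ j, ind (box (fun L => InC U a L y)
      (LongPath (↑(B z)) (nb y j) K) η) :=
    sum_nonneg fun _ _ => sum_nonneg fun _ _ => sum_nonneg fun _ _ => ind_nonneg _
  by_cases hK : K < P.card
  · obtain ⟨z, hz, y, x, hy, hx, -, he, hbox⟩ :=
      FXZ.pivots U a T Z (fun z => (↑(B z) : Set V)) (K := K) hK
    obtain ⟨z', hz', y', x', _, _, _, _, K₁, K₂, _, _, _, _, v, σ, hσ, hlen, hin⟩ :=
      FXZ.pivots U a T Z (fun z => (↑(B z) : Set V)) (K := P.card - 1) (η := η)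
        (show P.card - 1 < P.card by omega)
    have hle : P.card ≤ Nb := by
      have h1 : σ.support.toFinset ⊆ B z' := fun u hu => hin u (List.mem_toFinset.1 hu)
      have h2 := card_le_card h1
      rw [List.toFinset_card_of_nodup hσ.support_nodup, SimpleGraph.Walk.length_support, hlen] at h2
      have := hNb z' hz'
      omega
    obtain ⟨j, hj⟩ := (hl.adj y x).1 ((inE_iff hl).1 (hη he)).1
    have hone : (1 : ℝ) ≤ ∑ z ∈ Z, ∑ y ∈ B z, ∑ j, ind (box (fun L => InC U a L y)
        (LongPath (↑(B z)) (nb y j) K) η) := by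
      refine le_trans ?_ (single_le_sum (f := fun z => ∑ y ∈ B z, ∑ j, ind (box
        (fun L => InC U a L y) (LongPath (↑(B z)) (nb y j) K) η))
        (fun _ _ => sum_nonneg fun _ _ => sum_nonneg fun _ _ => ind_nonneg _) hz)
      refine le_trans ?_ (single_le_sum (f := fun y => ∑ j, ind (box
        (fun L => InC U a L y) (LongPath (↑(B z)) (nb y j) K) η))
        (fun _ _ => sum_nonneg fun _ _ => ind_nonneg _) (mem_coe.1 hy))
      refine le_trans ?_ (single_le_sum (f := fun j => ind (box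
        (fun L => InC U a L y) (LongPath (↑(B z)) (nb y j) K) η))
        (fun _ _ => ind_nonneg _) (mem_univ j))
      rw [hj]
      exact le_of_eq (if_pos hbox).symm
    have := mul_nonneg (by positivity : (0 : ℝ) ≤ (K : ℝ) + 1) (ind_nonneg (Hit T a η))
    have : (P.card : ℝ) ≤ Nb := Nat.cast_le.2 hle
    nlinarith
  · have hN : 0 ≤ (Nb : ℝ) * ∑ z ∈ Z, ∑ y ∈ B z, ∑ j, ind (box (fun L => InC U a L y)
        (LongPath (↑(B z)) (nb y j) K) η) := mul_nonneg (Nat.cast_nonneg _) hnn
    rcases P.eq_empty_or_nonempty with h | ⟨e, he⟩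
    · have := mul_nonneg (by positivity : (0 : ℝ) ≤ (K : ℝ) + 1) (ind_nonneg (Hit T a η))
      simp only [h, card_empty, Nat.cast_zero]
      linarith
    · obtain ⟨heη, -, z, -, -, y, x, rfl, hy, hyx, -, -, t, ht, σ, -⟩ := mem_filter.1 he
      have hhit : Hit T a η := ⟨t, ht, ((cl_mono (erase_subset _ _) (cl_of_inC hy)).trans
        (cl_edge hyx heη)).trans (cl_mono (erase_subset _ _) ⟨σ⟩)⟩
      rw [show ind (Hit T a η) = 1 from if_pos hhit, mul_one]
      have : (P.card : ℝ) ≤ K := Nat.cast_le.2 (by omega)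
      linarith

set_option linter.unusedVariables false in
/-- Insertion: an increasing event of the cluster, with many marked points, mostly reaches the
target. -/
theorem insertion (hl : Labelling G nb) {p : ℝ} (h0 : 0 < p) (h1 : p ≤ 1)
    (U S : Finset V) (hUS : U ⊆ S) (a : V) (Z : Finset V) (hZ : Z ⊆ U)
    (c : ℕ) (col : V → Fin c) (B : V → Finset V) (hB : ∀ z ∈ Z, B z ⊆ S)
    (hdisj : ∀ z ∈ Z, ∀ z' ∈ Z, col z = col z' → z ≠ z' → Disjoint (B z) (B z'))
    (T : Set V) {β : ℝ} (hβ0 : 0 ≤ β) (hβ : ∀ z ∈ Z, β ≤ hit nb (B z) p z T)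
    (A : Finset (Sym2 V) → Prop) (hInc : Inc A)
    (hdet : ∀ η η', η ⊆ inE nb S → η' ⊆ inE nb S →
      (∀ e ∈ inE nb U, (∃ v ∈ e, FXZ.InC U a η v) → (e ∈ η ↔ e ∈ η')) → A η → A η')
    (m : ℕ) (hm : ∀ η, η ⊆ inE nb S → A η → (c : ℝ) * m ≤ {z | z ∈ Z ∧ FXZ.InC U a η z}.ncard)
    {Xb : ℝ} (hX : ∀ z ∈ Z, ∀ x, ∑ y ∈ B z, tauIn nb (B z) p x y ≤ Xb)
    (Nb : ℕ) (hNb : ∀ z ∈ Z, (B z).card < Nb) (k K : ℕ) (hk : k ≤ K) :
    (1 - (1 - β) ^ m) * avg (inE nb S) p (fun η => ind (A η))
      ≤ (1 + (1 - p) / p * ((K : ℝ) + 1)) * avg (inE nb S) p (fun η => ind (A η ∧ FXZ.Hit T a η))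
        + (1 - p) / p * Nb * Fintype.card ι * (Xb ^ k / (K.choose k : ℝ))
          * ∑ z ∈ Z, ∑ y ∈ B z, tauIn nb U p a y := by
  classical
  have hp0 : 0 ≤ p := h0.le
  have hc : 0 < c := Fin.pos (col a)
  set E := inE nb S with hE
  let obs : Finset (Sym2 V) → Finset V × Finset (Sym2 V) := fun η =>
    (comp U a η, η ∩ seen nb U (comp U a η))
  let Ks : Finset V × Finset (Sym2 V) → Finset (Sym2 V) := fun q => seen nb U q.1
  let Succ : Finset V → Finset (Sym2 V) → Prop := fun C ω =>
    ∃ z ∈ Z, z ∈ C ∧ Hit T z (ω ∩ inE nb (B z))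
  have hKs : ∀ η, η ⊆ E → Ks (obs η) ⊆ E := fun η _ =>
    (filter_subset _ _).trans (inE_mono hl hUS)
  have hloc : ∀ η η', η ⊆ E → η' ⊆ E → η' ∩ Ks (obs η) = η ∩ Ks (obs η) → obs η' = obs η := by
    intro η η' hη hη' h
    have h2 := comp_congr hl hη hη' h
    simp only [obs, h2]
    exact Prod.ext rfl h
  have hAobs : ∀ η η', η ⊆ E → η' ⊆ E → obs η = obs η' → A η → A η' := by
    intro η η' hη hη' h hA
    refine hdet η η' hη hη' (fun e he hv => ?_) hA
    obtain ⟨v, hve, hv⟩ := hv
    have hes : e ∈ seen nb U (comp U a η) := mem_filter.2 ⟨he, v, hve, mem_comp.2 hv⟩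
    obtain ⟨h2, h3⟩ := Prod.ext_iff.1 h
    simp only [obs] at h2 h3
    rw [← h2] at h3
    have h4 := Finset.ext_iff.1 h3 e
    simpa [hes] using h4
  -- trials succeed with good probability
  have htrial : ∀ η, η ⊆ E → A η →
      1 - (1 - β) ^ m ≤ avg E p (fun ω => ind (Succ (comp U a η) ω)) := by
    intro η hη hA
    set W := Z.filter fun z => z ∈ comp U a η with hW
    have hWc : c * m ≤ W.card := by
      have h := hm η hη hA
      have e : {z | z ∈ Z ∧ InC U a η z} = (W : Set V) := by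
        ext z; simp [hW, mem_comp]
      rw [e, Set.ncard_coe_finset] at h
      exact_mod_cast h
    obtain ⟨i, -, hi⟩ := exists_le_card_fiber_of_mul_le_card_of_maps_to
      (f := col) (t := (univ : Finset (Fin c))) (fun _ _ => mem_univ _)
      ⟨⟨0, hc⟩, mem_univ _⟩ (by simpa using hWc)
    obtain ⟨s, hs, hsc⟩ := exists_subset_card_eq hi
    have hsW : ∀ z ∈ s, z ∈ Z ∧ z ∈ comp U a η ∧ col z = i := fun z hz => by
      obtain ⟨h1, h2⟩ := mem_filter.1 (hs hz)
      exact ⟨(mem_filter.1 h1).1, (mem_filter.1 h1).2, h2⟩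
    have h2 := none_le (nb := nb) hp0 h1 B T s E
      (fun z hz => inE_mono hl (hB z (hsW z hz).1))
      (fun z hz z' hz' => hdisj z (hsW z hz).1 z' (hsW z' hz').1
        ((hsW z hz).2.2.trans (hsW z' hz').2.2.symm))
      (β := β) fun z hz => hβ z (hsW z hz).1
    rw [hsc] at h2
    have h3 : avg E p (fun ω => 1 + (-1) * ind (∀ z ∈ s, ¬ Hit T z (ω ∩ inE nb (B z))))
        ≤ avg E p (fun ω => ind (Succ (comp U a η) ω)) := by
      refine avg_mono E hp0 h1 fun ω _ => ?_
      by_cases hall : ∀ z ∈ s, ¬ Hit T z (ω ∩ inE nb (B z))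
      · rw [show ind (∀ z ∈ s, ¬ Hit T z (ω ∩ inE nb (B z))) = 1 from if_pos hall]
        linarith [ind_nonneg (Succ (comp U a η) ω)]
      · rw [show ind (∀ z ∈ s, ¬ Hit T z (ω ∩ inE nb (B z))) = 0 from if_neg hall]
        push Not at hall
        obtain ⟨z, hz, hh⟩ := hall
        rw [show ind (Succ (comp U a η) ω) = 1 from
          if_pos ⟨z, (hsW z hz).1, (hsW z hz).2.1, hh⟩]
        norm_num
    rw [avg_add, avg_one, avg_mul] at h3
    linarith
  -- resampling
  set L := avg E p (fun η => ind (A η) * avg (Ks (obs η)) p fun ξ =>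
    ind (Succ (comp U a η) ((η \ Ks (obs η)) ∪ ξ))) with hL
  have hlow : (1 - (1 - β) ^ m) * avg E p (fun η => ind (A η)) ≤ L := by
    let good : Finset V × Finset (Sym2 V) → Prop := fun q => ∃ η, η ⊆ E ∧ obs η = q ∧ A η
    have hgood : ∀ η, η ⊆ E → ind (A η) = ind (good (obs η)) := fun η hη => by
      refine le_antisymm (ind_mono fun h => ⟨η, hη, rfl, h⟩) (ind_mono ?_)
      rintro ⟨η', hη', h, hA⟩
      exact hAobs η' η hη' hη h hA
    set C := E.powerset.image obs with hC
    have hL2 : L = ∑ q ∈ C, avg E p (fun η => ind (obs η = q ∧ good q)) *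
        avg E p (fun ω => ind (Succ q.1 ω)) := by
      have e : ∀ q, avg E p (fun η => ind (obs η = q ∧ good q)) *
          avg E p (fun ω => ind (Succ q.1 ω))
          = avg E p (fun η => ind (obs η = q ∧ good q) *
              avg (Ks (obs η)) p fun ξ => ind (Succ q.1 ((η \ Ks (obs η)) ∪ ξ))) := fun q =>
        (FXZ.resample E p obs Ks hKs hloc (fun q' => ind (q' = q ∧ good q))
          (fun ω => ind (Succ q.1 ω))).symm
      rw [sum_congr rfl fun q _ => e q, ← avg_sum, hL]
      refine avg_congr _ _ fun η hη => ?_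
      rw [sum_eq_single_of_mem (obs η) (mem_image_of_mem _ (mem_powerset.2 hη))]
      · simp only [true_and, ← hgood η hη]
        rfl
      · intro q _ hq
        simp [ind, Ne.symm hq]
    have hA2 : avg E p (fun η => ind (A η)) =
        ∑ q ∈ C, avg E p (fun η => ind (obs η = q ∧ good q)) := by
      rw [← avg_sum]
      refine avg_congr _ _ fun η hη => ?_
      rw [sum_eq_single_of_mem (obs η) (mem_image_of_mem _ (mem_powerset.2 hη))]
      · simp only [true_and, ← hgood η hη]
      · intro q _ hq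
        simp [ind, Ne.symm hq]
    rw [hL2, hA2, mul_sum]
    refine sum_le_sum fun q _ => ?_
    by_cases hq : good q
    · obtain ⟨η, hη, rfl, hA⟩ := hq
      rw [mul_comm]
      exact mul_le_mul_of_nonneg_left (htrial η hη hA) (avg_nonneg _ hp0 h1 fun _ _ => ind_nonneg _)
    · simp [ind, hq, avg]
  -- a success needs at most one edge
  have hopen : L ≤ avg E p (fun η => ind (A η ∧ Hit T a η)) + avg E p (fun η =>
      ∑ e ∈ E \ η, ind (A η ∧ Exit U a T Z (fun z => ↑(B z)) η e)) := by
    rw [hL, ← avg_add]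
    refine avg_mono E hp0 h1 fun η hη => ?_
    set R := ind (A η ∧ Hit T a η) + ∑ e ∈ E \ η, ind (A η ∧ Exit U a T Z (fun z => ↑(B z)) η e)
    have hR : 0 ≤ R := add_nonneg (ind_nonneg _) (sum_nonneg fun _ _ => ind_nonneg _)
    by_cases hA : A η
    swap
    · simp only [show ind (A η) = 0 from if_neg hA, zero_mul]
      exact hR
    rw [show ind (A η) = 1 from if_pos hA, one_mul]
    refine le_trans (avg_mono _ hp0 h1 (g := fun _ => R * 1) fun ξ hξ => ?_)
      (by rw [avg_mul, avg_one, mul_one])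
    rw [mul_one]
    by_cases hS : Succ (comp U a η) ((η \ Ks (obs η)) ∪ ξ)
    swap
    · rw [show ind (Succ (comp U a η) ((η \ Ks (obs η)) ∪ ξ)) = 0 from if_neg hS]
      exact hR
    rw [show ind (Succ (comp U a η) ((η \ Ks (obs η)) ∪ ξ)) = 1 from if_pos hS]
    by_cases hH : Hit T a η
    · refine le_trans (le_of_eq ?_) (le_add_of_nonneg_right (sum_nonneg fun _ _ => ind_nonneg _))
      exact (if_pos ⟨hA, hH⟩).symm
    obtain ⟨z, hzZ, hzC, t, ht, ⟨w⟩⟩ := hS
    rw [mem_comp] at hzC
    have ht' : ¬ InC U a η t := fun h => hH ⟨t, ht, cl_of_inC h⟩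
    obtain ⟨y, x, hadj, hy, hx, σ, hσ⟩ := last_leave (InC U a η) w ⟨z, w.start_mem_support, hzC⟩ ht'
    obtain ⟨heω, hyx⟩ := (SimpleGraph.fromEdgeSet_adj _).1 hadj
    have heB : s(y, x) ∈ inE nb (B z) := (mem_inter.1 (mem_coe.1 heω)).2
    -- the rest of the path is off the explored edges, hence open
    have hσe : ∀ e ∈ σ.edges, e ∈ η := by
      intro e he
      have h2 := σ.edges_subset_edgeSet he
      rw [SimpleGraph.edgeSet_fromEdgeSet] at h2
      rcases mem_union.1 (mem_inter.1 (mem_coe.1 h2.1)).1 with h3 | h3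
      · exact (mem_sdiff.1 h3).1
      · obtain ⟨-, v, hve, hvC⟩ := mem_filter.1 (hξ h3)
        induction e using Sym2.ind with
        | _ c d =>
          rcases Sym2.mem_iff.1 hve with rfl | rfl
          · exact absurd (mem_comp.1 hvC) (hσ _ (σ.fst_mem_support_of_mem_edges he))
          · exact absurd (mem_comp.1 hvC) (hσ _ (σ.snd_mem_support_of_mem_edges he))
    have hsubg : ∀ e ∈ σ.edges, e ∈ (SimpleGraph.fromEdgeSet (η : Set (Sym2 V))).edgeSet :=
      fun e he => by
        have h2 := σ.edges_subset_edgeSet he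
        rw [SimpleGraph.edgeSet_fromEdgeSet] at h2 ⊢
        exact ⟨hσe e he, h2.2⟩
    have hσB : ∀ v ∈ σ.support, v ∈ B z := support_in (P := fun v => v ∈ B z)
      (fun u v h => inE_mem (mem_inter.1 (mem_coe.1 ((SimpleGraph.fromEdgeSet_adj _).1 h).1)).2
        (Sym2.mem_mk_right u v)) σ (inE_mem heB (Sym2.mem_mk_right y x))
    have he : s(y, x) ∈ E \ η := mem_sdiff.2 ⟨inE_mono hl (hB z hzZ) heB, fun h =>
      hH ⟨t, ht, ((cl_of_inC hy).trans (cl_edge hyx h)).trans ⟨σ.transfer _ hsubg⟩⟩⟩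
    refine le_trans ?_ (le_add_of_nonneg_left (ind_nonneg _))
    refine le_trans (le_of_eq ?_) (single_le_sum
      (f := fun e => ind (A η ∧ Exit U a T Z (fun z => ↑(B z)) η e))
      (fun _ _ => ind_nonneg _) he)
    refine (if_pos ⟨hA, hH, z, hzZ, hzC, y, x, rfl, hy, hyx, mem_coe.2 (inE_mem heB
      (Sym2.mem_mk_left y x)), mem_coe.2 (inE_mem heB (Sym2.mem_mk_right y x)), t, ht,
      σ.transfer _ hsubg, fun v hv => ?_⟩).symm
    rw [SimpleGraph.Walk.support_transfer] at hv
    exact ⟨hσB v hv, hσ v hv⟩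
  -- opening that edge
  have hq : avg E p (fun η => ∑ e ∈ E \ η, ind (A η ∧ Exit U a T Z (fun z => ↑(B z)) η e))
      ≤ (1 - p) / p * (((K : ℝ) + 1) * avg E p (fun η => ind (A η ∧ Hit T a η))
        + Nb * (Fintype.card ι * (Xb ^ k / (K.choose k : ℝ)) *
          ∑ z ∈ Z, ∑ y ∈ B z, tauIn nb U p a y)) := by
    rw [FXZ.avg_open_edge E h0.ne' fun η e => A η ∧ Exit U a T Z (fun z => ↑(B z)) η e]
    refine mul_le_mul_of_nonneg_left ?_ (div_nonneg (sub_nonneg.2 h1) hp0)
    have hpt : ∀ η, η ⊆ E →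
        ∑ e ∈ η, ind (A (η.erase e) ∧ Exit U a T Z (fun z => ↑(B z)) (η.erase e) e)
        ≤ ((K : ℝ) + 1) * ind (A η ∧ Hit T a η) + Nb * ∑ z ∈ Z, ∑ y ∈ B z, ∑ j,
            ind (box (fun L => InC U a L y) (LongPath (↑(B z)) (nb y j) K) η) := by
      intro η hη
      by_cases hA : A η
      · simp only [hA, true_and]
        refine le_trans (sum_le_sum fun e _ => ind_mono fun h => h.2) ?_
        exact exit_count hl U S a T Z B Nb hNb K hη
      · refine le_trans (le_of_eq (sum_eq_zero fun e _ => ?_)) (add_nonneg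
          (mul_nonneg (by positivity) (ind_nonneg _)) (mul_nonneg (Nat.cast_nonneg _)
          (sum_nonneg fun _ _ => sum_nonneg fun _ _ => sum_nonneg fun _ _ => ind_nonneg _)))
        exact if_neg fun h => hA (hInc _ _ (erase_subset _ _) h.1)
    refine (avg_mono E hp0 h1 hpt).trans ?_
    rw [avg_add, avg_mul, avg_mul]
    refine add_le_add le_rfl (mul_le_mul_of_nonneg_left ?_ (Nat.cast_nonneg _))
    rw [avg_sum, mul_sum]
    refine sum_le_sum fun z hz => ?_
    rw [avg_sum, mul_sum]
    refine sum_le_sum fun y hy => ?_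
    rw [avg_sum]
    refine (sum_le_sum (g := fun _ => tauIn nb U p a y * (Xb ^ k / (K.choose k : ℝ)))
      fun j _ => ?_).trans (le_of_eq (by rw [sum_const, card_univ, nsmul_eq_mul]; ring))
    refine (bk E hp0 h1 _ _ (inc_inC U a y) (FXZ.inc_longPath _ _ _)).trans ?_
    refine mul_le_mul (le_of_eq ?_) (longPath_le hl (B z) (hB z hz) hp0 h1 (hX z hz) _ hk)
      (avg_nonneg _ hp0 h1 fun _ _ => ind_nonneg _) (tauIn_nonneg U hp0 h1 a y)
    have hsplit := avg_split (inE_mono hl hUS) p (fun η => ind (cl η a y)) fun _ => (1 : ℝ)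
    simp only [mul_one, avg_one] at hsplit
    rw [tauIn_eq, ← hsplit]
    refine avg_congr _ _ fun η hη => congrArg ind (propext ?_)
    have e : η.filter (fun e => ∀ u ∈ e, u ∈ U) = η ∩ inE nb U := by
      ext e
      simp only [mem_filter, mem_inter]
      exact ⟨fun h => ⟨h.1, (inE_iff hl).2 ⟨((inE_iff hl).1 (hη h.1)).1, h.2⟩⟩,
        fun h => ⟨h.1, fun u hu => inE_mem h.2 hu⟩⟩
    rw [← e]
    rfl
  refine hlow.trans (hopen.trans ((add_le_add le_rfl hq).trans (le_of_eq ?_)))
  ring

end Vale.Agent.P165.FP
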