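import Vale.Agent.P165.FP.JTransport
import Vale.Agent.P165.FP.Recursion

/-!
# The expected size of a cluster inside one fibre

Many points of the own fibre in the cluster give, after two insertions, connections to two far
targets. Averaged over the translations by short kernel elements these cost the square of their
number, up to the chance of an even larger fibre; iterating gives a small power of the radius.
-/

namespace Vale.Agent.P165.FP

open Finset FF FreeGroup Filter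

/-- The code bound of a pair against the level. -/
theorem pair_bound {θ θ' δ Bb u : ℝ} {b c m L R l : ℕ} (hθ' : 0 < θ') (hδ : 0 ≤ δ)
    (hratio : θ' * (1 - δ) ≤ θ) (hBb : 0 ≤ Bb) (hBu : Bb ^ (1 / θ') ≤ u)
    (hm1 : 1 ≤ m) (hL : 1 ≤ L) (hcm : L ≤ c * m) (hR : 2 ≤ R)
    (hmN : m ≤ 2 ^ (b * l)) (h2l : 2 ^ l ≤ 2 * R) (hbu : (R : ℝ) ^ (4 * (b : ℝ) * δ) ≤ u) :
    (Bb / ((m : ℝ) ^ θ) ^ 2) ^ (1 / θ') ≤ u * u * (c : ℝ) ^ 2 / (L : ℝ) ^ 2 := by
  have hu : 0 ≤ u := (Real.rpow_nonneg hBb _).trans hBu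
  have hRr : (0 : ℝ) < R := by exact_mod_cast (show 0 < R by omega)
  have hR1r : (1 : ℝ) ≤ R := by exact_mod_cast (show 1 ≤ R by omega)
  have hLr : (0 : ℝ) < L := by exact_mod_cast hL
  have hm0 : (0 : ℝ) < m := by exact_mod_cast hm1
  have hm1r : (1 : ℝ) ≤ m := by exact_mod_cast hm1
  rw [Real.div_rpow hBb (by positivity), div_eq_mul_inv,
    show u * u * (c : ℝ) ^ 2 / (L : ℝ) ^ 2 = u * (u * ((c : ℝ) ^ 2 / (L : ℝ) ^ 2)) by ring]
  refine mul_le_mul hBu ?_ (by positivity) hu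
  have hexp : (2 : ℝ) * (1 - δ) ≤ θ * 2 * (1 / θ') := by
    rw [mul_one_div, le_div_iff₀ hθ']; linarith
  rw [← Real.rpow_natCast ((m : ℝ) ^ θ) 2, ← Real.rpow_mul hm0.le, ← Real.rpow_mul hm0.le]
  refine (inv_anti₀ (Real.rpow_pos_of_pos hm0 _) (Real.rpow_le_rpow_of_exponent_le hm1r
    (le_trans hexp (le_of_eq (by push_cast; rfl))))).trans ?_
  rw [← Real.rpow_neg hm0.le, show -((2 : ℝ) * (1 - δ)) = 2 * δ + ((-2 : ℤ) : ℝ) by
    push_cast; ring, Real.rpow_add hm0, Real.rpow_intCast]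
  refine mul_le_mul ?_ ?_ (by positivity) hu
  · have hmR : (m : ℝ) ≤ ((R : ℝ) ^ 2) ^ b := by
      refine le_trans (Nat.cast_le.2 hmN) ?_
      rw [mul_comm, pow_mul]
      push_cast
      refine pow_le_pow_left₀ (by positivity) ?_ b
      have h1 : ((2 ^ l : ℕ) : ℝ) ≤ ((2 * R : ℕ) : ℝ) := Nat.cast_le.2 h2l
      push_cast at h1
      have h2 : (2 : ℝ) ≤ R := by exact_mod_cast hR
      nlinarith
    refine (Real.rpow_le_rpow hm0.le hmR (by positivity)).trans ?_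
    rw [← pow_mul, ← Real.rpow_natCast (R : ℝ), ← Real.rpow_mul hRr.le]
    refine (Real.rpow_le_rpow_of_exponent_le hR1r (le_of_eq ?_)).trans hbu
    push_cast
    ring
  · rw [zpow_neg, le_div_iff₀ (by positivity), inv_mul_le_iff₀ (by positivity)]
    rw [show (2 : ℤ) = ((2 : ℕ) : ℤ) from rfl, zpow_natCast, ← mul_pow]
    refine pow_le_pow_left₀ hLr.le ?_ 2
    rw [mul_comm]
    exact_mod_cast hcm

/-- The insertion errors are below the level. -/
theorem err_bound {R L c b a₂ l : ℕ} {u err : ℝ}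
    (herrd : err = 1 / (R : ℝ) ^ (2 * b + a₂ + 3) * ((2 ^ (b * l) * 2 ^ (a₂ * l) : ℕ) : ℝ))
    (hu1 : 1 ≤ u) (huR : u ≤ R) (hcu : (c : ℝ) ≤ u) (hL : 1 ≤ L) (hLN : L ≤ 2 ^ (b * l))
    (h2l : 2 ^ l ≤ 2 * R) (hR : 2 * 2 ^ (2 * b + a₂) ≤ R) :
    (c : ℝ) * (u * err + err) ≤ 1 / (L : ℝ) := by
  have hLr : (0 : ℝ) < L := by exact_mod_cast hL
  have hRr : (0 : ℝ) < R := lt_of_lt_of_le (by linarith) huR
  have hu : 0 ≤ u := by linarith
  have hLr' : (L : ℝ) ≤ ((2 : ℝ) * R) ^ b := by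
    refine le_trans (Nat.cast_le.2 hLN) ?_
    rw [mul_comm, pow_mul]
    push_cast
    exact pow_le_pow_left₀ (by positivity) (by exact_mod_cast h2l) b
  have herr0 : err ≤ ((2 : ℝ) * R) ^ (b + a₂) / (R : ℝ) ^ (2 * b + a₂ + 3) := by
    rw [herrd]
    rw [one_div_mul_eq_div]
    refine div_le_div_of_nonneg_right ?_ (by positivity)
    rw [← pow_add, ← add_mul, mul_comm, pow_mul]
    push_cast
    exact pow_le_pow_left₀ (by positivity) (by exact_mod_cast h2l) _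
  have he0 : 0 ≤ err := by rw [herrd]; positivity
  rw [le_div_iff₀ hLr]
  calc (c : ℝ) * (u * err + err) * L ≤ R * (2 * R * err) * ((2 : ℝ) * R) ^ b := by
        refine mul_le_mul (mul_le_mul (hcu.trans huR) ?_ (by positivity) hRr.le) hLr' hLr.le
          (by positivity)
        nlinarith
    _ ≤ R * (2 * R * (((2 : ℝ) * R) ^ (b + a₂) / (R : ℝ) ^ (2 * b + a₂ + 3))) * ((2 : ℝ) * R) ^ b := by
        gcongr
    _ = 2 * 2 ^ (2 * b + a₂) * (R : ℝ) ^ (2 * b + a₂ + 2) / (R : ℝ) ^ (2 * b + a₂ + 3) := by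
        rw [mul_pow, mul_pow]; ring
    _ ≤ 1 := by
        rw [div_le_one (by positivity), show 2 * b + a₂ + 3 = 2 * b + a₂ + 2 + 1 from rfl,
          pow_succ' (R : ℝ) (2 * b + a₂ + 2)]
        refine mul_le_mul_of_nonneg_right ?_ (by positivity)
        exact_mod_cast hR

/-- Collecting the powers. -/
theorem step_arith {u c K3 B B' P2 E₁ L Λ e : ℝ} (hu1 : 1 ≤ u) (hc0 : 0 ≤ c) (hcu : c ≤ u)
    (hK0 : 0 ≤ K3) (hK3 : K3 ≤ u) (hB' : 0 ≤ B') (hΛ : 0 ≤ Λ)
    (hP2 : P2 ≤ B' + Λ * (K3 * u * B)) (hB : B ≤ u * u * c ^ 2 / L ^ 2) (hue : u ^ 9 ≤ e)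
    (hE : E₁ ≤ 1 / L) :
    c * u * u * P2 + E₁ ≤ e * (B' + Λ / L ^ 2) + 1 / L := by
  have hu : 0 ≤ u := by linarith
  have h3 : u ^ 3 ≤ u ^ 9 := pow_le_pow_right₀ hu1 (by norm_num)
  calc c * u * u * P2 + E₁
      ≤ c * u * u * (B' + Λ * (K3 * u * (u * u * c ^ 2 / L ^ 2))) + 1 / L := by
        refine add_le_add (mul_le_mul_of_nonneg_left (hP2.trans (add_le_add le_rfl ?_))
          (by positivity)) hE
        gcongr
    _ = c * u * u * B' + c * u * u * (K3 * u * (u * u * c ^ 2)) * (Λ / L ^ 2) + 1 / L := by ring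
    _ ≤ u ^ 9 * B' + u ^ 9 * (Λ / L ^ 2) + 1 / L := by
        refine add_le_add (add_le_add (mul_le_mul_of_nonneg_right ?_ hB')
          (mul_le_mul_of_nonneg_right ?_ (by positivity))) le_rfl
        · calc c * u * u ≤ u * u * u := by gcongr
            _ = u ^ 3 := by ring
            _ ≤ u ^ 9 := h3
        · calc c * u * u * (K3 * u * (u * u * c ^ 2)) ≤ u * u * u * (u * u * (u * u * u ^ 2)) := by
                gcongr
            _ = u ^ 9 := by ring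
    _ ≤ e * (B' + Λ / L ^ 2) + 1 / L := by
        rw [← mul_add]
        exact add_le_add (mul_le_mul_of_nonneg_right hue (by positivity)) le_rfl

namespace Env

open Base

variable {Γ O ι α : Type} [Group Γ] [Fintype ι] [DecidableEq α] [Fintype α] [Fintype O]
  [DecidableEq Γ] [DecidableEq O] (E : Env Γ O ι α) {p : ℝ}

/-- The points of a ball over the centre. -/
noncomputable def ownFib (a : Γ × O) (R : ℕ) : Finset (Γ × O) :=
  (E.cyl a R).filter fun y => E.pos y = E.pos a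

/-- The chance of `L` points over the centre joined to it inside the ball. -/
noncomputable def ownTail (p : ℝ) (R L : ℕ) (a : Γ × O) : ℝ :=
  avg (inE E.nb (E.cyl a R)) p fun η =>
    ind (L ≤ {z | z ∈ E.ownFib a R ∧ FXZ.InC (E.cyl a R) a η z}.ncard)

omit [DecidableEq Γ] [DecidableEq O] in
theorem eventually_card_ownFib : ∃ R₀ : ℕ, ∀ R, R₀ ≤ R → ∀ a : Γ × O,
    (E.ownFib a R).card < R ^ (E.deg + 1) := by
  refine ⟨Fintype.card O * E.Cg * 3 ^ E.deg + 1, fun R hR a => ?_⟩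
  refine lt_of_le_of_lt ((E.card_fibre a R _).trans (Nat.mul_le_mul le_rfl (E.growth _))) ?_
  calc Fintype.card O * (E.Cg * (2 * R + 1) ^ E.deg)
      ≤ Fintype.card O * (E.Cg * (3 * R) ^ E.deg) := by gcongr; omega
    _ = (Fintype.card O * E.Cg * 3 ^ E.deg) * R ^ E.deg := by rw [mul_pow]; ring
    _ < R * R ^ E.deg := Nat.mul_lt_mul_of_pos_right (by omega) (Nat.pow_pos (by omega))
    _ = R ^ (E.deg + 1) := by rw [pow_succ, mul_comm]

theorem ownTail_eq_zero {a : Γ × O} {R L : ℕ} (h : (E.ownFib a R).card < L) :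
    E.ownTail p R L a = 0 := by
  have h0 : ∀ η, η ⊆ inE E.nb (E.cyl a R) →
      ind (L ≤ {z | z ∈ E.ownFib a R ∧ FXZ.InC (E.cyl a R) a η z}.ncard) = (0 : ℝ) := by
    refine fun η _ => if_neg fun hle => absurd (hle.trans ?_) (not_le.2 h)
    rw [← Set.ncard_coe_finset (E.ownFib a R)]
    exact Set.ncard_le_ncard (fun z hz => hz.1) (Finset.finite_toSet _)
  rw [ownTail, avg_congr _ p h0]
  simp [avg]

omit [Fintype O] [DecidableEq Γ] [DecidableEq O] in
theorem exists_scale {ε : ℝ} (hε : 0 < ε) : ∃ i₀ R₀ : ℕ, ∀ R, R₀ ≤ R →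
    ∃ i ≤ i₀, (E.kerCount (8 * (8 ^ i * R)) : ℝ) ≤ (R : ℝ) ^ ε * E.kerCount (8 ^ i * R) := by
  obtain ⟨i₀, hi₀⟩ := exists_nat_ge (((E.deg : ℝ) + 1) / ε)
  rw [div_le_iff₀ hε] at hi₀
  refine ⟨i₀, E.Cg * (2 * 8 ^ i₀) ^ E.deg + 1, fun R hR => ?_⟩
  by_contra hall
  push Not at hall
  have hR1 : 1 ≤ R := by omega
  have hRr : (0 : ℝ) < R := by exact_mod_cast hR1
  have hgrow : ∀ i ≤ i₀, ((R : ℝ) ^ ε) ^ i ≤ E.kerCount (8 ^ i * R) := by
    intro i hi
    induction i with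
    | zero =>
      rw [pow_zero, Nat.one_le_cast]
      exact (Set.ncard_pos ((E.len_finite _).subset fun g hg => hg.2)).2
        ⟨1, map_one _, by rw [E.len_one]; exact Nat.zero_le _⟩
    | succ i ih =>
      refine le_trans ?_ (le_of_lt (lt_of_lt_of_le (hall i (by omega)) (le_of_eq ?_)))
      · rw [pow_succ']
        exact mul_le_mul_of_nonneg_left (ih (by omega)) (by positivity)
      · rw [show 8 * (8 ^ i * R) = 8 ^ (i + 1) * R by ring]
  have h1 : E.kerCount (8 ^ i₀ * R) < R ^ (E.deg + 1) := by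
    have h2 : 8 ^ i₀ * R + 1 ≤ 2 * 8 ^ i₀ * R := by
      have : 1 ≤ 8 ^ i₀ * R := Nat.mul_pos (Nat.pow_pos (by norm_num)) hR1
      rw [mul_assoc]; omega
    calc E.kerCount (8 ^ i₀ * R) ≤ E.Cg * (8 ^ i₀ * R + 1) ^ E.deg := E.growth _
      _ ≤ E.Cg * (2 * 8 ^ i₀ * R) ^ E.deg := Nat.mul_le_mul le_rfl (Nat.pow_le_pow_left h2 _)
      _ = E.Cg * (2 * 8 ^ i₀) ^ E.deg * R ^ E.deg := by rw [mul_pow]; ring
      _ < R * R ^ E.deg := Nat.mul_lt_mul_of_pos_right (by omega) (Nat.pow_pos hR1)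
      _ = R ^ (E.deg + 1) := by rw [pow_succ, mul_comm]
  have h3 : ((R ^ (E.deg + 1) : ℕ) : ℝ) ≤ ((R : ℝ) ^ ε) ^ i₀ := by
    rw [← Real.rpow_natCast ((R : ℝ) ^ ε) i₀, ← Real.rpow_mul hRr.le, Nat.cast_pow,
      ← Real.rpow_natCast (R : ℝ) (E.deg + 1)]
    refine Real.rpow_le_rpow_of_exponent_le (by exact_mod_cast hR1) ?_
    push_cast
    linarith
  have h4 : ((E.kerCount (8 ^ i₀ * R) : ℕ) : ℝ) < ((R ^ (E.deg + 1) : ℕ) : ℝ) := by exact_mod_cast h1
  linarith [hgrow i₀ le_rfl]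

omit [Fintype O] in
/-- A pair of targets of one length and one last letter, cheap in the sense of the code bound. -/
theorem pick_pair {θ θ' κ Cc : ℝ} {D m : ℕ} (hm : 1 ≤ m) (hκ : 0 < κ) (hCc : 0 ≤ Cc)
    (hθ' : 0 < θ') (x : FreeGroup α) (V : Finset (Γ × O)) {W W₂ : Finset (List (α × Bool))}
    (hWpf : PrefixFree W) (hWm : ∀ w ∈ W, Red w ∧ w.head? = some E.a₀)
    (hW₂m : ∀ w ∈ W₂, Red w ∧ w.head? = some (li E.a₀) ∧ w.length ≤ D)
    (hWcard : κ * (m : ℝ) ^ θ ≤ W.card) (hW₂card : κ * (m : ℝ) ^ θ ≤ W₂.card)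
    (hcheap : ∀ (x : FreeGroup α) (V : Finset (Γ × O)) (e e' l : α × Bool) (n : ℕ)
      (W W' : Finset (List (α × Bool))), e ≠ e' → PrefixFree W →
      (∀ w ∈ W, Red w ∧ w.head? = some e) →
      (∀ w ∈ W', Red w ∧ w.head? = some e' ∧ w.getLast? = some l ∧ w.length = n) →
      ∀ B : ℝ, 0 ≤ B → Cc < (W.card : ℝ) * W'.card * B ^ θ' →
        ∃ w ∈ W, ∃ w' ∈ W', ∀ z ∈ V, ((x * mk w')⁻¹ * E.pos z).norm ≤ E.L →
          hit E.nb (E.outside V x w' z) p z (E.above x w) ≤ B) :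
    ∃ w ∈ W, ∃ w' ∈ W₂, ∀ z ∈ V, ((x * mk w')⁻¹ * E.pos z).norm ≤ E.L →
      hit E.nb (E.outside V x w' z) p z (E.above x w) ≤
        ((Cc + 1) * ((range (D + 1) ×ˢ (univ : Finset (α × Bool))).card : ℝ) / κ ^ 2 /
          ((m : ℝ) ^ θ) ^ 2) ^ (1 / θ') := by
  classical
  have hm1 : 1 ≤ m := hm
  have hmθ : (0 : ℝ) < (m : ℝ) ^ θ := Real.rpow_pos_of_pos (by exact_mod_cast hm1) _
  set idx := range (D + 1) ×ˢ (univ : Finset (α × Bool))
  set key : List (α × Bool) → ℕ × (α × Bool) := fun w => (w.length, w.getLastD E.a₀)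
  obtain ⟨⟨n, e₂⟩, hne, hclass⟩ : ∃ k ∈ idx, (W₂.card : ℝ) ≤
      (idx.card : ℝ) * (W₂.filter fun w => key w = k).card := by
    have hmaps : ∀ w ∈ W₂, key w ∈ idx := fun w hw => mem_product.2
      ⟨mem_range.2 (Nat.lt_succ_of_le ((hW₂m w hw).2.2)), mem_univ _⟩
    obtain ⟨k, hk, hmax⟩ := exists_max_image idx (fun k => (W₂.filter fun w => key w = k).card)
      ⟨(0, E.a₀), mem_product.2 ⟨mem_range.2 (Nat.succ_pos _), mem_univ _⟩⟩
    refine ⟨k, hk, ?_⟩
    rw [← Nat.cast_mul, card_eq_sum_card_fiberwise hmaps]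
    exact_mod_cast (sum_le_card_nsmul _ _ _ fun k' hk' => hmax k' hk').trans (le_of_eq (smul_eq_mul _ _))
  set W' := W₂.filter fun w => key w = (n, e₂)
  set Ncl : ℝ := (idx.card : ℝ)
  have hNcl : 0 < Ncl := Nat.cast_pos.2 (card_pos.2 ⟨(n, e₂), hne⟩)
  set Bb : ℝ := (Cc + 1) * Ncl / κ ^ 2
  have hBb : 0 < Bb := by positivity
  set B : ℝ := (Bb / ((m : ℝ) ^ θ) ^ 2) ^ (1 / θ')
  obtain ⟨w, hw, w', hw', hwB⟩ := hcheap x V E.a₀ (li E.a₀) e₂ n W W' (li_ne _).symm hWpf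
    hWm
    (fun w hw => by
      obtain ⟨hw2, hk⟩ := mem_filter.1 hw
      obtain ⟨h1, h2, -⟩ := hW₂m w hw2
      rw [Prod.mk.injEq] at hk
      refine ⟨h1, h2, ?_, hk.1⟩
      rw [E.getLastD_mem (fun e => by simp [e] at h2), hk.2])
    B (Real.rpow_nonneg (by positivity) _) (by
      simp only [B]
      rw [← Real.rpow_mul (by positivity), one_div_mul_cancel hθ'.ne', Real.rpow_one]
      have h1 : κ * (m : ℝ) ^ θ * (κ * (m : ℝ) ^ θ / Ncl) ≤ (W.card : ℝ) * W'.card :=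
        mul_le_mul hWcard ((div_le_iff₀ hNcl).2 (by rw [mul_comm _ Ncl]; exact hW₂card.trans hclass))
          (by positivity) (Nat.cast_nonneg _)
      refine lt_of_lt_of_le ?_ (mul_le_mul_of_nonneg_right h1 (by positivity))
      refine lt_of_lt_of_le (lt_add_one Cc) (le_of_eq ?_)
      simp only [Bb]
      field_simp)
  exact ⟨w, hw, w', (mem_filter.1 hw').1, hwB⟩

/-- The conclusion of the insertion at one radius. -/
def InsertBound (p : ℝ) (C : ℕ) (κ : ℝ) (b : ℕ) (u : ℝ) (A₀ R : ℕ) : Prop :=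
  ∀ (a : Γ × O) (U S : Finset (Γ × O)), U ⊆ S →
    ∀ (Z : Finset (Γ × O)) (m : ℕ) (e : α × Bool) (T : Set (Γ × O))
      (A : Finset (Sym2 (Γ × O)) → Prop),
    Z ⊆ U → 1 ≤ m → m ≤ 2 ^ (b * (Nat.log 2 R + 1)) →
    (∀ z ∈ Z, ∀ z' ∈ Z, z ≠ z' → 2 * (C * (Nat.log 2 m + 1)) < E.len (z.1⁻¹ * z'.1)) →
    (∀ z ∈ Z, E.chainSet z e C m ⊆ S) →
    (∀ z ∈ Z, κ / m ≤ hit E.nb (E.chainSet z e C m) p z T) →
    Inc A →
    (∀ η η', η ⊆ inE E.nb S → η' ⊆ inE E.nb S →
      (∀ f ∈ inE E.nb U, (∃ v ∈ f, FXZ.InC U a η v) → (f ∈ η ↔ f ∈ η')) → A η → A η') →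
    (∀ η, η ⊆ inE E.nb S → A η → m ≤ {z | z ∈ Z ∧ FXZ.InC U a η z}.ncard) →
    avg (inE E.nb S) p (fun η => ind (A η))
      ≤ u * avg (inE E.nb S) p (fun η => ind (A η ∧ FXZ.Hit T a η))
        + 1 / (R : ℝ) ^ A₀ *
          ∑ z ∈ Z, ∑ y ∈ E.cyl z (C * (Nat.log 2 m + 1)), tauIn E.nb U p a y

/-- Many points of one fibre give two far connections. -/
theorem two_insertions (hp0 : 0 ≤ p) (hp1 : p ≤ 1) {C b A₀ R D L m c : ℕ} {κ u err : ℝ}
    (hu : 0 ≤ u) (hins : E.InsertBound p C κ b u A₀ R) (a : Γ × O) (col : Γ × O → Fin c)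
    (hcol : ∀ z ∈ E.ownFib a R, ∀ z' ∈ E.ownFib a R, z ≠ z' →
      E.len (z.1⁻¹ * z'.1) ≤ 2 * D → col z ≠ col z')
    (hm1 : 1 ≤ m) (hmN : m ≤ 2 ^ (b * (Nat.log 2 R + 1))) (hlogm : C * (Nat.log 2 m + 1) ≤ D)
    (hmc : c * (m - 1) < L) {w w' : List (α × Bool)}
    (hWhit : ∀ z, κ / m ≤ hit E.nb (E.chainSet z E.a₀ C m) p z (E.above (E.pos z) w))
    (hW₂hit : ∀ z, κ / m ≤ hit E.nb (E.chainSet z (li E.a₀) C m) p z (E.above (E.pos z) w'))
    (herr : ∀ (U' : Finset (Γ × O)) (Z : Finset (Γ × O)), Z ⊆ E.ownFib a R →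
      1 / (R : ℝ) ^ A₀ * ∑ z ∈ Z, ∑ y ∈ E.cyl z (C * (Nat.log 2 m + 1)), tauIn E.nb U' p a y
        ≤ err) :
    E.ownTail p R L a ≤ (c : ℝ) * (u * (u * avg (inE E.nb (E.cyl a (R + 2 * D))) p (fun η =>
      ind (FXZ.Hit (E.above (E.pos a) w) a η ∧ FXZ.Hit (E.above (E.pos a) w') a η)) + err) + err) := by
  classical
  set U := E.cyl a R
  set fib := E.ownFib a R
  set x := E.pos a
  set T := E.above x w
  set T' := E.above x w'
  set S1 := E.cyl a (R + D)
  set S2 := E.cyl a (R + 2 * D)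
  have hUS1 : U ⊆ S1 := E.cyl_mono a (by omega)
  have hS12 : S1 ⊆ S2 := E.cyl_mono a (by omega)
  set P2 := avg (inE E.nb S2) p fun η => ind (FXZ.Hit T a η ∧ FXZ.Hit T' a η)
  have hlev : ∀ i : Fin c, avg (inE E.nb S1) p (fun η => ind (m ≤
      {z | z ∈ fib.filter (fun z => col z = i) ∧ FXZ.InC U a η z}.ncard)) ≤
        u * (u * P2 + err) + err := by
    intro i
    set Z := fib.filter fun z => col z = i with hZdef
    set A1 : Finset (Sym2 (Γ × O)) → Prop := fun η => m ≤ {z | z ∈ Z ∧ FXZ.InC U a η z}.ncard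
    have hZU : Z ⊆ U := (filter_subset _ _).trans (filter_subset _ _)
    have hsep : ∀ z ∈ Z, ∀ z' ∈ Z, z ≠ z' →
        2 * (C * (Nat.log 2 m + 1)) < E.len (z.1⁻¹ * z'.1) := fun z hz z' hz' hne => by
      by_contra hle
      obtain ⟨hz1, hz2⟩ := mem_filter.1 hz
      obtain ⟨hz1', hz2'⟩ := mem_filter.1 hz'
      exact hcol z hz1 z' hz1' hne (by omega) (hz2.trans hz2'.symm)
    have hchain : ∀ (e : α × Bool) (R' : ℕ), R + D ≤ R' → ∀ z ∈ Z,
        E.chainSet z e C m ⊆ E.cyl a R' := fun e R' hR' z hz y hy =>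
      E.cyl_mono a (le_trans (Nat.add_le_add le_rfl hlogm) hR')
        (E.cyl_trans (hZU hz) (E.mem_cyl.2 (E.mem_chainSet.1 hy).1))
    have hpos : ∀ z ∈ Z, E.pos z = x := fun z hz => (mem_filter.1 (mem_filter.1 hz).1).2
    have hinc1 : Inc A1 := fun η η' hsub hle => hle.trans (Set.ncard_le_ncard
      (fun z hz => ⟨hz.1, hz.2.mono
        (SimpleGraph.fromEdgeSet_mono (coe_subset.2 (filter_subset_filter _ hsub)))⟩)
      (Z.finite_toSet.subset fun z hz => hz.1))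
    have hdet1 : ∀ S η η', η ⊆ inE E.nb S →
        (∀ f ∈ inE E.nb U, (∃ v ∈ f, FXZ.InC U a η v) → (f ∈ η ↔ f ∈ η')) → A1 η → A1 η' :=
      fun S η η' hη hag hle => hle.trans (Set.ncard_le_ncard
        (fun z hz => ⟨hz.1, E.inC_agree hη hag hz.2⟩) (Z.finite_toSet.subset fun z hz => hz.1))
    have h1 := hins a U S1 hUS1 Z m E.a₀ T A1 hZU hm1 hmN hsep
      (hchain _ _ le_rfl) (fun z hz => by
        have := hWhit z
        rwa [hpos z hz] at this) hinc1 (fun η η' hη _ => hdet1 S1 η η' hη) fun η _ h => h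
    set A2 : Finset (Sym2 (Γ × O)) → Prop := fun η => A1 η ∧ FXZ.Hit T a (η ∩ inE E.nb S1)
    have hmonoC : ∀ η z, FXZ.InC U a η z → FXZ.InC S1 a η z := fun η z h => h.mono
      (SimpleGraph.fromEdgeSet_mono (coe_subset.2 (monotone_filter_right η
        fun e _ he v hv => hUS1 (he v hv))))
    have h2 := hins a S1 S2 hS12 Z m (li E.a₀) T' A2 (hZU.trans hUS1) hm1 hmN hsep
      (hchain _ _ (by omega)) (fun z hz => by
        have := hW₂hit z
        rwa [hpos z hz] at this)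
      (fun η η' hsub h => ⟨hinc1 _ _ hsub h.1,
        inc_hit T a _ _ (inter_subset_inter hsub le_rfl) h.2⟩)
      (fun η η' hη _ hag h => ⟨hdet1 S2 η η' hη (fun f hf ⟨v, hv, hvC⟩ =>
          hag f (inE_mono E.hl hUS1 hf) ⟨v, hv, hmonoC η v hvC⟩) h.1, by
        obtain ⟨t, ht, ⟨π⟩⟩ := h.2
        refine ⟨t, ht, cl_of_walk π fun f hf => ?_⟩
        have hfE := π.edges_subset_edgeSet hf
        rw [SimpleGraph.edgeSet_fromEdgeSet] at hfE
        obtain ⟨hfη, hfS⟩ := mem_inter.1 (mem_coe.1 hfE.1)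
        induction f using Sym2.ind with
        | _ y z =>
          refine mem_inter.2 ⟨(hag _ hfS ⟨y, Sym2.mem_mk_left y z, ?_⟩).1 hfη, hfS⟩
          exact SimpleGraph.Reachable.mono (SimpleGraph.fromEdgeSet_mono (coe_subset.2 fun g hg =>
            mem_filter.2 ⟨(mem_inter.1 hg).1, fun v hv => inE_mem (mem_inter.1 hg).2 hv⟩))
            ⟨π.takeUntil y (π.fst_mem_support_of_mem_edges hf)⟩⟩)
      (fun η _ h => h.1.trans (Set.ncard_le_ncard (fun z hz => ⟨hz.1, hmonoC η z hz.2⟩)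
        (Z.finite_toSet.subset fun z hz => hz.1)))
    have hA2 : avg (inE E.nb S1) p (fun η => ind (A1 η ∧ FXZ.Hit T a η))
        = avg (inE E.nb S2) p (fun η => ind (A2 η)) := by
      rw [← avg_sub E.hl hS12 p fun η => ind (A1 η ∧ FXZ.Hit T a η)]
      refine avg_congr _ _ fun η hη => ?_
      have e : ∀ z, FXZ.InC U a (η ∩ inE E.nb S1) z ↔ FXZ.InC U a η z := fun z => by
        rw [← inC_inter E.hl (U := U) (S := S1) inter_subset_right, inter_assoc,
          inter_eq_right.2 (inE_mono E.hl hUS1), inC_inter E.hl hη]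
      simp only [A2, A1, e]
    refine h1.trans (add_le_add (mul_le_mul_of_nonneg_left (hA2.le.trans (h2.trans
      (add_le_add (mul_le_mul_of_nonneg_left ?_ hu) (herr S1 Z (filter_subset _ _))))) hu)
      (herr U Z (filter_subset _ _)))
    exact avg_mono _ hp0 hp1 fun η _ => ind_mono fun h =>
      ⟨inc_hit T a _ _ inter_subset_left h.1.2, h.2⟩
  show E.ownTail p R L a ≤ (c : ℝ) * (u * (u * P2 + err) + err)
  refine le_trans ?_ ((sum_le_card_nsmul (univ : Finset (Fin c)) _ _ fun i _ => hlev i).trans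
    (le_of_eq (by rw [nsmul_eq_mul, card_univ, Fintype.card_fin])))
  rw [ownTail, ← avg_sub E.hl hUS1 p fun η => ind (L ≤
    {z | z ∈ fib ∧ FXZ.InC U a η z}.ncard), ← avg_sum]
  refine avg_mono _ hp0 hp1 fun η hη => ?_
  simp only [inC_inter E.hl hη]
  by_cases hc' : L ≤ {z | z ∈ fib ∧ FXZ.InC U a η z}.ncard
  swap
  · rw [show ind (L ≤ {z | z ∈ fib ∧ FXZ.InC U a η z}.ncard) = 0 from if_neg hc']
    exact sum_nonneg fun _ _ => ind_nonneg _
  obtain ⟨i, hi⟩ : ∃ i, m ≤ {z | z ∈ fib.filter (fun z => col z = i) ∧ FXZ.InC U a η z}.ncard := by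
    by_contra hall
    push Not at hall
    have e : ∀ Z : Finset (Γ × O), {z | z ∈ Z ∧ FXZ.InC U a η z}.ncard =
        (Z.filter fun z => FXZ.InC U a η z).card := fun Z => by
      rw [← Set.ncard_coe_finset]
      congr 1
      ext z
      simp
    rw [e, card_eq_sum_card_fiberwise (f := col) (t := univ) fun z _ => mem_univ _] at hc'
    have h := hc'.trans (sum_le_card_nsmul _ _ (m - 1) fun i _ => by
      have := hall i
      rw [e, filter_comm] at this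
      exact Nat.le_sub_one_of_lt this)
    rw [smul_eq_mul, card_univ, Fintype.card_fin] at h
    omega
  exact le_trans (ind_mono fun _ => hi) (single_le_sum (f := fun i => ind (m ≤
    {z | z ∈ fib.filter (fun z => col z = i) ∧ FXZ.InC U a η z}.ncard))
    (fun _ _ => ind_nonneg _) (mem_univ i))

/-- The two far connections, averaged over the translations by short kernel elements. -/
theorem transport (hp0 : 0 ≤ p) (hp1 : p ≤ 1) {R D ρ K Λ : ℕ} (a : Γ × O) {u B B' K3 : ℝ}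
    (hK3d : K3 = (((ballF (α := α) E.L).card * Fintype.card O : ℕ) : ℝ))
    (hρR : R ≤ ρ) (hDR : D ≤ R) (hρK : 5 * ρ ≤ K * R) (hB0 : 0 ≤ B)
    (hrat : (E.kerCount (8 * ρ) : ℝ) ≤ u * E.kerCount ρ) {w w' : List (α × Bool)}
    (hwh : w.head? = some E.a₀) (hwh' : w'.head? = some (li E.a₀))
    (hwB : ∀ z ∈ E.cyl a (4 * ρ), ((E.pos a * mk w')⁻¹ * E.pos z).norm ≤ E.L →
      hit E.nb (E.outside (E.cyl a (4 * ρ)) (E.pos a) w' z) p z (E.above (E.pos a) w) ≤ B)
    (hY : ∀ a', E.ownTail p (K * R) Λ a' ≤ B') :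
    avg (inE E.nb (E.cyl a (R + 2 * D))) p (fun η =>
      ind (FXZ.Hit (E.above (E.pos a) w) a η ∧ FXZ.Hit (E.above (E.pos a) w') a η))
      ≤ B' + (Λ : ℝ) * (K3 * u * B) := by
  classical
  set V := E.cyl a (4 * ρ)
  set x := E.pos a
  set T := E.above x w
  set T' := E.above x w'
  set S2 := E.cyl a (R + 2 * D)
  set P2 := avg (inE E.nb S2) p fun η => ind (FXZ.Hit T a η ∧ FXZ.Hit T' a η)
  show P2 ≤ B' + (Λ : ℝ) * (K3 * u * B)
  have hker : {g | E.π g = 1 ∧ E.len g ≤ ρ}.Finite := (E.len_finite ρ).subset fun g hg => hg.2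
  set A := hker.toFinset.image fun h => ((a.1 * h, a.2) : Γ × O)
  have hAcard : A.card = E.kerCount ρ := by
    rw [card_image_of_injective _ fun g h e => mul_left_cancel (Prod.ext_iff.1 e).1, kerCount,
      Set.ncard_eq_toFinset_card _ hker]
  have hA : ∀ a' ∈ A, a' ∈ E.cyl a ρ ∧ E.pos a' = x ∧ ∃ γ, E.π γ = 1 ∧ tr γ a = a' := by
    intro a' ha'
    obtain ⟨h, hh, rfl⟩ := mem_image.1 ha'
    obtain ⟨h1, h2⟩ := hker.mem_toFinset.1 hh
    refine ⟨E.mem_cyl.2 (by simpa using h2), ?_, a.1 * h * a.1⁻¹, by simp [h1], by simp [tr]⟩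
    show E.π (a.1 * h) = E.π a.1
    rw [_root_.map_mul, h1, mul_one]
  set Z := V.filter fun z => ((x * mk w')⁻¹ * E.pos z).norm ≤ E.L
  have htr := sum_two_hits_le E.hl V A Z T' T (fun t ht hc => by
      obtain ⟨r, hr⟩ := (ht : w <+: (x⁻¹ * E.pos t).toWord)
      obtain ⟨r', hr'⟩ := (hc : w' <+: (x⁻¹ * E.pos t).toWord)
      have := congrArg List.head? (hr.trans hr'.symm)
      rw [List.head?_append, List.head?_append, hwh, hwh'] at this
      simp only [Option.some_or, Option.some.injEq] at this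
      exact li_ne E.a₀ this.symm)
    (fun y z hyz hy hz hzV => mem_filter.2 ⟨hzV, (E.cross hyz hy hz).le⟩)
    (fun z => E.outside V x w' z) (fun z y hy h => mem_filter.2 ⟨hy, h⟩) hp0 hp1 Λ
  have hsame : ∀ a' ∈ A, P2 ≤ avg (inE E.nb V) p (fun η => ind (FXZ.Hit T a' η ∧
      FXZ.Hit T' a' η ∧ {a'' | a'' ∈ A ∧ cl η a' a''}.ncard < Λ)) + B' := by
    intro a' ha'
    obtain ⟨hcyl, hpa, γ, hγ, hγa⟩ := hA a' ha'
    have hpre : ∀ v, (trIso E.hinv γ) ⁻¹' E.above x v = E.above x v := fun v => Set.ext fun y => by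
      show tr γ y ∈ E.above x v ↔ _
      rw [E.tr_mem_above, hγ, inv_one, one_mul]
    have hmap := two_hits_map E.hl (trIso E.hinv γ) S2 p a T T'
    rw [show S2.image (trIso E.hinv γ) = E.cyl a' (R + 2 * D) by
        rw [← hγa]; exact E.cyl_image γ a _,
      show trIso E.hinv γ a = a' from hγa, hpre, hpre] at hmap
    simp only [P2]
    rw [← hmap]
    refine (avg_mono_set (inE_mono E.hl (show E.cyl a' (R + 2 * D) ⊆ V from fun y hy =>
      E.cyl_mono a (show ρ + (R + 2 * D) ≤ 4 * ρ by omega) (E.cyl_trans hcyl hy)))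
      hp0 hp1 (monotone_ind (A := fun η => FXZ.Hit T a' η ∧ FXZ.Hit T' a' η) fun η η' hsub h =>
        ⟨inc_hit T a' _ _ hsub h.1, inc_hit T' a' _ _ hsub h.2⟩)).trans ?_
    refine le_trans (avg_mono _ hp0 hp1 (g := fun η => ind (FXZ.Hit T a' η ∧
        FXZ.Hit T' a' η ∧ {a'' | a'' ∈ A ∧ cl η a' a''}.ncard < Λ) +
        ind (Λ ≤ {a'' | a'' ∈ A ∧ cl η a' a''}.ncard)) fun η _ => ?_) ?_
    · by_cases hlt : {a'' | a'' ∈ A ∧ cl η a' a''}.ncard < Λ
      · exact (ind_mono fun h => ⟨h.1, h.2, hlt⟩).trans (le_add_of_nonneg_right (ind_nonneg _))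
      · exact (ind_mono fun _ => not_lt.1 hlt).trans (le_add_of_nonneg_left (ind_nonneg _))
    rw [avg_add]
    refine add_le_add le_rfl ?_
    have hVU : V ⊆ E.cyl a' (K * R) := fun y hy => E.cyl_mono a'
      (le_trans (by omega : ρ + 4 * ρ ≤ 5 * ρ) hρK) (E.cyl_trans (E.mem_cyl_symm hcyl) hy)
    refine le_trans (avg_mono_set (inE_mono E.hl hVU) hp0 hp1
      (monotone_ind (A := fun η => Λ ≤ {a'' | a'' ∈ A ∧ cl η a' a''}.ncard) fun η η' hsub h =>
        h.trans (Set.ncard_le_ncard (fun z hz => ⟨hz.1, cl_mono hsub hz.2⟩)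
          (A.finite_toSet.subset fun z hz => hz.1)))) (le_trans ?_ (hY a'))
    refine avg_mono _ hp0 hp1 fun η hη => ind_mono fun h => h.trans (Set.ncard_le_ncard
      (fun z hz => ⟨?_, ?_⟩) ((Finset.finite_toSet _).subset fun z hz => hz.1))
    · obtain ⟨hz1, hz2, -⟩ := hA z hz.1
      exact mem_filter.2 ⟨hVU (E.cyl_mono a (by omega) hz1), hz2.trans hpa.symm⟩
    · show FXZ.InC _ a' η z
      rw [FXZ.InC, filter_true_of_mem fun e he v hv => inE_mem (hη he) hv]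
      exact hz.2
  have hZcard : (Z.card : ℝ) ≤ K3 * E.kerCount (8 * ρ) := by
    rw [hK3d]
    rw [← Nat.cast_mul]
    refine Nat.cast_le.2 ?_
    rw [card_eq_sum_card_fiberwise (f := fun z : Γ × O => (x * mk w')⁻¹ * E.pos z)
      (t := ballF E.L) fun z hz => mem_coe.2 (mem_ballF (mem_filter.1 hz).2), mul_assoc]
    refine (sum_le_card_nsmul _ _ _ fun s _ => ?_).trans (le_of_eq (smul_eq_mul _ _))
    refine (card_le_card (t := V.filter fun y => E.pos y = x * mk w' * s) fun z hz => ?_).trans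
      ((E.card_fibre a (4 * ρ) _).trans (le_of_eq (by rw [show 2 * (4 * ρ) = 8 * ρ by ring])))
    obtain ⟨hz1, hz2⟩ := mem_filter.1 hz
    exact mem_filter.2 ⟨(mem_filter.1 hz1).1, by rw [← hz2, mul_inv_cancel_left]⟩
  have hsum := (sum_le_sum hsame).trans_eq sum_add_distrib
  rw [sum_const, sum_const, nsmul_eq_mul, nsmul_eq_mul, hAcard] at hsum
  have hN0 : (0 : ℝ) < E.kerCount ρ := by
    rw [Nat.cast_pos, kerCount]
    exact (Set.ncard_pos hker).2 ⟨1, map_one _, by rw [E.len_one]; exact Nat.zero_le _⟩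
  have hhit : ∑ z ∈ Z, hit E.nb (E.outside V x w' z) p z T ≤ (Z.card : ℝ) * B :=
    (sum_le_card_nsmul _ _ B fun z hz => hwB z (mem_filter.1 hz).1 (mem_filter.1 hz).2).trans
      (le_of_eq (nsmul_eq_mul _ _))
  have h5 := htr.trans (mul_le_mul_of_nonneg_left (hhit.trans (mul_le_mul_of_nonneg_right
    (hZcard.trans (mul_le_mul_of_nonneg_left hrat (hK3d ▸ Nat.cast_nonneg _))) hB0)) (Nat.cast_nonneg Λ))
  refine le_of_mul_le_mul_left ?_ hN0
  linarith [hsum, h5]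

/-- One round of insertion and transport. -/
theorem own_step (hp : E.Crit p) {ε : ℝ} (hε : 0 < ε) :
    ∃ K R₀ : ℕ, 1 ≤ K ∧ ∀ R, R₀ ≤ R → ∀ (a : Γ × O) (L Λ : ℕ), 1 ≤ L → ∀ B' : ℝ, 0 ≤ B' →
      (∀ a', E.ownTail p (K * R) Λ a' ≤ B') →
        E.ownTail p R L a ≤ (R : ℝ) ^ ε * (B' + (Λ : ℝ) / (L : ℝ) ^ 2) + 1 / (L : ℝ) := by
  classical
  obtain ⟨hp0, hp1, -⟩ := id hp
  set ε₀ : ℝ := min 1 (ε / 10)
  have hε₀ : 0 < ε₀ := lt_min one_pos (by linarith)
  have hε₀1 : ε₀ ≤ 1 := min_le_left _ _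
  have hε₀9 : 9 * ε₀ ≤ ε := by have : ε₀ ≤ ε / 10 := min_le_right _ _; linarith
  set K1 := Fintype.card O * E.Cg
  set b := K1 + 2 * E.deg with hb
  set δ : ℝ := min (1 / 2) (ε₀ / (8 * ((b : ℝ) + 1)))
  have hδ : 0 < δ := lt_min (by norm_num) (by positivity)
  have hδ1 : δ < 1 := (min_le_left _ _).trans_lt (by norm_num)
  have hδb : 4 * (b : ℝ) * δ ≤ ε₀ := by
    have h1 : δ ≤ ε₀ / (8 * ((b : ℝ) + 1)) := min_le_right _ _
    rw [le_div_iff₀ (by positivity)] at h1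
    nlinarith
  obtain ⟨θ, θ', hθ, hθle, hθ'1, hratio, hbound, hnb⟩ := E.exists_exponents hp hδ hδ1
  have hθ' : 0 < θ' := hθ.trans_le hθle
  obtain ⟨C, κ, hκ, hch⟩ := E.exists_chains hp hθ hnb
  obtain ⟨Cc, hCc, hcheap⟩ := E.exists_cheap hp0 hp1 hθ' hθ'1 hbound
  obtain ⟨B₀, hB₀, hB⟩ := E.card_cyl_le
  set a₂ := B₀ * (C * (b + 1) + 1)
  set A₀ := 2 * b + a₂ + 3
  obtain ⟨RI, hRI1, hins⟩ := E.insert_step hp C hκ b hε₀ A₀
  obtain ⟨i₀, RS, hscale⟩ := E.exists_scale hε₀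
  set Kc := K1 * (4 * (C * (b + 1)) + 1) ^ E.deg + 1 with hKc
  set Kcl := (C * (b + 1) + 1) * Fintype.card (α × Bool) with hKcl
  set K3 : ℝ := (((ballF (α := α) E.L).card * Fintype.card O : ℕ) : ℝ)
  obtain ⟨R1, -, hc1⟩ := polylog_le (Kc : ℝ) E.deg hε₀
  obtain ⟨R2, -, hc2⟩ := polylog_le ((Cc + 1) * Kcl / κ ^ 2) 1 (mul_pos hε₀ hθ')
  obtain ⟨R3, -, hc3⟩ := polylog_le (K3 + 2) 0 hε₀
  obtain ⟨R4, -, hc4⟩ := polylog_le ((C * (b + 1) : ℕ) : ℝ) 1 one_pos
  refine ⟨5 * 8 ^ i₀, RI + RS + R1 + R2 + R3 + R4 + 2 * 2 ^ (2 * b + a₂) + 2,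
    by have := Nat.pow_pos (n := i₀) (show 0 < 8 by norm_num); omega,
    fun R hR a L Λ hL B' hB' hY => ?_⟩
  have hR1 : 1 ≤ R := by omega
  have hRr : (0 : ℝ) < R := by exact_mod_cast hR1
  have hR1r : (1 : ℝ) ≤ R := by exact_mod_cast hR1
  have hLr : (0 : ℝ) < L := by exact_mod_cast hL
  set u : ℝ := (R : ℝ) ^ ε₀
  have hu : 0 < u := Real.rpow_pos_of_pos hRr _
  have hu1 : 1 ≤ u := Real.one_le_rpow hR1r hε₀.le
  have huR : u ≤ R := (Real.rpow_le_rpow_of_exponent_le hR1r hε₀1).trans (Real.rpow_one _).le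
  set l := Nat.log 2 R + 1 with hl
  have hl1 : 1 ≤ l := Nat.le_add_left 1 _
  have hRl : R < 2 ^ l := Nat.lt_pow_succ_log_self one_lt_two R
  have h2l : 2 ^ l ≤ 2 * R := by
    rw [hl, pow_succ, mul_comm]
    exact Nat.mul_le_mul le_rfl (Nat.pow_log_le_self 2 (by omega))
  set U := E.cyl a R
  set fib := E.ownFib a R
  set N := 2 ^ (b * l) with hN
  have hfibN : fib.card ≤ N := by
    refine (E.card_fibre a R _).trans ?_
    calc Fintype.card O * E.kerCount (2 * R) ≤ Fintype.card O * (E.Cg * (2 * R + 1) ^ E.deg) :=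
          Nat.mul_le_mul le_rfl (E.growth _)
      _ ≤ K1 * (2 ^ (l + 1)) ^ E.deg := by
          rw [← mul_assoc]
          refine Nat.mul_le_mul le_rfl (Nat.pow_le_pow_left ?_ _)
          rw [pow_succ]; omega
      _ ≤ 2 ^ K1 * (2 ^ (l + 1)) ^ E.deg := Nat.mul_le_mul Nat.lt_two_pow_self.le le_rfl
      _ ≤ N := by
          rw [← pow_mul, ← pow_add, hN]
          refine Nat.pow_le_pow_right two_pos ?_
          have h1 : K1 ≤ K1 * l := Nat.le_mul_of_pos_right _ hl1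
          have h2 : E.deg ≤ E.deg * l := Nat.le_mul_of_pos_right _ hl1
          have h3 : (l + 1) * E.deg = E.deg * l + E.deg := by ring
          have h4 : b * l = K1 * l + 2 * (E.deg * l) := by rw [hb]; ring
          omega
  rcases lt_or_ge fib.card L with hlt | hLf
  · rw [E.ownTail_eq_zero hlt]
    positivity
  have hLN : L ≤ N := hLf.trans hfibN
  -- logarithmic range and colours
  set D := C * (b * l + 1)
  have hDl : D ≤ C * (b + 1) * l := by
    simp only [D]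
    rw [mul_assoc]
    refine Nat.mul_le_mul le_rfl ?_
    rw [Nat.succ_mul]
    exact add_le_add le_rfl hl1
  have hDR : D ≤ R := by
    have h := hc4 R (by omega)
    rw [Real.rpow_one, pow_one] at h
    refine hDl.trans ?_
    have h' : ((C * (b + 1) * l : ℕ) : ℝ) ≤ (R : ℝ) := by
      rw [hl]; push_cast at h ⊢; exact h
    exact_mod_cast h'
  set c := K1 * (4 * D + 1) ^ E.deg + 1
  have hcu : (c : ℝ) ≤ u := by
    refine le_trans ?_ (hc1 R (by omega))
    have hc2 : c ≤ Kc * l ^ E.deg := by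
      have hd : (4 * D + 1) ^ E.deg ≤ (4 * (C * (b + 1)) + 1) ^ E.deg * l ^ E.deg := by
        rw [← mul_pow]
        refine Nat.pow_le_pow_left ?_ _
        exact le_trans (add_le_add (Nat.mul_le_mul le_rfl hDl) hl1) (le_of_eq (by ring))
      calc c ≤ K1 * ((4 * (C * (b + 1)) + 1) ^ E.deg * l ^ E.deg) + l ^ E.deg :=
            add_le_add (Nat.mul_le_mul le_rfl hd) (Nat.one_le_pow _ _ hl1)
        _ = Kc * l ^ E.deg := by rw [hKc]; ring
    calc (c : ℝ) ≤ ((Kc * l ^ E.deg : ℕ) : ℝ) := by exact_mod_cast hc2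
      _ = _ := by simp only [hl]; push_cast; ring
  obtain ⟨col, hcol⟩ := exists_colour fib (fun z z' => E.len (z.1⁻¹ * z'.1) ≤ 2 * D) (c := c)
    (fun z z' h => by rw [← E.len_inv, mul_inv_rev, inv_inv]; exact h) (Nat.succ_pos _)
    fun z hz => Nat.lt_succ_of_le (by
      refine (card_le_card (t := (E.cyl z (2 * D)).filter fun y => E.pos y = E.pos a)
        fun y hy => ?_).trans ((E.card_fibre z (2 * D) _).trans ?_)
      · obtain ⟨hy1, -, hy2⟩ := mem_filter.1 hy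
        exact mem_filter.2 ⟨E.mem_cyl.2 hy2, (mem_filter.1 hy1).2⟩
      · rw [show 2 * (2 * D) = 4 * D by ring, Nat.mul_assoc]
        exact Nat.mul_le_mul le_rfl (E.growth _))
  -- the level of one colour
  obtain ⟨m, hm1, hmN, hcm, hmc⟩ : ∃ m, 1 ≤ m ∧ m ≤ N ∧ L ≤ c * m ∧ c * (m - 1) < L := by
    have hc0 : 0 < c := Nat.succ_pos _
    have h1 := Nat.div_add_mod (L - 1) c
    have h2 := Nat.mod_lt (L - 1) hc0
    have h3 := Nat.div_le_self (L - 1) c
    refine ⟨(L - 1) / c + 1, Nat.le_add_left 1 _, by omega, ?_, ?_⟩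
    · rw [Nat.mul_succ]; omega
    · rw [Nat.add_sub_cancel]; omega
  -- the scale
  obtain ⟨i, hi, hrat⟩ := hscale R (by omega)
  set ρ := 8 ^ i * R with hρ
  have hρR : R ≤ ρ := Nat.le_mul_of_pos_left R (Nat.pow_pos (by norm_num))
  have hρK : 5 * ρ ≤ 5 * 8 ^ i₀ * R := by
    rw [hρ, ← mul_assoc]
    exact Nat.mul_le_mul (Nat.mul_le_mul le_rfl (Nat.pow_le_pow_right (by norm_num) hi)) le_rfl
  set V := E.cyl a (4 * ρ)
  set x := E.pos a
  -- the targets
  have hlogm : C * (Nat.log 2 m + 1) ≤ D := by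
    refine Nat.mul_le_mul le_rfl (add_le_add ((Nat.log_mono_right hmN).trans ?_) le_rfl)
    rw [Nat.log_pow one_lt_two]
  obtain ⟨W, hWpf, hWm, hWcard, hWhit⟩ := hch m hm1 E.a₀
  obtain ⟨W₂, hW₂pf, hW₂m, hW₂card, hW₂hit⟩ := hch m hm1 (li E.a₀)
  set idx := range (D + 1) ×ˢ (univ : Finset (α × Bool))
  set Ncl : ℝ := (idx.card : ℝ)
  have hNcl : 0 < Ncl := Nat.cast_pos.2
    (card_pos.2 ⟨(0, E.a₀), mem_product.2 ⟨mem_range.2 (Nat.succ_pos _), mem_univ _⟩⟩)
  set Bb : ℝ := (Cc + 1) * Ncl / κ ^ 2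
  have hBb : 0 < Bb := by positivity
  set B : ℝ := (Bb / ((m : ℝ) ^ θ) ^ 2) ^ (1 / θ')
  obtain ⟨w, hw, w', hw', hwB⟩ := E.pick_pair hm1 hκ hCc hθ' x V hWpf
    (fun w hw => ⟨(hWm w hw).1, (hWm w hw).2.1⟩)
    (fun w hw => ⟨(hW₂m w hw).1, (hW₂m w hw).2.1, (hW₂m w hw).2.2.trans hlogm⟩)
    hWcard hW₂card hcheap
  set T := E.above x w
  set T' := E.above x w'
  -- two insertions
  set S1 := E.cyl a (R + D)
  set S2 := E.cyl a (R + 2 * D)
  have hUS1 : U ⊆ S1 := E.cyl_mono a (by omega)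
  have hS12 : S1 ⊆ S2 := E.cyl_mono a (by omega)
  set P2 := avg (inE E.nb S2) p fun η => ind (FXZ.Hit T a η ∧ FXZ.Hit T' a η)
  set err : ℝ := 1 / (R : ℝ) ^ A₀ * ((N * 2 ^ (a₂ * l) : ℕ) : ℝ)
  have herr : ∀ (U' : Finset (Γ × O)) (Z : Finset (Γ × O)), Z ⊆ fib →
      1 / (R : ℝ) ^ A₀ * ∑ z ∈ Z, ∑ y ∈ E.cyl z (C * (Nat.log 2 m + 1)), tauIn E.nb U' p a y
        ≤ err := by
    intro U' Z hZ
    refine mul_le_mul_of_nonneg_left ?_ (by positivity)
    refine (sum_le_card_nsmul _ _ ((2 ^ (a₂ * l) : ℕ) : ℝ) fun z _ => ?_).trans ?_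
    · refine (sum_le_card_nsmul _ _ 1 fun y _ => FF.tauIn_le_one U' hp0.le hp1 a y).trans ?_
      rw [nsmul_eq_mul, mul_one]
      refine Nat.cast_le.2 (((card_le_card (E.cyl_mono z hlogm)).trans (hB z D)).trans
        ((Nat.pow_le_pow_left Nat.lt_two_pow_self.le _).trans ?_))
      rw [← pow_mul]
      refine Nat.pow_le_pow_right two_pos ?_
      simp only [a₂]
      rw [mul_assoc B₀]
      refine Nat.mul_le_mul le_rfl ?_
      rw [add_mul, one_mul]
      exact add_le_add hDl hl1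
    · rw [nsmul_eq_mul, Nat.cast_mul]
      exact mul_le_mul_of_nonneg_right (Nat.cast_le.2 ((card_le_card hZ).trans hfibN))
        (Nat.cast_nonneg _)
  have htail : E.ownTail p R L a ≤ (c : ℝ) * (u * (u * P2 + err) + err) :=
    E.two_insertions hp0.le hp1 hu.le (hins R (by omega)) a col hcol hm1 hmN hlogm hmc
      (fun z => hWhit z w hw) (fun z => hW₂hit z w' hw') herr
  -- transport
  have hBu : B ≤ u * u * (c : ℝ) ^ 2 / (L : ℝ) ^ 2 := by
    refine pair_bound (R := R) (l := l) hθ' hδ.le hratio hBb.le ?_ hm1 hL hcm (by omega) hmN h2l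
      (Real.rpow_le_rpow_of_exponent_le hR1r hδb)
    refine le_trans (Real.rpow_le_rpow hBb.le ?_ (by positivity)) (le_of_eq (?_ :
      ((R : ℝ) ^ (ε₀ * θ')) ^ (1 / θ') = u))
    · refine le_trans ?_ (hc2 R (by omega))
      simp only [Bb]
      rw [div_mul_eq_mul_div, mul_assoc]
      refine div_le_div_of_nonneg_right (mul_le_mul_of_nonneg_left ?_ (by linarith))
        (by positivity)
      have h1 : idx.card ≤ Kcl * l := by
        rw [card_product, card_range, card_univ, hKcl, mul_right_comm]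
        refine Nat.mul_le_mul ?_ le_rfl
        rw [add_mul, one_mul]
        exact add_le_add hDl hl1
      calc Ncl ≤ ((Kcl * l : ℕ) : ℝ) := Nat.cast_le.2 h1
        _ = _ := by simp only [hl]; push_cast; ring
    · rw [← Real.rpow_mul hRr.le, mul_one_div, mul_div_cancel_right₀ _ hθ'.ne']
  have hP2 : P2 ≤ B' + (Λ : ℝ) * (K3 * u * B) :=
    E.transport hp0.le hp1 a rfl hρR hDR hρK (Real.rpow_nonneg (by positivity) _)
      hrat (hWm w hw).2.1 (hW₂m w' hw').2.1 hwB hY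
  -- conclusion
  have hK3 : K3 ≤ u := by
    have h := hc3 R (by omega)
    rw [pow_zero, mul_one] at h
    linarith
  have hue : u ^ 9 ≤ (R : ℝ) ^ ε := by
    rw [← Real.rpow_natCast, ← Real.rpow_mul hRr.le]
    refine Real.rpow_le_rpow_of_exponent_le hR1r ?_
    push_cast; linarith
  refine htail.trans (le_of_eq_of_le (show (c : ℝ) * (u * (u * P2 + err) + err) =
    (c : ℝ) * u * u * P2 + (c : ℝ) * (u * err + err) by ring) ?_)
  exact step_arith hu1 (Nat.cast_nonneg c) hcu (Nat.cast_nonneg _) hK3 hB' (Nat.cast_nonneg Λ)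
    hP2 hBu hue (err_bound (b := b) (a₂ := a₂) (l := l) rfl hu1 huR hcu hL hLN h2l (by omega))

/-- Large fibres are rare. -/
theorem exists_ownTail (hp : E.Crit p) {η : ℝ} (hη : 0 < η) :
    ∃ R₀ : ℕ, ∀ R, R₀ ≤ R → ∀ (a : Γ × O) (L : ℕ), 1 ≤ L →
      E.ownTail p R L a ≤ (R : ℝ) ^ η / L := by
  set γ := η / 4
  have hγ : 0 < γ := by positivity
  have hη4 : η = 4 * γ := by simp only [γ]; ring
  obtain ⟨K, RK, hK, hstep⟩ := E.own_step hp hγ
  obtain ⟨RF, hfib⟩ := E.eventually_card_ownFib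
  have hlarge : ∀ C : ℝ, ∃ R₀ : ℕ, 1 ≤ R₀ ∧ ∀ R, R₀ ≤ R → C ≤ (R : ℝ) ^ γ := fun C => by
    obtain ⟨R₀, h1, h⟩ := polylog_le C 0 hγ
    exact ⟨R₀, h1, fun R hR => by simpa using h R hR⟩
  obtain ⟨RA, hRA1, hA⟩ := hlarge ((K : ℝ) ^ ((E.deg : ℝ) + 2))
  obtain ⟨RB, -, hB⟩ := hlarge ((K : ℝ) ^ η + 3)
  have main : ∀ k : ℕ, ∃ R₀ : ℕ, ∀ R, R₀ ≤ R → ∀ (a : Γ × O) (L : ℕ), 1 ≤ L →
      (R : ℝ) ^ ((E.deg : ℝ) + 2) ≤ (L : ℝ) * (R : ℝ) ^ (γ * k) →
        E.ownTail p R L a ≤ (R : ℝ) ^ η / L := by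
    intro k
    induction k with
    | zero =>
      refine ⟨RF + 1, fun R hR a L _ hLR => ?_⟩
      rw [Nat.cast_zero, mul_zero, Real.rpow_zero, mul_one] at hLR
      rw [E.ownTail_eq_zero]
      · positivity
      · refine lt_of_lt_of_le (hfib R (by omega) a) ?_
        have h : ((R ^ (E.deg + 1) : ℕ) : ℝ) ≤ (L : ℝ) := by
          refine le_trans ?_ hLR
          rw [Nat.cast_pow, ← Real.rpow_natCast]
          refine Real.rpow_le_rpow_of_exponent_le (by exact_mod_cast (show 1 ≤ R by omega)) ?_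
          push_cast; linarith
        exact_mod_cast h
    | succ k ih =>
      obtain ⟨Rk, hk⟩ := ih
      refine ⟨Rk + RK + RA + RB + 1, fun R hR a L hL hLR => ?_⟩
      have hRr : (0 : ℝ) < R := by exact_mod_cast (show 0 < R by omega)
      have hR1r : (1 : ℝ) ≤ R := by exact_mod_cast (show 1 ≤ R by omega)
      have hLr : (0 : ℝ) < L := by exact_mod_cast hL
      have hKr : (1 : ℝ) ≤ K := by exact_mod_cast hK
      set g : ℝ := (R : ℝ) ^ γ
      have hg : 0 < g := Real.rpow_pos_of_pos hRr _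
      have hg1 : 1 ≤ g := Real.one_le_rpow hR1r hγ.le
      set Q := ⌈g * g⌉₊
      have hQ1 : g * g ≤ (Q : ℝ) := Nat.le_ceil _
      have hQ2 : (Q : ℝ) ≤ 2 * (g * g) := by
        have := Nat.ceil_lt_add_one (show 0 ≤ g * g by positivity)
        nlinarith
      have hQ0 : 0 < Q := Nat.ceil_pos.2 (by positivity)
      have hKR : Rk ≤ K * R := le_trans (by omega) (Nat.le_mul_of_pos_left R hK)
      have hY : ∀ a', E.ownTail p (K * R) (L * Q) a' ≤
          ((K * R : ℕ) : ℝ) ^ η / ((L * Q : ℕ) : ℝ) := by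
        refine fun a' => hk (K * R) hKR a' (L * Q) (Nat.mul_pos hL hQ0) ?_
        push_cast
        rw [Real.mul_rpow (by positivity) hRr.le, Real.mul_rpow (by positivity) hRr.le]
        calc (K : ℝ) ^ ((E.deg : ℝ) + 2) * (R : ℝ) ^ ((E.deg : ℝ) + 2)
            ≤ g * ((L : ℝ) * (R : ℝ) ^ (γ * (k + 1 : ℕ))) :=
              mul_le_mul (hA R (by omega)) hLR (by positivity) hg.le
          _ = (L : ℝ) * (g * g) * (1 * (R : ℝ) ^ (γ * k)) := by
              push_cast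
              rw [mul_add, Real.rpow_add hRr, mul_one]
              ring
          _ ≤ _ := by
              gcongr
              exact Real.one_le_rpow hKr (by positivity)
      refine (hstep R (by omega) a L (L * Q) hL _ (by positivity) hY).trans ?_
      push_cast
      rw [Real.mul_rpow (by positivity) hRr.le]
      have h4 : (R : ℝ) ^ η = g * g * g * g := by
        simp only [g, ← Real.rpow_add hRr]; congr 1; rw [hη4]; ring
      rw [h4]
      have e : g * ((K : ℝ) ^ η * (g * g * g * g) / (L * Q) + L * Q / (L : ℝ) ^ 2) + 1 / L =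
          ((K : ℝ) ^ η * (g * g * g * g * g) / Q + g * Q + 1) / L := by
        field_simp
      rw [e]
      refine div_le_div_of_nonneg_right ?_ hLr.le
      have h5 : (K : ℝ) ^ η * (g * g * g * g * g) / Q ≤ (K : ℝ) ^ η * (g * g * g) := by
        rw [div_le_iff₀ (by exact_mod_cast hQ0)]
        calc (K : ℝ) ^ η * (g * g * g * g * g) = (K : ℝ) ^ η * (g * g * g) * (g * g) := by ring
          _ ≤ _ := mul_le_mul_of_nonneg_left hQ1 (by positivity)
      have h6 := mul_le_mul_of_nonneg_right (hB R (by omega)) (show 0 ≤ g * g * g by positivity)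
      have h7 : 1 ≤ g * g * g := one_le_mul_of_one_le_of_one_le
        (one_le_mul_of_one_le_of_one_le hg1 hg1) hg1
      nlinarith [mul_le_mul_of_nonneg_left hQ2 hg.le]
  obtain ⟨k, hk⟩ := exists_nat_ge (((E.deg : ℝ) + 2) / γ)
  rw [div_le_iff₀ hγ] at hk
  obtain ⟨R₀, hR₀⟩ := main k
  refine ⟨R₀ + 1, fun R hR a L hL => hR₀ R (by omega) a L hL ?_⟩
  refine le_trans (Real.rpow_le_rpow_of_exponent_le (by exact_mod_cast (show 1 ≤ R by omega))
    (show (E.deg : ℝ) + 2 ≤ γ * k by linarith)) ?_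
  exact le_mul_of_one_le_left (by positivity) (by exact_mod_cast hL)

/-- The expected cluster of a point over nearby fibres of its ball is a small power of the
radius. -/
theorem exists_own (hp : E.Crit p) {ε : ℝ} (hε : 0 < ε) (M : ℕ) :
    ∃ R₀ : ℕ, ∀ R, R₀ ≤ R → ∀ (a : Γ × O) (q : FreeGroup α),
      ((E.pos a)⁻¹ * q).norm ≤ M → E.mass p (E.cyl a R) a q ≤ (R : ℝ) ^ ε := by
  classical
  obtain ⟨hp0, hp1, -⟩ := id hp
  obtain ⟨B₀, -, hB⟩ := E.card_cyl_le
  set k := E.leg * (M + 1)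
  set η := ε / 4
  set δ : ℝ := ε / (8 * ((E.deg : ℝ) + 2))
  have hδ : 0 < δ := by positivity
  obtain ⟨RT, hT⟩ := E.exists_ownTail hp (show 0 < η by positivity)
  obtain ⟨RF, hfib⟩ := E.eventually_card_ownFib
  set Cst : ℝ := ((B₀ ^ (k + 1) : ℕ) : ℝ) / p ^ k * (2 ^ ε * (1 + 1 / δ))
  obtain ⟨RC, -, hC⟩ := polylog_le Cst 0 (ε := ε / 4) (by positivity)
  refine ⟨RT + RF + RC + k + 1, fun R hR a q hq => ?_⟩
  set R' := R + k
  have hR'r : (0 : ℝ) < R' := by exact_mod_cast (show 0 < R' by omega)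
  set U := E.cyl a R
  set U' := E.cyl a R'
  have hUU : U ⊆ U' := E.cyl_mono a (by omega)
  have hend : ∀ y ∈ U.filter (fun y => E.pos y = q), ∃ g ∈ E.ownFib a R',
      y ∈ E.cyl g k ∧ p ^ k * tauIn E.nb U p a y ≤ tauIn E.nb U' p a g := by
    intro y hy
    obtain ⟨hyU, hyq⟩ := mem_filter.1 hy
    obtain ⟨γ, hγ, W, hW, -⟩ := E.exists_path (q⁻¹ * E.pos a).toWord y
    have hWk : W.length ≤ k := hW.trans (Nat.mul_le_mul le_rfl (by
      have : (q⁻¹ * E.pos a).norm ≤ M := by rwa [norm_symm]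
      simp only [FreeGroup.norm] at this
      omega))
    have hsup : ∀ v ∈ W.support, v ∈ U' := fun v hv => E.cyl_trans hyU (E.mem_cyl.2
      ((E.len_walk (W.takeUntil v hv)).trans ((W.length_takeUntil_le_length hv).trans hWk)))
    refine ⟨(γ, E.o₁), mem_filter.2 ⟨hsup _ W.end_mem_support, ?_⟩,
      E.mem_cyl_symm (E.mem_cyl.2 ((E.len_walk W).trans hWk)), ?_⟩
    · show E.π γ = E.pos a
      rw [hγ, hyq, mk_toWord, mul_inv_cancel_left]
    · refine le_trans ?_ (FF.tauIn_trans U' hp0.le hp1 a y _)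
      rw [mul_comm]
      refine mul_le_mul (FF.tauIn_mono E.hl hUU hp0.le hp1 a y) ?_ (by positivity)
        (FF.tauIn_nonneg U' hp0.le hp1 a y)
      refine le_trans (pow_le_pow_of_le_one hp0.le hp1
        ((W.edges.toFinset_card_le).trans (W.length_edges.le.trans hWk))) ?_
      exact (pow_le_tauIn E.hl W hp0.le hp1).trans (FF.tauIn_mono E.hl
        (fun v hv => hsup v (List.mem_toFinset.1 hv)) hp0.le hp1 _ _)
  choose! g hg hgy hgτ using hend
  have hmass : p ^ k * E.mass p U a q ≤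
      ((B₀ ^ (k + 1) : ℕ) : ℝ) * ∑ z ∈ E.ownFib a R', tauIn E.nb U' p a z := by
    rw [mass, mul_sum]
    refine (sum_le_sum hgτ).trans ?_
    rw [← sum_fiberwise_of_maps_to hg, mul_sum]
    refine sum_le_sum fun z _ => ?_
    rw [sum_congr rfl (g := fun _ => tauIn E.nb U' p a z) fun y hy => by rw [(mem_filter.1 hy).2],
      sum_const, nsmul_eq_mul]
    refine mul_le_mul_of_nonneg_right (Nat.cast_le.2 ((card_le_card fun y hy => ?_).trans (hB z k)))
      (FF.tauIn_nonneg U' hp0.le hp1 a z)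
    obtain ⟨hy1, hy2⟩ := mem_filter.1 hy
    exact hy2 ▸ hgy y hy1
  set N := (E.ownFib a R').card
  have hsum : ∑ z ∈ E.ownFib a R', tauIn E.nb U' p a z ≤
      (R' : ℝ) ^ η * ((1 + 1 / δ) * ((N : ℝ) ^ δ) ^ 2) := by
    rw [E.sum_tau_levels (Subset.refl U') a _ (N := N) le_rfl]
    refine le_trans ?_ (mul_le_mul_of_nonneg_left (sum_rpow_le N hδ) (by positivity))
    rw [mul_sum]
    refine sum_le_sum fun j _ => (hT R' (by omega) a (j + 1) (Nat.le_add_left 1 j)).trans ?_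
    push_cast
    rw [div_eq_mul_inv]
    refine mul_le_mul_of_nonneg_left ?_ (by positivity)
    rw [← Real.rpow_neg_one]
    exact Real.rpow_le_rpow_of_exponent_le (by linarith [(Nat.cast_nonneg j : (0 : ℝ) ≤ j)])
      (by linarith)
  have hN : ((N : ℝ) ^ δ) ^ 2 ≤ (R' : ℝ) ^ (ε / 4) := by
    have h : (N : ℝ) ≤ (R' : ℝ) ^ ((E.deg : ℝ) + 1) := by
      rw [show (E.deg : ℝ) + 1 = ((E.deg + 1 : ℕ) : ℝ) by push_cast; ring, Real.rpow_natCast]
      exact_mod_cast (hfib R' (by omega) a).le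
    refine le_trans (pow_le_pow_left₀ (by positivity) (Real.rpow_le_rpow (by positivity) h hδ.le) 2) ?_
    rw [← Real.rpow_natCast _ 2, ← Real.rpow_mul hR'r.le, ← Real.rpow_mul hR'r.le]
    refine Real.rpow_le_rpow_of_exponent_le (by exact_mod_cast (show 1 ≤ R' by omega)) ?_
    simp only [δ]
    push_cast
    rw [mul_div_assoc', div_mul_eq_mul_div, div_le_iff₀ (by positivity)]
    nlinarith
  have hRr : (0 : ℝ) < R := by exact_mod_cast (show 0 < R by omega)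
  have hR1r : (1 : ℝ) ≤ R := by exact_mod_cast (show 1 ≤ R by omega)
  have hR2 : (R' : ℝ) ^ η * (R' : ℝ) ^ (ε / 4) ≤ 2 ^ ε * (R : ℝ) ^ (ε / 2) := by
    rw [← Real.rpow_add hR'r]
    refine le_trans (Real.rpow_le_rpow hR'r.le (z := η + ε / 4)
      (show (R' : ℝ) ≤ 2 * (R : ℝ) by exact_mod_cast (show R' ≤ 2 * R by omega)) (by positivity)) ?_
    rw [Real.mul_rpow (by norm_num) hRr.le]
    refine mul_le_mul (Real.rpow_le_rpow_of_exponent_le one_le_two (by simp only [η]; linarith))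
      (le_of_eq (by simp only [η]; ring_nf)) (by positivity) (by positivity)
  have hp' : 0 < p ^ k := pow_pos hp0 _
  refine le_trans (le_of_mul_le_mul_left (a := p ^ k) ?_ hp') (?_ :
    ((B₀ ^ (k + 1) : ℕ) : ℝ) / p ^ k * ((1 + 1 / δ) * (2 ^ ε * (R : ℝ) ^ (ε / 2))) ≤ (R : ℝ) ^ ε)
  · refine hmass.trans ?_
    rw [← mul_assoc (p ^ k), mul_div_cancel₀ _ hp'.ne']
    refine mul_le_mul_of_nonneg_left (hsum.trans ?_) (Nat.cast_nonneg _)
    refine le_trans (mul_le_mul_of_nonneg_left (mul_le_mul_of_nonneg_left hN (by positivity))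
      (by positivity)) ?_
    rw [mul_left_comm]
    exact mul_le_mul_of_nonneg_left hR2 (by positivity)
  · rw [show (R : ℝ) ^ ε = (R : ℝ) ^ (ε / 4) * (R : ℝ) ^ (3 * ε / 4) by
      rw [← Real.rpow_add hRr]; ring_nf,
      show ((B₀ ^ (k + 1) : ℕ) : ℝ) / p ^ k * ((1 + 1 / δ) * (2 ^ ε * (R : ℝ) ^ (ε / 2))) =
        Cst * (R : ℝ) ^ (ε / 2) by simp only [Cst]; ring]
    refine mul_le_mul (by simpa using hC R (by omega))
      (Real.rpow_le_rpow_of_exponent_le hR1r (by linarith)) (by positivity) (by positivity)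

end Env

end Vale.Agent.P165.FP
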