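import Vale.Agent.P165.FP.Tail

/-!
# Two far targets: transport to the tip of one of them

A start joined to two half spaces is sent to a point at the tip of the second one, joined to the
first one outside the second. Codes seen from inside the second half space make this unlikely for
some pair of targets.
-/

namespace Vale.Agent.P165.FP

open Finset FF FreeGroup

section Graph

variable {V ι : Type} [DecidableEq V] [Fintype ι] {nb : V → ι → V} {G : SimpleGraph V}

/-- An event of the edges inside a smaller region. -/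
theorem avg_sub (hl : Labelling G nb) {U S : Finset V} (hUS : U ⊆ S) (p : ℝ)
    (f : Finset (Sym2 V) → ℝ) :
    avg (inE nb S) p (fun η => f (η ∩ inE nb U)) = avg (inE nb U) p f := by
  have h := avg_split (inE_mono hl hUS) p f fun _ => (1 : ℝ)
  simpa only [mul_one, avg_one] using h

theorem inC_inter (hl : Labelling G nb) {U S : Finset V} {η : Finset (Sym2 V)}
    (hη : η ⊆ inE nb S) (a z : V) :
    FXZ.InC U a (η ∩ inE nb U) z ↔ FXZ.InC U a η z := by
  classical
  simp only [FXZ.InC]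
  rw [show (η ∩ inE nb U).filter (fun e => ∀ u ∈ e, u ∈ U) = η.filter (fun e => ∀ u ∈ e, u ∈ U)
    from by
      ext f
      simp only [mem_filter, mem_inter]
      exact ⟨fun h => ⟨h.1.1, h.2⟩, fun h => ⟨⟨h.1, (inE_iff hl).2
        ⟨((inE_iff hl).1 (hη h.1)).1, h.2⟩⟩, h.2⟩⟩]

/-- Each start joined to both sets is charged to one gate. -/
theorem sum_two_hits_le (hl : Labelling G nb) (S : Finset V) (A Z : Finset V) (K T : Set V)
    (hTK : ∀ t ∈ T, t ∉ K) (hZ : ∀ x y, G.Adj x y → x ∉ K → y ∈ K → y ∈ S → y ∈ Z)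
    (S' : V → Finset V) (hS' : ∀ z x, x ∈ S → (x ∉ K ∨ x = z) → x ∈ S' z)
    {p : ℝ} (h0 : 0 ≤ p) (h1 : p ≤ 1) (Λ : ℕ) :
    ∑ a ∈ A, avg (inE nb S) p (fun η => ind (FXZ.Hit T a η ∧ FXZ.Hit K a η ∧
        {a' | a' ∈ A ∧ cl η a a'}.ncard < Λ))
      ≤ (Λ : ℝ) * ∑ z ∈ Z, hit nb (S' z) p z T := by
  classical
  set P : V → Finset (Sym2 V) → Prop := fun a η => FXZ.Hit T a η ∧ FXZ.Hit K a η ∧
    {a' | a' ∈ A ∧ cl η a a'}.ncard < Λ
  have hgate : ∀ η, η ⊆ inE nb S → ∀ a, P a η →
      ∃ z ∈ Z, cl η a z ∧ FXZ.Hit T z (η ∩ inE nb (S' z)) := by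
    intro η hη a ⟨⟨t, ht, hat⟩, ⟨t', ht', hat'⟩, _⟩
    obtain ⟨π⟩ := hat'.symm.trans hat
    obtain ⟨y, x, hyx, hy, hx, σ, hσ⟩ :=
      last_leave (· ∈ K) π ⟨t', π.start_mem_support, ht'⟩ (hTK t ht)
    have hedge : s(y, x) ∈ η := mem_coe.1 ((SimpleGraph.fromEdgeSet_adj _).1 hyx).1
    have hyS : y ∈ S := inE_mem (hη hedge) (Sym2.mem_mk_left y x)
    refine ⟨y, hZ x y ((inE_iff hl).1 (hη hedge)).1.symm hx hy hyS,
      hat.trans (σ.reachable.symm.trans hyx.symm.reachable), t, ht, ?_⟩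
    refine cl_of_walk (SimpleGraph.Walk.cons hyx σ) fun e he => ?_
    have heη : e ∈ η := by
      have h := (SimpleGraph.Walk.cons hyx σ).edges_subset_edgeSet he
      rw [SimpleGraph.edgeSet_fromEdgeSet] at h
      exact mem_coe.1 h.1
    refine mem_inter.2 ⟨heη, (inE_iff hl).2 ⟨((inE_iff hl).1 (hη heη)).1, fun v hv => ?_⟩⟩
    refine hS' y v (inE_mem (hη heη) hv) ?_
    have hsup := (SimpleGraph.Walk.cons hyx σ).mem_support_of_mem_edges he hv
    rw [SimpleGraph.Walk.support_cons, List.mem_cons] at hsup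
    rcases hsup with h | h
    · exact Or.inr h
    · exact Or.inl (hσ v h)
  rw [← avg_sum]
  refine (avg_mono _ h0 h1 (g := fun η => ∑ z ∈ Z, (Λ : ℝ) *
    ind (FXZ.Hit T z (η ∩ inE nb (S' z)))) fun η hη => ?_).trans ?_
  · show ∑ a ∈ A, ind (P a η) ≤ _
    have hle : ∀ a ∈ A, ind (P a η) ≤
        ∑ z ∈ Z, ind (P a η ∧ cl η a z ∧ FXZ.Hit T z (η ∩ inE nb (S' z))) := by
      intro a _
      by_cases hP : P a η
      · obtain ⟨z, hz, hcz, hzT⟩ := hgate η hη a hP
        exact (ind_mono fun _ => ⟨hP, hcz, hzT⟩).trans (single_le_sum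
          (f := fun z => ind (P a η ∧ cl η a z ∧ FXZ.Hit T z (η ∩ inE nb (S' z))))
          (fun _ _ => ind_nonneg _) hz)
      · rw [show ind (P a η) = 0 from if_neg hP]
        exact sum_nonneg fun _ _ => ind_nonneg _
    refine (sum_le_sum hle).trans ?_
    rw [sum_comm]
    refine sum_le_sum fun z _ => ?_
    by_cases hT : FXZ.Hit T z (η ∩ inE nb (S' z))
    swap
    · rw [show ind (FXZ.Hit T z (η ∩ inE nb (S' z))) = 0 from if_neg hT, mul_zero]
      exact le_of_eq (sum_eq_zero fun a _ => if_neg fun h => hT h.2.2)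
    rw [show ind (FXZ.Hit T z (η ∩ inE nb (S' z))) = 1 from if_pos hT, mul_one]
    have hcard : ∑ a ∈ A, ind (P a η ∧ cl η a z ∧ FXZ.Hit T z (η ∩ inE nb (S' z))) =
        ((A.filter fun a => P a η ∧ cl η a z ∧ FXZ.Hit T z (η ∩ inE nb (S' z))).card : ℝ) := by
      rw [← Finset.sum_boole]
      refine sum_congr rfl fun a _ => ?_
      simp [ind]
    rw [hcard]
    rcases (A.filter fun a => P a η ∧ cl η a z ∧ FXZ.Hit T z (η ∩ inE nb (S' z))).eq_empty_or_nonempty
      with he | ⟨a₀, ha₀⟩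
    · rw [he, card_empty, Nat.cast_zero]; exact Nat.cast_nonneg _
    obtain ⟨-, hP₀, hc₀, -⟩ := mem_filter.1 ha₀
    refine Nat.cast_le.2 (le_trans ?_ hP₀.2.2.le)
    rw [← Set.ncard_coe_finset]
    refine Set.ncard_le_ncard (fun a ha => ?_) (A.finite_toSet.subset fun a ha => ha.1)
    obtain ⟨h1, -, h3, -⟩ := mem_filter.1 (mem_coe.1 ha)
    exact ⟨h1, hc₀.trans h3.symm⟩
  · rw [avg_sum, mul_sum]
    refine sum_le_sum fun z _ => ?_
    rw [hit, ← avg_mul]
    exact avg_inter_le (inE nb S) (inE nb (S' z)) h0 h1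
      (f := fun L => (Λ : ℝ) * ind (FXZ.Hit T z L))
      (fun _ _ h => mul_le_mul_of_nonneg_left (monotone_ind (inc_hit T z) h) (Nat.cast_nonneg Λ))

/-- Two hits under a graph automorphism. -/
theorem two_hits_map (hl : Labelling G nb) (φ : G ≃g G) (S : Finset V) (p : ℝ) (a : V)
    (T T' : Set V) :
    avg (inE nb (S.image φ)) p (fun η => ind (FXZ.Hit T (φ a) η ∧ FXZ.Hit T' (φ a) η)) =
      avg (inE nb S) p (fun η => ind (FXZ.Hit (φ ⁻¹' T) a η ∧ FXZ.Hit (φ ⁻¹' T') a η)) := by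
  have hinj := Sym2.map.injective φ.injective
  have hE : inE nb (S.image φ) = (inE nb S).image (Sym2.map φ) := by
    ext e
    induction e using Sym2.ind with
    | _ a b =>
      obtain ⟨a, rfl⟩ := φ.surjective a
      obtain ⟨b, rfl⟩ := φ.surjective b
      rw [← Sym2.map_mk, hinj.mem_finset_image, inE_iff hl, inE_iff hl]
      simp [φ.map_adj_iff, φ.injective.eq_iff]
  rw [hE, avg_image _ hinj]
  refine avg_congr _ _ fun η _ => ?_
  let ψ : SimpleGraph.fromEdgeSet (η : Set (Sym2 V)) ≃g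
      SimpleGraph.fromEdgeSet ((η.image (Sym2.map φ) : Finset _) : Set (Sym2 V)) :=
    { toEquiv := φ.toEquiv
      map_rel_iff' := fun {u v} => by
        show (SimpleGraph.fromEdgeSet _).Adj (φ u) (φ v) ↔ _
        rw [SimpleGraph.fromEdgeSet_adj, SimpleGraph.fromEdgeSet_adj, mem_coe, mem_coe,
          ← Sym2.map_mk, hinj.mem_finset_image, φ.injective.ne_iff] }
  have key : ∀ T : Set V, FXZ.Hit T (φ a) (η.image (Sym2.map φ)) ↔ FXZ.Hit (φ ⁻¹' T) a η := by
    intro T
    refine ⟨fun ⟨t, ht, hc⟩ => ?_, fun ⟨t, ht, hc⟩ => ?_⟩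
    · obtain ⟨s, rfl⟩ := φ.surjective t
      exact ⟨s, ht, (ψ.reachable_iff (u := a) (v := s)).1 hc⟩
    · exact ⟨φ t, ht, (ψ.reachable_iff (u := a) (v := t)).2 hc⟩
  simp only [key]

end Graph

variable {α : Type} [DecidableEq α]

theorem head_rel_last {P y : List (α × Bool)} {e : α × Bool} (hP : P.getLast? = some e)
    (h : ¬ P <+: y) : (rel P y).head? = some (li e) := by
  obtain ⟨h1, -, h3, -⟩ := lcp_spec P y
  have hlt : lcp P y < P.length := lt_of_le_of_ne h1 fun e => h (by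
    rw [e, List.take_length] at h3
    exact h3 ▸ List.take_prefix _ _)
  have hl : (P.drop (lcp P y)).getLast? = some e := by
    rw [List.getLast?_drop, if_neg (by omega), hP]
  rw [rel, List.head?_append, head_invRev, hl]
  rfl

namespace Env

open Base

variable {Γ O ι : Type} [Group Γ] [Fintype ι] [Fintype α] [Fintype O] [DecidableEq Γ] [DecidableEq O]
  (E : Env Γ O ι α) {p : ℝ}

open Classical in
/-- The region outside the half space of `w`, seen from `x`, with one extra point. -/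
noncomputable def outside (V : Finset (Γ × O)) (x : FreeGroup α) (w : List (α × Bool))
    (z : Γ × O) : Finset (Γ × O) :=
  V.filter fun y => y ∉ E.above x w ∨ y = z

/-- Among many pairs of targets some pair is cheap, seen from the tip of the second one. -/
theorem exists_cheap (hp : 0 < p) (hp1 : p ≤ 1) {θ : ℝ} (hθ : 0 < θ) (hθ1 : θ ≤ 1)
    (hB : E.Bound p θ) :
    ∃ C : ℝ, 0 ≤ C ∧ ∀ (x : FreeGroup α) (V : Finset (Γ × O)) (e e' l : α × Bool) (n : ℕ)
      (W W' : Finset (List (α × Bool))), e ≠ e' → PrefixFree W →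
      (∀ w ∈ W, Red w ∧ w.head? = some e) →
      (∀ w ∈ W', Red w ∧ w.head? = some e' ∧ w.getLast? = some l ∧ w.length = n) →
      ∀ B : ℝ, 0 ≤ B → C < (W.card : ℝ) * W'.card * B ^ θ →
        ∃ w ∈ W, ∃ w' ∈ W', ∀ z ∈ V, ((x * mk w')⁻¹ * E.pos z).norm ≤ E.L →
          hit E.nb (E.outside V x w' z) p z (E.above x w) ≤ B := by
  classical
  have : Nonempty (Γ × O) := ⟨((1 : Γ), E.o₁)⟩
  obtain ⟨C, hC, hcode⟩ := E.code_hit hp hp1 hθ hθ1 hB (2 * E.L + 1)
  refine ⟨C, hC, fun x V e e' l n W W' hne hW hWm hW'm B hB0 hlt => ?_⟩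
  by_contra hall
  push Not at hall
  choose! zf hzV hzn hzB using hall
  set P : List (α × Bool) → List (α × Bool) := fun w' => w' ++ List.replicate (E.L + 1) l
  set word : List (α × Bool) × List (α × Bool) → List (α × Bool) := fun q => rel (P q.2) q.1
  have hP : ∀ w' ∈ W', Red (P w') ∧ (P w').getLast? = some l ∧ (P w').head? = some e' ∧
      (P w').length = n + (E.L + 1) := by
    intro w' hw'
    obtain ⟨h1, h2, h3, h4⟩ := hW'm w' hw'
    refine ⟨red_append.2 ⟨h1, red_replicate _ _, fun u hu v hv => ?_⟩, ?_, ?_, by simp [P, h4]⟩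
    · simp only [List.replicate_succ, List.head?_cons, Option.mem_def, Option.some.injEq] at hv
      rw [h3, Option.mem_def, Option.some.injEq] at hu
      subst hu hv
      exact (li_ne _).symm
    · simp [P, List.replicate_succ', ← List.append_assoc]
    · simp [P, List.head?_append, h2]
  have hzero : ∀ w' ∈ W', ∀ y : List (α × Bool), y.head? = some e →
      rel (P w') y = invRev (P w') ++ y := by
    intro w' hw' y hy
    rw [rel, lcp_zero _ _ fun u hu v hv h => hne (by
      rw [(hP w' hw').2.2.1, Option.mem_def, Option.some.injEq] at hu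
      rw [hy, Option.mem_def, Option.some.injEq] at hv
      rw [hv, hu, h]), List.drop_zero, List.drop_zero]
  have hinj : ∀ a ∈ W ×ˢ W', ∀ b ∈ W ×ˢ W', word a <+: word b → a = b := by
    rintro ⟨w, w'⟩ ha ⟨v, v'⟩ hb h
    rw [mem_product] at ha hb
    simp only [word, hzero w' ha.2 w (hWm w ha.1).2, hzero v' hb.2 v (hWm v hb.1).2] at h
    have hlen : (invRev (P w')).length = (invRev (P v')).length := by
      rw [invRev_length, invRev_length, (hP w' ha.2).2.2.2, (hP v' hb.2).2.2.2]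
    have hPe : invRev (P w') = invRev (P v') :=
      (List.prefix_of_prefix_length_le ((List.prefix_append _ w).trans h)
        (List.prefix_append _ v) hlen.le).eq_of_length hlen
    rw [hPe, List.prefix_append_right_inj] at h
    have hPe' := congrArg invRev hPe
    rw [invRev_invRev, invRev_invRev] at hPe'
    rw [hW w ha.1 v hb.1 h, List.append_cancel_right hPe']
  set inv := Function.invFunOn word ↑(W ×ˢ W')
  have hinv : ∀ q ∈ W ×ˢ W', inv (word q) = q := fun q hq =>
    Set.InjOn.leftInvOn_invFunOn (fun a ha b hb h => hinj a ha b hb (by rw [h])) (mem_coe.2 hq)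
  have key := (hcode (li l) ((W ×ˢ W').image word) ?_ ?_ (fun v => x * mk (P (inv v).2))
    (fun v => zf (inv v).1 (inv v).2) (fun v => E.outside V x (inv v).2 (zf (inv v).1 (inv v).2))
    ?_).1
  · rw [sum_image fun a ha b hb h => hinj a ha b hb (by rw [h])] at key
    refine absurd (le_trans ?_ key) (not_le.2 hlt)
    rw [← Nat.cast_mul, ← card_product, ← nsmul_eq_mul]
    refine card_nsmul_le_sum _ _ _ fun q hq => ?_
    rw [hinv q hq]
    obtain ⟨hq1, hq2⟩ := mem_product.1 hq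
    refine Real.rpow_le_rpow hB0 ((hzB _ hq1 _ hq2).le.trans
      (hit_mono E.hl Subset.rfl (fun y hy => ?_) hp.le hp1 _)) hθ.le
    change q.1 <+: (x⁻¹ * E.pos y).toWord at hy
    show word q <+: ((x * mk (P q.2))⁻¹ * E.pos y).toWord
    rw [mul_inv_rev, mul_assoc, toWord_inv_mul, toWord_mk' (hP _ hq2).1]
    obtain ⟨c, hc⟩ := hy
    have hhd : (x⁻¹ * E.pos y).toWord.head? = some e := by
      rw [← hc, List.head?_append, (hWm _ hq1).2]; rfl
    simp only [word, hzero _ hq2 _ (hWm _ hq1).2, hzero _ hq2 _ hhd]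
    exact (List.prefix_append_right_inj _).2 ⟨c, hc⟩
  · intro a ha b hb hab
    obtain ⟨a', ha', rfl⟩ := mem_image.1 ha
    obtain ⟨b', hb', rfl⟩ := mem_image.1 hb
    rw [hinj a' ha' b' hb' hab]
  · intro v hv
    obtain ⟨q, hq, rfl⟩ := mem_image.1 hv
    obtain ⟨hq1, hq2⟩ := mem_product.1 hq
    refine ⟨red_rel (hP _ hq2).1 (hWm _ hq1).1, head_rel_last (hP _ hq2).2.1 fun h => hne ?_⟩
    obtain ⟨c, hc⟩ := h
    have h3 := (hWm _ hq1).2
    rw [← hc, List.head?_append, (hP _ hq2).2.2.1, Option.some_or, Option.some.injEq] at h3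
    exact h3.symm
  · intro v hv
    obtain ⟨q, hq, rfl⟩ := mem_image.1 hv
    rw [hinv q hq]
    obtain ⟨hq1, hq2⟩ := mem_product.1 hq
    set z := zf q.1 q.2
    have hz : ((mk q.2)⁻¹ * (x⁻¹ * E.pos z)).norm ≤ E.L := by
      rw [← mul_assoc, ← mul_inv_rev]; exact hzn _ hq1 _ hq2
    have hout : ∀ y, ¬ P q.2 <+: (x⁻¹ * E.pos y).toWord → y ∈ E.above (x * mk (P q.2)) [li l] := by
      intro y hy
      show [li l] <+: ((x * mk (P q.2))⁻¹ * E.pos y).toWord
      rw [mul_inv_rev, mul_assoc, toWord_inv_mul, toWord_mk' (hP _ hq2).1]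
      obtain ⟨r, hr⟩ := List.head?_eq_some_iff.1 (head_rel_last (hP _ hq2).2.1 hy)
      rw [hr]
      exact List.cons_prefix_cons.2 ⟨rfl, List.nil_prefix⟩
    have hnear : ¬ P q.2 <+: (x⁻¹ * E.pos z).toWord := by
      intro h
      have h1 := h.length_le
      rw [(hP _ hq2).2.2.2] at h1
      have h2 := FreeGroup.norm_mul_le (mk q.2) ((mk q.2)⁻¹ * (x⁻¹ * E.pos z))
      rw [mul_inv_cancel_left] at h2
      have h3 : (mk q.2).norm ≤ n := (hW'm _ hq2).2.2.2 ▸ FreeGroup.norm_mk_le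
      simp only [FreeGroup.norm] at h1 h2 h3 hz
      omega
    refine ⟨fun y hy => ?_, hout z hnear, ?_⟩
    · rcases (mem_filter.1 hy).2 with h | h
      · exact hout y fun hc => h ((List.prefix_append _ _).trans hc)
      · exact h ▸ hout z hnear
    · rw [mul_inv_rev, mul_assoc, show mk (P q.2) = mk q.2 * mk (List.replicate (E.L + 1) l) from
        mul_mk.symm, mul_inv_rev, mul_assoc]
      refine (FreeGroup.norm_mul_le _ _).trans ?_
      rw [FreeGroup.norm_inv_eq]
      have h4 : (mk (List.replicate (E.L + 1) l)).norm ≤ E.L + 1 :=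
        FreeGroup.norm_mk_le.trans (le_of_eq List.length_replicate)
      omega

end Env

end Vale.Agent.P165.FP
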