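import Vale.Agent.P165.FP.Glue
import Vale.Agent.P165.FP.Marks

/-!
# Connections of the anchor to half spaces: joining, positivity, moving the start
-/

namespace Vale.Agent.P165.FP

open Finset FF FreeGroup

theorem hit_self {V ι : Type} [DecidableEq V] [Fintype ι] {nb : V → ι → V} (S : Finset V) (p : ℝ)
    {a : V} {T : Set V} (ha : a ∈ T) : hit nb S p a T = 1 := by
  rw [hit, ← avg_one (inE nb S) p]
  exact avg_congr _ _ fun η _ => if_pos ⟨a, ha, SimpleGraph.Reachable.refl _⟩

theorem red_of_init {α : Type} {s t : List (α × Bool)} (ht : Red t) (h : s <+: t) : Red s := by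
  obtain ⟨c, rfl⟩ := h
  exact (red_append.1 ht).1

namespace Base

variable {Γ O ι α : Type} [Group Γ] [Fintype ι] [DecidableEq α] [Fintype α] [Fintype O]
  (E : Base Γ O ι α)

theorem mem_om {ρ : ℕ} {x : Γ × O} :
    x ∈ E.om ρ ↔ E.len x.1 ≤ ρ ∧ ¬ E.b₀ <+: (E.pos x).toWord := by
  simp only [om, mem_filter, E.mem_cyl, inv_one, one_mul, E.mem_above_one]

omit [Fintype O] in
theorem pos_mk_one (o : O) : E.pos ((1 : Γ), o) = 1 := map_one _

theorem om_mono {ρ ρ' : ℕ} (h : ρ ≤ ρ') : E.om ρ ⊆ E.om ρ' := fun _ hx =>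
  E.mem_om.2 ⟨(E.mem_om.1 hx).1.trans h, (E.mem_om.1 hx).2⟩

theorem anchor_mem_om (ρ : ℕ) : ((1 : Γ), E.o₁) ∈ E.om ρ := by
  refine E.mem_om.2 ⟨by simp [E.len_one], ?_⟩
  rw [E.pos_mk_one, toWord_one, List.prefix_nil, b₀, List.replicate_eq_nil_iff]
  have := E.one_le_R
  omega

theorem c₁_pos {p : ℝ} (hp : 0 < p) : 0 < E.c₁ p := div_pos (pow_pos hp _) two_pos

theorem c₁_le_half {p : ℝ} (h0 : 0 ≤ p) (h1 : p ≤ 1) : E.c₁ p ≤ 1 / 2 :=
  div_le_div_of_nonneg_right (pow_le_one₀ h0 h1) two_pos.le

theorem c₁_le_one {p : ℝ} (h0 : 0 ≤ p) (h1 : p ≤ 1) : E.c₁ p ≤ 1 :=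
  (E.c₁_le_half h0 h1).trans (by norm_num)

theorem continuous_c₁ : Continuous fun p : ℝ => E.c₁ p := (continuous_pow _).div_const _

variable [DecidableEq Γ] [DecidableEq O] {p : ℝ}

theorem psi_nonneg (ρ : ℕ) (h0 : 0 ≤ p) (h1 : p ≤ 1) (v : List (α × Bool)) : 0 ≤ E.Psi ρ p v :=
  hit_nonneg _ h0 h1 _ _

theorem psi_le_one (ρ : ℕ) (h0 : 0 ≤ p) (h1 : p ≤ 1) (v : List (α × Bool)) : E.Psi ρ p v ≤ 1 :=
  hit_le_one _ h0 h1 _ _

theorem psi_mono {ρ ρ' : ℕ} (h : ρ ≤ ρ') (h0 : 0 ≤ p) (h1 : p ≤ 1) (v : List (α × Bool)) :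
    E.Psi ρ p v ≤ E.Psi ρ' p v :=
  hit_mono E.hl (E.om_mono h) Set.Subset.rfl h0 h1 _

omit [Fintype O] [DecidableEq Γ] [DecidableEq O] in
theorem not_mem_above_one {u : List (α × Bool)} (hu : u ≠ []) (o : O) :
    ((1 : Γ), o) ∉ E.above 1 u := by
  rw [E.mem_above_one, E.pos_mk_one, toWord_one, List.prefix_nil]
  exact hu

omit [Fintype O] [DecidableEq Γ] [DecidableEq O] in
theorem len_support {x y : Γ × O} (W : E.G.Walk x y) {v : Γ × O} (hv : v ∈ W.support) :
    E.len v.1 ≤ E.len x.1 + W.length := by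
  classical
  have h1 := E.len_walk (W.takeUntil v hv)
  have h2 := W.length_takeUntil_le_length hv
  have h3 := E.len_mul x.1 (x.1⁻¹ * v.1)
  rw [mul_inv_cancel_left] at h3
  omega

theorem psi_pos {l : α × Bool} (hl : l ≠ E.a₀) (hp : 0 < p) (h1 : p ≤ 1) :
    0 < E.Psi E.blockLen p [l] := by
  obtain ⟨γ, hγ, W, hW, hsup⟩ := E.exists_path [l] ((1 : Γ), E.o₁)
  rw [E.pos_mk_one, one_mul] at hγ
  have hlen : W.length ≤ E.blockLen := hW.trans (by
    rw [blockLen]; refine Nat.mul_le_mul le_rfl ?_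
    simp only [List.length_singleton]; omega)
  have hg : ((γ, E.o₁) : Γ × O) ∈ E.above 1 [l] := by
    have : E.pos (γ, E.o₁) = FreeGroup.mk [l] := hγ
    rw [E.mem_above_one, this, toWord_mk' (List.isChain_singleton l)]
  have hS : ∀ v ∈ W.support, v ∈ E.om E.blockLen := by
    intro v hv
    obtain ⟨i, hi, hn⟩ := hsup v hv
    rw [E.pos_mk_one, one_mul] at hn
    have h := E.len_support W hv
    rw [show E.len ((1 : Γ), E.o₁).1 = 0 from E.len_one, zero_add] at h
    refine E.mem_om.2 ⟨h.trans hlen, E.not_b₀ (p := [l].take i) (red_take (List.isChain_singleton l) i)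
      ?_ (lt_of_le_of_lt hn (by rw [R₁]; omega))⟩
    rcases i with _ | i
    · simp
    · simp [hl]
  have h := hit_move E.hl hp.le h1 W hS (E.above 1 [l])
  rw [hit_self _ _ hg, mul_one] at h
  exact lt_of_lt_of_le (pow_pos hp _) h

/-- Two connections joined by a marker. -/
theorem psi_join (hp : 0 ≤ p) (hp1 : p ≤ 1) (ρ ρ' : ℕ) {u v : List (α × Bool)}
    (hu : E.Strict u) (hv : E.Strict v) :
    E.c₁ p * E.Psi ρ p u * E.Psi ρ' p v ≤ E.Psi (ρ + E.blockLen + ρ') p (E.join u v) := by
  classical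
  set t := u ++ E.mark (u.getLastD E.a₀) with ht
  set R := ρ + E.blockLen + ρ'
  set Z := (E.om ρ).filter fun z => ((FreeGroup.mk u)⁻¹ * E.pos z).norm < E.L with hZdef
  let word : Γ × O → List (α × Bool) := fun z =>
    ((E.pos z)⁻¹ * FreeGroup.mk u).toWord ++ E.mark (u.getLastD E.a₀)
  choose γ hγ W hW hsup using fun z => E.exists_path (word z) z
  have hword : ∀ z, E.pos z * FreeGroup.mk (word z) = FreeGroup.mk t := fun z => by
    rw [← mul_mk, mk_toWord, mul_assoc (E.pos z)⁻¹, mul_inv_cancel_left, mul_mk]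
  have hzlen : ∀ z ∈ Z, (W z).length ≤ E.blockLen := fun z hz => by
    refine (hW z).trans ?_
    rw [blockLen]
    refine Nat.mul_le_mul le_rfl ?_
    have h := (mem_filter.1 hz).2
    rw [norm_symm, FreeGroup.norm] at h
    simp only [word, List.length_append, E.mark_length]
    omega
  have hredt : Red t := E.red_marked hu
  have hthead : ∀ {y : List (α × Bool)}, u <+: y → y.head? ≠ some E.a₀ := fun {y} hy => by
    obtain ⟨c, rfl⟩ := hy
    rw [List.head?_append_of_ne_nil _ hu.2.1]
    exact hu.2.2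
  have hsupp : ∀ z ∈ Z, ∀ x ∈ (W z).support, x ∈ E.om R := by
    intro z hz x hx
    refine E.mem_om.2 ⟨?_, ?_⟩
    · have h1 := E.len_support (W z) hx
      have h2 := (E.mem_om.1 (mem_filter.1 hz).1).1
      have h3 := hzlen z hz
      omega
    obtain ⟨i, -, hn⟩ := hsup z x hx
    set s := ((E.pos z)⁻¹ * FreeGroup.mk u).toWord with hs
    have hsL : s.length < E.L := by
      have h := (mem_filter.1 hz).2
      rwa [norm_symm, FreeGroup.norm] at h
    by_cases his : i ≤ s.length
    · refine E.not_b₀ hu.1 hu.2.2 (lt_of_le_of_lt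
        (norm_mul_three _ (E.pos z * FreeGroup.mk ((word z).take i)) _) ?_)
      have e : ((FreeGroup.mk u)⁻¹ * (E.pos z * FreeGroup.mk ((word z).take i))).norm < 2 * E.L := by
        rw [show (word z).take i = s.take i from List.take_append_of_le_length his, ← mul_assoc]
        refine lt_of_le_of_lt (FreeGroup.norm_mul_le _ _) ?_
        have h1 := (mem_filter.1 hz).2
        have h2 := norm_mk_take_le s i
        omega
      rw [R₁]; omega
    · push Not at his
      set j := i - s.length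
      have e : E.pos z * FreeGroup.mk ((word z).take i)
          = FreeGroup.mk (u ++ (E.mark (u.getLastD E.a₀)).take j) := by
        rw [show (word z).take i = s ++ (E.mark (u.getLastD E.a₀)).take j by
          simp only [word, ← hs, List.take_append, List.take_of_length_le his.le, j],
          ← mul_mk, hs, mk_toWord, mul_assoc (E.pos z)⁻¹, mul_inv_cancel_left, mul_mk]
      rw [e] at hn
      refine E.not_b₀ ?_ (hthead (List.prefix_append _ _)) (lt_of_le_of_lt hn (by rw [R₁]; omega))
      refine red_of_init hredt ((List.prefix_append_right_inj _).2 (List.take_prefix _ _))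
  let B : Γ × O → Finset (Sym2 (Γ × O)) := fun z => (W z).edges.toFinset
  let g : Γ × O → Γ × O := fun z => (γ z, E.o₁)
  let S2 : Γ × O → Finset (Γ × O) := fun z => (E.om ρ').image (tr (γ z))
  have hπ : ∀ z, E.π (γ z) = FreeGroup.mk t := fun z => (hγ z).trans (hword z)
  have hS2 : ∀ z ∈ Z, S2 z ⊆ E.om R ∧ ∀ x ∈ S2 z, x ∈ E.above 1 u := by
    intro z hz
    have key : ∀ y ∈ E.om ρ', u <+: (FreeGroup.mk t * E.pos y).toWord := fun y hy => by
      have h := (E.mem_om.1 hy).2
      have e : t = (u ++ [E.pad (u.getLastD E.a₀)]) ++ List.replicate E.R₁ (li E.a₀) := by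
        simp [ht, mark]
      have h' : (u ++ [E.pad (u.getLastD E.a₀)]) <+: (FreeGroup.mk t * E.pos y).toWord := by
        rw [e]
        refine prefix_mul (e ▸ hredt) ?_
        rw [invRev_replicate, li_li]
        exact h
      exact (List.prefix_append _ _).trans h'
    have hmem : ∀ x ∈ S2 z, x ∈ E.om R ∧ x ∈ E.above 1 u := by
      intro x hx
      obtain ⟨y, hy, rfl⟩ := mem_image.1 hx
      have hk := key y hy
      rw [← hπ z, ← E.pos_tr] at hk
      refine ⟨E.mem_om.2 ⟨?_, fun hb => ?_⟩, E.mem_above_one.2 hk⟩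
      · have h1 := E.len_mul (γ z) y.1
        have h2 := E.len_support (W z) (W z).end_mem_support
        have h3 := (E.mem_om.1 hy).1
        have h4 := (E.mem_om.1 (mem_filter.1 hz).1).1
        have h5 := hzlen z hz
        show E.len (γ z * y.1) ≤ R
        have h2' : E.len (γ z) ≤ E.len z.1 + (W z).length := h2
        omega
      · obtain ⟨c, hc⟩ := hb
        refine hthead hk ?_
        rw [← hc, b₀]
        obtain ⟨m, hm⟩ : ∃ m, E.R₁ = m + 1 := ⟨E.R₁ - 1, by have := E.one_le_R; omega⟩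
        simp [hm, List.replicate_succ]
    exact ⟨fun x hx => (hmem x hx).1, fun x hx => (hmem x hx).2⟩
  have hB : ∀ z ∈ Z, B z ⊆ inE E.nb (E.om R) ∧ (B z).card ≤ E.blockLen ∧
      ∀ x, OnBlock B z x → cl (B z) x (g z) := by
    intro z hz
    have htoB : ∀ x ∈ (W z).support, cl (B z) x (g z) := fun x hx => by
      have hmem : ∀ e ∈ ((W z).dropUntil x hx).edges,
          e ∈ (SimpleGraph.fromEdgeSet ((B z : Finset _) : Set (Sym2 (Γ × O)))).edgeSet := by
        intro e he
        have he' := (W z).edges_dropUntil_subset_edges hx he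
        rw [SimpleGraph.edgeSet_fromEdgeSet]
        exact ⟨List.mem_toFinset.2 he', E.G.not_isDiag_of_mem_edgeSet ((W z).edges_subset_edgeSet he')⟩
      exact ⟨((W z).dropUntil x hx).transfer _ hmem⟩
    refine ⟨fun e he => (inE_iff E.hl).2 ⟨(W z).edges_subset_edgeSet (List.mem_toFinset.1 he),
      fun x hx => hsupp z hz x (SimpleGraph.Walk.mem_support_of_mem_edges (List.mem_toFinset.1 he) hx)⟩,
      ((W z).edges.toFinset_card_le).trans ((W z).length_edges.le.trans (hzlen z hz)), ?_⟩
    rintro x (rfl | ⟨e, he, hx⟩)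
    · exact htoB _ (W x).start_mem_support
    · exact htoB x (SimpleGraph.Walk.mem_support_of_mem_edges (List.mem_toFinset.1 he) hx)
  have hβ : ∀ z ∈ Z, E.Psi ρ' p v ≤ hit E.nb (S2 z) p (g z) (E.above 1 (E.join u v)) := by
    intro z hz
    have e : g z = tr (γ z) ((1 : Γ), E.o₁) := by simp [g, tr]
    rw [e, E.hit_tr, Psi]
    refine hit_mono E.hl Subset.rfl (fun y hy => ?_) hp hp1 _
    rw [E.mem_above_one] at hy
    show E.join u v <+: (((E.π (γ z))⁻¹ * 1)⁻¹ * E.pos y).toWord
    rw [mul_one, inv_inv, hπ z]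
    have hred : Red (t ++ (E.pos y).toWord) := by
      refine red_append.2 ⟨hredt, red_toWord _, fun a ha b hb => ?_⟩
      rw [ht, List.getLast?_append, E.mark_getLast, Option.some_or, Option.mem_def,
        Option.some.injEq] at ha
      subst ha
      rw [li_li]
      obtain ⟨c, hc⟩ := hy
      rw [← hc, List.head?_append_of_ne_nil _ hv.2.1] at hb
      exact E.strict_head hv b hb
    rw [toWord_append hred]
    exact (List.prefix_append_right_inj t).2 hy
  have hmain := glue E.hl (E.om_mono (by omega : ρ ≤ R)) hp hp1 (T := E.above 1 (E.join u v)) Z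
    (E.not_mem_above_one hu.2.1 E.o₁)
    (fun x y hadj hx hy hys => mem_filter.2 ⟨hys, by simpa using E.cross hadj hx hy⟩)
    B g E.blockLen hB S2 hS2 (E.psi_nonneg ρ' hp hp1 v) hβ
  refine le_trans ?_ hmain
  rw [mul_right_comm (p ^ E.blockLen)]
  have hn := mul_nonneg (E.psi_nonneg ρ hp hp1 u) (E.psi_nonneg ρ' hp hp1 v)
  have hc : E.c₁ p ≤ p ^ E.blockLen := by
    rw [c₁]; have := pow_nonneg hp E.blockLen; linarith
  have := mul_le_mul_of_nonneg_right hc hn
  simp only [Psi, ← mul_assoc] at this ⊢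
  exact this

/-- A connection seen from outside a half space costs a code word of the anchor. -/
theorem hit_le_psi (hp : 0 < p) (hp1 : p ≤ 1) (M : ℕ) {m : α × Bool} {v : List (α × Bool)}
    (hvm : v.head? = some m) {q : FreeGroup α} {z : Γ × O} {S : Finset (Γ × O)}
    (hS : ∀ x ∈ S, x ∈ E.above q [m]) (hz : z ∈ E.above q [m])
    (hM : (q⁻¹ * E.pos z).norm ≤ M) :
    ∃ ρ, p ^ (E.leg * (M + 2)) * hit E.nb S p z (E.above q v) ≤ E.Psi ρ p (E.pad m :: v) := by
  classical
  set t := E.pad m
  obtain ⟨ht1, ht2⟩ := E.pad_spec m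
  set w := invRev (q⁻¹ * E.pos z).toWord ++ [li t] with hw
  obtain ⟨γ, hγ, W, hW, hsup⟩ := E.exists_path w z
  have hwq : E.pos z * FreeGroup.mk w = q * FreeGroup.mk [li t] := by
    rw [hw, ← mul_mk, ← inv_mk, mk_toWord, mul_inv_rev, inv_inv, ← mul_assoc, mul_inv_cancel_left]
  have hπ : (E.π γ)⁻¹ = FreeGroup.mk [t] * q⁻¹ := by
    rw [hγ, hwq, mul_inv_rev, inv_mk]
    simp [invRev_eq, li_li]
  set S' := S ∪ W.support.toFinset
  set ρ := (S'.image fun x => E.len (γ⁻¹ * x.1)).sup id with hρ
  have hredt : ∀ y : FreeGroup α, m ∈ y.toWord.head? → Red ([t] ++ y.toWord) := fun y hy =>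
    red_append.2 ⟨List.isChain_singleton t, red_toWord y, fun a ha b hb => by
      simp only [List.getLast?_singleton, Option.mem_def, Option.some.injEq] at ha
      subst ha
      rw [Option.mem_def] at hy hb
      rw [hy, Option.some.injEq] at hb
      subst hb
      exact fun h => ht1 (show t = li m by rw [h, li_li])⟩
  have hhead : ∀ x, x ∈ E.above q [m] → m ∈ (q⁻¹ * E.pos x).toWord.head? := fun x hx => by
    obtain ⟨c, hc⟩ := (hx : [m] <+: _)
    rw [← hc]; simp
  have hzw := hhead z hz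
  have hom : S'.image (tr γ⁻¹) ⊆ E.om ρ := by
    intro y hy
    obtain ⟨x, hx, rfl⟩ := mem_image.1 hy
    refine E.mem_om.2 ⟨le_sup (f := id) (mem_image_of_mem (fun x => E.len (γ⁻¹ * x.1)) hx), ?_⟩
    rw [E.pos_tr, _root_.map_inv, hπ, mul_assoc]
    rcases mem_union.1 hx with hx | hx
    · intro hb
      have hred := hredt _ (hhead x (hS x hx))
      rw [toWord_append hred] at hb
      obtain ⟨n, hn⟩ : ∃ n, E.R₁ = n + 1 := ⟨E.R₁ - 1, by have := E.one_le_R; omega⟩
      obtain ⟨c, hc⟩ := hb
      rw [b₀, hn, List.replicate_succ, List.cons_append, List.singleton_append, List.cons.injEq] at hc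
      exact ht2 hc.1.symm
    · obtain ⟨i, hi, hn⟩ := hsup x (List.mem_toFinset.1 hx)
      -- the reference point, read in the new coordinates
      set s := (q⁻¹ * E.pos z).toWord with hs
      have hpt : ∃ P : List (α × Bool), Red P ∧ P.head? ≠ some E.a₀ ∧
          FreeGroup.mk P = FreeGroup.mk [t] * (q⁻¹ * (E.pos z * FreeGroup.mk (w.take i))) := by
        by_cases hil : i ≤ s.length
        · have htake : w.take i = invRev (s.drop (s.length - i)) := by
            rw [hw, List.take_append_of_le_length (by rw [invRev_length]; exact hil), invRev_eq,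
              invRev_eq, List.take_reverse, List.length_map, List.map_drop]
          have hred : Red ([t] ++ s.take (s.length - i)) := by
            have := hredt _ hzw
            rw [← hs] at this
            exact red_of_init this ((List.prefix_append_right_inj _).2 (List.take_prefix _ _))
          refine ⟨_, hred, by simpa using ht2, ?_⟩
          rw [← mul_mk, htake, ← inv_mk, ← mul_assoc q⁻¹,
            show q⁻¹ * E.pos z = FreeGroup.mk (s.take (s.length - i)) * FreeGroup.mk (s.drop (s.length - i))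
              by rw [mul_mk, List.take_append_drop, hs, mk_toWord], mul_inv_cancel_right]
        · refine ⟨[], List.isChain_nil, by simp, ?_⟩
          rw [List.take_of_length_le (by simp only [hw, List.length_append, invRev_length, List.length_singleton]; omega),
            hwq, inv_mul_cancel_left, mul_mk, ← FreeGroup.one_eq_mk]
          rw [show [t] ++ [li t] = [t] ++ invRev [t] by simp [invRev_eq], ← mul_mk, ← inv_mk,
            mul_inv_cancel]
      obtain ⟨P, hP, hPh, hPe⟩ := hpt
      refine E.not_b₀ hP hPh ?_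
      rw [hPe]
      refine lt_of_le_of_lt (le_of_eq_of_le ?_ hn) (by rw [R₁]; omega)
      congr 1
      group
  have hmove := hit_move E.hl (nb := E.nb) (S := S') hp.le hp1 W.reverse
    (fun x hx => mem_union_right _ (List.mem_toFinset.2 (by simpa using hx))) (E.above q v)
  refine ⟨ρ, le_trans ?_ (le_trans hmove ?_)⟩
  · refine mul_le_mul ?_ (hit_mono E.hl subset_union_left Set.Subset.rfl hp.le hp1 z)
      (hit_nonneg _ hp.le hp1 _ _) (pow_nonneg hp.le _)
    rw [SimpleGraph.Walk.length_reverse]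
    refine pow_le_pow_of_le_one hp.le hp1 (hW.trans (Nat.mul_le_mul le_rfl ?_))
    simp only [hw, List.length_append, invRev_length, List.length_singleton]
    rw [FreeGroup.norm] at hM
    omega
  · have h2 := E.hit_tr γ (S'.image (tr γ⁻¹)) p ((1 : Γ), E.o₁) q v
    rw [image_image, show (tr γ ∘ tr γ⁻¹ : Γ × O → Γ × O) = id from
      funext fun x => by simp [tr], image_id, show tr γ ((1 : Γ), E.o₁) = (γ, E.o₁) by simp [tr]] at h2
    rw [h2, Psi]
    refine hit_mono E.hl hom (fun y hy => ?_) hp.le hp1 _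
    rw [E.mem_above_one]
    change v <+: (((E.π γ)⁻¹ * q)⁻¹ * E.pos y).toWord at hy
    rw [hπ, inv_mul_cancel_right, inv_mk] at hy
    set y' := FreeGroup.mk (invRev [t]) * E.pos y with hy'
    have hey : E.pos y = FreeGroup.mk [t] * y' := by
      rw [hy', ← inv_mk, mul_inv_cancel_left]
    have hm' : m ∈ y'.toWord.head? := by
      obtain ⟨c, hc⟩ := hy
      rw [← hc, List.head?_append_of_ne_nil _ (by intro h; simp [h] at hvm), hvm, Option.mem_def]
    rw [hey, toWord_append (hredt y' hm'), List.singleton_append, List.cons_prefix_cons]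
    exact ⟨rfl, hy⟩

end Base

end Vale.Agent.P165.FP
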