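import Vale.Agent.P165.FP.Tail

/-!
# The near part of the norm bound

The expected number of points over a short ball of the quotient, joined to a centre inside a ball,
is at most the radius of that short ball times a small power of the radius.
-/

namespace Vale.Agent.P165.FP

open Finset FF FreeGroup

namespace Env

open Base

variable {Γ O ι α : Type} [Group Γ] [Fintype ι] [DecidableEq α] [Fintype α] [Fintype O]
  [DecidableEq Γ] [DecidableEq O] (E : Env Γ O ι α) {p : ℝ}

omit [Fintype O] in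
theorem mass_nonneg (h0 : 0 ≤ p) (h1 : p ≤ 1) (U : Finset (Γ × O)) (a : Γ × O) (q : FreeGroup α) :
    0 ≤ E.mass p U a q :=
  sum_nonneg fun y _ => FF.tauIn_nonneg U h0 h1 a y

/-- The last entrance above a letter: the mass over a point there is carried by the gates. -/
theorem mass_le_gates (h0 : 0 ≤ p) (h1 : p ≤ 1) (R : ℕ) {a : Γ × O} (hpa : E.pos a = 1)
    (m : α × Bool) {w : FreeGroup α} (hw : [m] <+: w.toWord) :
    E.mass p (E.cyl a R) a w ≤
      ∑ z ∈ (E.cyl a R).filter (fun z => [m] <+: (E.pos z).toWord ∧ (E.pos z).norm ≤ E.L + 1),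
        tauIn E.nb (E.cyl a R) p a z * E.mass p (E.side z (2 * R) m) z w := by
  classical
  set U := E.cyl a R
  set Z := U.filter fun z => [m] <+: (E.pos z).toWord ∧ (E.pos z).norm ≤ E.L + 1
  have ha : a ∉ E.above 1 [m] := by
    rw [mem_above_one, hpa, FreeGroup.toWord_one, List.prefix_nil]
    simp
  have hZ : ∀ x y, E.G.Adj x y → x ∉ E.above 1 [m] → y ∈ E.above 1 [m] → y ∈ U → y ∈ Z := by
    intro x y hxy hx hy hyU
    refine mem_filter.2 ⟨hyU, (E.mem_above_one).1 hy, ?_⟩
    have h := E.cross hxy hx hy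
    rw [one_mul] at h
    have h2 := FreeGroup.norm_mul_le (FreeGroup.mk [m]) ((FreeGroup.mk [m])⁻¹ * E.pos y)
    rw [mul_inv_cancel_left] at h2
    have h3 : (FreeGroup.mk [m]).norm ≤ 1 := FreeGroup.norm_mk_le
    omega
  set S' := U.filter fun y => y ∈ E.above 1 [m] with hS'
  have hSz : ∀ z ∈ Z, S' ⊆ E.side z (2 * R) m := by
    intro z hz y hy
    obtain ⟨hyU, hyK⟩ := mem_filter.1 hy
    refine mem_filter.2 ⟨?_, hyK⟩
    rw [two_mul]
    exact E.cyl_trans (E.mem_cyl_symm (mem_filter.1 hz).1) hyU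
  calc E.mass p U a w
      ≤ ∑ y ∈ U.filter (fun y => E.pos y = w),
          ∑ z ∈ Z, tauIn E.nb U p a z * tauIn E.nb S' p z y := sum_le_sum fun y hy =>
        tau_last_entrance E.hl U S' (E.above 1 [m]) Z h0 h1 ha hZ
          (fun y hyU hyK => mem_filter.2 ⟨hyU, hyK⟩)
          ((E.mem_above_one).2 (by rw [(mem_filter.1 hy).2]; exact hw))
    _ = ∑ z ∈ Z, tauIn E.nb U p a z *
          ∑ y ∈ U.filter (fun y => E.pos y = w), tauIn E.nb S' p z y := by
        rw [sum_comm]; simp only [mul_sum]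
    _ ≤ ∑ z ∈ Z, tauIn E.nb U p a z * E.mass p (E.side z (2 * R) m) z w :=
        sum_le_sum fun z hz => by
          refine mul_le_mul_of_nonneg_left ?_ (FF.tauIn_nonneg U h0 h1 a z)
          refine (sum_le_sum fun y _ => FF.tauIn_mono E.hl (hSz z hz) h0 h1 z y).trans
            (sum_le_sum_of_subset_of_nonneg (fun y hy => ?_) fun y _ _ =>
              FF.tauIn_nonneg _ h0 h1 z y)
          obtain ⟨hyU, hyw⟩ := mem_filter.1 hy
          exact mem_filter.2 ⟨hSz z hz (mem_filter.2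
            ⟨hyU, (E.mem_above_one).2 (by rw [hyw]; exact hw)⟩), hyw⟩

/-- The near part, from the bound on the own fibres. -/
theorem exists_near_of_own (hp : E.Crit p)
    (hown : ∀ {δ : ℝ}, 0 < δ → ∀ M : ℕ, ∃ R₀ : ℕ, ∀ R, R₀ ≤ R → ∀ (a : Γ × O) (q : FreeGroup α),
      ((E.pos a)⁻¹ * q).norm ≤ M → E.mass p (E.cyl a R) a q ≤ (R : ℝ) ^ δ)
    {ε : ℝ} (hε : 0 < ε) :
    ∃ R₀ : ℕ, ∀ R, R₀ ≤ R → ∀ a : Γ × O, E.pos a = 1 → ∀ J : ℕ,
      ∑ w ∈ ballF (α := α) J, E.mass p (E.cyl a R) a w ≤ ((J : ℝ) + 1) * (R : ℝ) ^ ε := by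
  classical
  obtain ⟨hp0, hp1, -⟩ := id hp
  set δ := ε / 3 with hδε
  have hδ : 0 < δ := by positivity
  obtain ⟨R₁, hown'⟩ := hown hδ (E.L + 1)
  obtain ⟨R₂, htail⟩ := E.exists_tail hp hδ
  set nF : ℝ := ((ballF (α := α) (E.L + 1)).card : ℝ)
  set K : ℝ := (Fintype.card (α × Bool) : ℝ) * (1 + nF * (2 : ℝ) ^ δ)
  obtain ⟨R₃, hR31, hK⟩ := polylog_le K 0 hδ
  refine ⟨max R₁ (max R₂ R₃), fun R hR a hpa J => ?_⟩
  have hR1 : R₁ ≤ R := le_trans (le_max_left _ _) hR
  have hR2 : R₂ ≤ R := le_trans ((le_max_left _ _).trans (le_max_right _ _)) hR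
  have hR3 : R₃ ≤ R := le_trans ((le_max_right _ _).trans (le_max_right _ _)) hR
  have hRr : (1 : ℝ) ≤ R := by exact_mod_cast hR31.trans hR3
  set U := E.cyl a R
  set rd := (R : ℝ) ^ δ with hrd
  have hrd1 : 1 ≤ rd := Real.one_le_rpow hRr hδ.le
  have hown1 : ∀ q : FreeGroup α, q.norm ≤ E.L + 1 → E.mass p U a q ≤ rd := fun q hq =>
    hown' R hR1 a q (by rwa [hpa, inv_one, one_mul])
  -- one sphere over one letter
  have hblock : ∀ k : ℕ × (α × Bool),
      ∑ w ∈ (ballF (α := α) J).filter (fun w => (w.toWord.length, w.toWord.headD E.a₀) = k),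
        E.mass p U a w ≤ (1 + nF * (2 : ℝ) ^ δ) * rd ^ 2 := by
    rintro ⟨j, m⟩
    set Q := (ballF (α := α) J).filter
      (fun w => (w.toWord.length, w.toWord.headD E.a₀) = (j, m))
    have hQ : ∀ w ∈ Q, w.toWord.length = j ∧ w.toWord.headD E.a₀ = m := fun w hw =>
      Prod.ext_iff.1 (mem_filter.1 hw).2
    have hnF : 0 ≤ nF * (2 : ℝ) ^ δ := by positivity
    rcases Nat.eq_zero_or_pos j with hj | hj
    · have hsub : Q ⊆ {1} := fun w hw => mem_singleton.2
        (FreeGroup.toWord_eq_nil_iff.1 (List.length_eq_zero_iff.1 ((hQ w hw).1.trans hj)))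
      refine (sum_le_sum_of_subset_of_nonneg hsub fun w _ _ =>
        E.mass_nonneg hp0.le hp1 U a w).trans ?_
      rw [sum_singleton]
      refine (hown1 1 (by simp)).trans ?_
      nlinarith
    have hpre : ∀ w ∈ Q, [m] <+: w.toWord := fun w hw => by
      obtain ⟨h1, h2⟩ := hQ w hw
      rcases hww : w.toWord with _ | ⟨b, t⟩
      · rw [hww, List.length_nil] at h1; omega
      · rw [hww, List.headD_cons] at h2
        subst h2
        exact List.cons_prefix_cons.2 ⟨rfl, List.nil_prefix⟩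
    set Z := U.filter fun z => [m] <+: (E.pos z).toWord ∧ (E.pos z).norm ≤ E.L + 1
    set ext : FreeGroup α → α × Bool := fun x => x.toWord.getLastD m
    have hred : ∀ x ∈ Q, [m] <+: x.toWord ∧ Red (x.toWord ++ [ext x]) := fun x hx => by
      refine ⟨hpre x hx, red_append.2 ⟨red_toWord x, List.isChain_singleton _, fun b hb c hc => ?_⟩⟩
      rw [Option.mem_def] at hb hc
      simp only [List.head?_cons, Option.some.injEq] at hc
      rw [← hc, show ext x = x.toWord.getLastD m from rfl, List.getLastD_eq_getLast?, hb,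
        Option.getD_some]
      exact (li_ne b).symm
    have hinj : Set.InjOn (fun x => x.toWord ++ [ext x]) Q := fun x hx y hy h =>
      FreeGroup.toWord_injective (List.append_inj_left h ((hQ x hx).1.trans (hQ y hy).1.symm))
    have hpf : PrefixFree (Q.image fun x => x.toWord ++ [ext x]) := fun u hu v hv huv => by
      obtain ⟨x, hx, rfl⟩ := mem_image.1 hu
      obtain ⟨y, hy, rfl⟩ := mem_image.1 hv
      exact huv.eq_of_length (by simp [(hQ x hx).1, (hQ y hy).1])
    have hZsum : ∑ z ∈ Z, tauIn E.nb U p a z ≤ nF * rd := by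
      rw [← sum_fiberwise_of_maps_to (t := ballF (E.L + 1)) (g := E.pos)
        fun z hz => mem_ballF_iff.2 (mem_filter.1 hz).2.2]
      refine (sum_le_card_nsmul _ _ rd fun q hq => ?_).trans (by rw [nsmul_eq_mul])
      exact (sum_le_sum_of_subset_of_nonneg (filter_subset_filter _ (filter_subset _ _))
        fun y _ _ => FF.tauIn_nonneg U hp0.le hp1 a y).trans (hown1 q (mem_ballF_iff.1 hq))
    calc ∑ w ∈ Q, E.mass p U a w
        ≤ ∑ w ∈ Q, ∑ z ∈ Z, tauIn E.nb U p a z * E.mass p (E.side z (2 * R) m) z w :=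
          sum_le_sum fun w hw => E.mass_le_gates hp0.le hp1 R hpa m (hpre w hw)
      _ = ∑ z ∈ Z, tauIn E.nb U p a z * ∑ w ∈ Q, E.mass p (E.side z (2 * R) m) z w := by
          rw [sum_comm]; simp only [mul_sum]
      _ ≤ ∑ z ∈ Z, tauIn E.nb U p a z * (((2 * R : ℕ) : ℝ) ^ δ) :=
          sum_le_sum fun z hz => mul_le_mul_of_nonneg_left
            (htail (2 * R) (by omega) m z ((E.mem_above_one).2 (mem_filter.1 hz).2.1)
              (mem_filter.1 hz).2.2 Q ext hred hinj hpf) (FF.tauIn_nonneg U hp0.le hp1 a z)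
      _ = (∑ z ∈ Z, tauIn E.nb U p a z) * ((2 : ℝ) ^ δ * rd) := by
          rw [sum_mul]
          push_cast
          rw [Real.mul_rpow (by norm_num) (by linarith)]
      _ ≤ nF * rd * ((2 : ℝ) ^ δ * rd) :=
          mul_le_mul_of_nonneg_right hZsum (by positivity)
      _ ≤ _ := by nlinarith
  calc ∑ w ∈ ballF (α := α) J, E.mass p U a w
      = ∑ k ∈ range (J + 1) ×ˢ (univ : Finset (α × Bool)),
          ∑ w ∈ (ballF (α := α) J).filter (fun w => (w.toWord.length, w.toWord.headD E.a₀) = k),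
            E.mass p U a w := (sum_fiberwise_of_maps_to (fun w hw => mem_product.2
          ⟨mem_range.2 (Nat.lt_succ_of_le (mem_ballF_iff.1 hw)), mem_univ _⟩) _).symm
    _ ≤ ((J + 1) * Fintype.card (α × Bool) : ℕ) * ((1 + nF * (2 : ℝ) ^ δ) * rd ^ 2) := by
        refine (sum_le_card_nsmul _ _ _ fun k _ => hblock k).trans
          (by rw [card_product, card_range, card_univ, nsmul_eq_mul])
    _ = ((J : ℝ) + 1) * (K * rd ^ 2) := by simp only [K]; push_cast; ring
    _ ≤ ((J : ℝ) + 1) * (rd * rd ^ 2) := by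
        refine mul_le_mul_of_nonneg_left (mul_le_mul_of_nonneg_right ?_ (by positivity))
          (by positivity)
        simpa using hK R hR3
    _ = _ := by
        rw [hrd, ← Real.rpow_natCast, ← Real.rpow_mul (by linarith), ← Real.rpow_add (by linarith)]
        congr 2
        rw [hδε]; push_cast; ring

end Env

end Vale.Agent.P165.FP
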