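import Vale.Agent.P165.FP.Near
import Vale.Agent.P165.FP.Decay
import Vale.Agent.P165.FP.Recursion
import Vale.Agent.P165.FF.Haagerup

/-!
# The quadratic form of connections inside balls

The form is pushed forward to the free group by Cauchy–Schwarz on every fibre. Short words are
summed, given their bound, and long words are handled by the decay and Haagerup's inequality.
-/

namespace Vale.Agent.P165.FP

open Finset FF FreeGroup

section Free

variable {α : Type} [DecidableEq α] [Fintype α]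

/-- A convolution is bounded by the mass of its kernel. -/
theorem form_short (J : ℕ) (k F H : FreeGroup α → ℝ) (hk : ∀ w, 0 ≤ k w)
    (U V : Finset (FreeGroup α)) :
    ∑ u ∈ U, ∑ v ∈ V, (if (u⁻¹ * v).norm ≤ J then F u * H v * k (u⁻¹ * v) else 0)
      ≤ (∑ w ∈ ballF J, k w) * Real.sqrt (∑ u ∈ U, F u ^ 2) * Real.sqrt (∑ v ∈ V, H v ^ 2) := by
  have e : ∀ u ∈ U, ∑ v ∈ V, (if (u⁻¹ * v).norm ≤ J then F u * H v * k (u⁻¹ * v) else 0)
      = ∑ w ∈ ballF J, if u * w ∈ V then k w * (F u * H (u * w)) else 0 := by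
    intro u _
    rw [← sum_filter, ← sum_filter]
    refine sum_bij' (fun v _ => u⁻¹ * v) (fun w _ => u * w) ?_ ?_ (fun v _ => mul_inv_cancel_left u v)
      (fun w _ => inv_mul_cancel_left u w) fun v _ => by rw [mul_inv_cancel_left]; ring
    · intro v hv
      rw [mem_filter] at hv ⊢
      exact ⟨mem_ballF hv.2, by rw [mul_inv_cancel_left]; exact hv.1⟩
    · intro w hw
      rw [mem_filter] at hw ⊢
      exact ⟨hw.2, by rw [inv_mul_cancel_left]; exact mem_ballF_iff.1 hw.1⟩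
  rw [sum_congr rfl e, sum_comm, mul_assoc, sum_mul]
  refine sum_le_sum fun w _ => ?_
  rw [← sum_filter, ← mul_sum]
  refine mul_le_mul_of_nonneg_left ((Real.sum_mul_le_sqrt_mul_sqrt _ _ _).trans
    (mul_le_mul (Real.sqrt_le_sqrt (sum_le_sum_of_subset_of_nonneg (filter_subset _ _)
      fun _ _ _ => sq_nonneg _)) (Real.sqrt_le_sqrt ?_) (Real.sqrt_nonneg _) (Real.sqrt_nonneg _)))
    (hk w)
  rw [← sum_image (g := fun u => u * w) (f := fun v => H v ^ 2) fun a _ b _ h => mul_right_cancel h]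
  exact sum_le_sum_of_subset_of_nonneg (fun v hv => by
    obtain ⟨u, hu, rfl⟩ := mem_image.1 hv
    exact (mem_filter.1 hu).2) fun _ _ _ => sq_nonneg _

/-- Haagerup's inequality as a bound on a bilinear form. -/
theorem form_long (R : ℕ) (k F H : FreeGroup α → ℝ) (U V : Finset (FreeGroup α)) :
    ∑ u ∈ U, ∑ v ∈ V, (if (u⁻¹ * v).norm ≤ R then F u * H v * k (u⁻¹ * v) else 0)
      ≤ ((R : ℝ) + 1) ^ 2 * Real.sqrt (∑ w ∈ ballF R, k w ^ 2) * Real.sqrt (∑ u ∈ U, F u ^ 2)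
          * Real.sqrt (∑ v ∈ V, H v ^ 2) := by
  set ψ : FreeGroup α → FG (fun _ : Unit => α) := fun g _ => g
  have hψ : ∀ {a b : FreeGroup α}, ψ a = ψ b → a = b := fun h => congrFun h ()
  set G : FreeGroup α → ℝ := fun v =>
    ∑ u ∈ U, if (u⁻¹ * v).norm ≤ R then F u * k (u⁻¹ * v) else 0 with hG
  have hG2 : ∑ v ∈ V, G v ^ 2 ≤
      ((R : ℝ) + 1) ^ 4 * (∑ w ∈ ballF R, k w ^ 2) * ∑ u ∈ U, F u ^ 2 := by
    have h := haagerup R ((ballF R).image ψ) (U.image fun u => ψ u⁻¹)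
      (fun g hg => mem_ball.2 fun t => by
        obtain ⟨a, ha, rfl⟩ := mem_image.1 hg
        exact mem_ballF_iff.1 ha)
      (fun g => k (g ())⁻¹) (fun g => F (g ())⁻¹) (V.image fun v => ψ v⁻¹)
    simp only [Fintype.card_unit, mul_one] at h
    rw [sum_image fun a _ b _ e => inv_injective (hψ e), sum_image fun a _ b _ e => hψ e,
      sum_image fun a _ b _ e => inv_injective (hψ e)] at h
    simp only [ψ, inv_inv] at h
    rw [show ∑ w ∈ ballF R, k (w : FreeGroup α)⁻¹ ^ 2 = ∑ w ∈ ballF R, k w ^ 2 from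
      sum_nbij' (·⁻¹) (·⁻¹) (by simp [mem_ballF_iff]) (by simp [mem_ballF_iff]) (by simp) (by simp)
        (by simp)] at h
    refine le_trans (le_of_eq (sum_congr rfl fun v _ => ?_)) h
    congr 1
    simp only [hG]
    rw [← sum_filter]
    refine sum_bij' (fun u _ => ψ (v⁻¹ * u)) (fun g _ => v * g ()) ?_ ?_
      (fun u _ => mul_inv_cancel_left v u) (fun g _ => funext fun _ => inv_mul_cancel_left v (g ()))
      fun u _ => by simp [ψ, mul_comm]
    · intro u hu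
      rw [mem_filter] at hu
      refine mem_filter.2 ⟨mem_image_of_mem _ (mem_ballF ?_), mem_image.2 ⟨u, hu.1, ?_⟩⟩
      · rw [← norm_inv_eq, mul_inv_rev, inv_inv]; exact hu.2
      · funext; simp [ψ, mul_assoc]
    · intro g hg
      obtain ⟨h1, h2⟩ := mem_filter.1 hg
      obtain ⟨a, ha, rfl⟩ := mem_image.1 h1
      obtain ⟨u, hu, e⟩ := mem_image.1 h2
      have e' : u⁻¹ = a⁻¹ * v⁻¹ := congrFun e ()
      have hua : u = v * a := by rw [← inv_inv u, e', mul_inv_rev, inv_inv, inv_inv]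
      refine mem_filter.2 ⟨show v * a ∈ U from hua ▸ hu, ?_⟩
      show ((v * a)⁻¹ * v).norm ≤ R
      rw [mul_inv_rev, inv_mul_cancel_right, norm_inv_eq]
      exact mem_ballF_iff.1 ha
  calc _ = ∑ v ∈ V, H v * G v := by
        rw [sum_comm]
        refine sum_congr rfl fun v _ => ?_
        simp only [hG, mul_sum, mul_ite, mul_zero]
        exact sum_congr rfl fun u _ => if_congr Iff.rfl (by ring) rfl
    _ ≤ Real.sqrt (∑ v ∈ V, H v ^ 2) * Real.sqrt (((R : ℝ) + 1) ^ 4 *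
          (∑ w ∈ ballF R, k w ^ 2) * ∑ u ∈ U, F u ^ 2) :=
        (Real.sum_mul_le_sqrt_mul_sqrt _ _ _).trans
          (mul_le_mul_of_nonneg_left (Real.sqrt_le_sqrt hG2) (Real.sqrt_nonneg _))
    _ = _ := by
        rw [Real.sqrt_mul (by positivity), Real.sqrt_mul (by positivity),
          show ((R : ℝ) + 1) ^ 4 = (((R : ℝ) + 1) ^ 2) ^ 2 by ring, Real.sqrt_sq (by positivity)]
        ring

end Free

namespace Env

open Base

variable {Γ O ι α : Type} [Group Γ] [Fintype ι] [DecidableEq α] [Fintype α] [Fintype O]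
  [DecidableEq Γ] [DecidableEq O] (E : Env Γ O ι α) {p : ℝ}

/-- The mass of the fibre of `w`, summed over the types of the start. -/
noncomputable def prof (p : ℝ) (R : ℕ) (w : FreeGroup α) : ℝ :=
  ∑ o : O, E.mass p (E.cyl ((1 : Γ), o) R) ((1 : Γ), o) w

theorem prof_nonneg (hp : 0 ≤ p) (hp1 : p ≤ 1) (R : ℕ) (w : FreeGroup α) : 0 ≤ E.prof p R w :=
  sum_nonneg fun _ _ => E.mass_nonneg hp hp1 _ _ _

theorem prof_eq_zero {R : ℕ} {w : FreeGroup α} (hw : E.L * R < w.norm) : E.prof p R w = 0 := by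
  refine sum_eq_zero fun o _ => sum_eq_zero fun y hy => absurd hw (not_lt.2 ?_)
  obtain ⟨hy1, rfl⟩ := mem_filter.1 hy
  have h := E.mem_cyl.1 hy1
  rw [inv_one, one_mul] at h
  exact (E.lip _).trans (Nat.mul_le_mul le_rfl h)

theorem fibre_le_prof (hp : 0 ≤ p) (hp1 : p ≤ 1) (R : ℕ) (z : Γ × O) (v : FreeGroup α)
    (S : Finset (Γ × O)) (hS : ∀ y ∈ S, E.pos y = v) :
    ∑ y ∈ S, tauIn E.nb (E.cyl z R) p z y ≤ E.prof p R ((E.pos z)⁻¹ * v) := by
  classical
  have h0 : ∀ y, 0 ≤ tauIn E.nb (E.cyl z R) p z y := fun y => tauIn_nonneg _ hp hp1 z y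
  calc ∑ y ∈ S, tauIn E.nb (E.cyl z R) p z y
      ≤ ∑ y ∈ S ∪ (E.cyl z R).filter (fun y => E.pos y = v), tauIn E.nb (E.cyl z R) p z y :=
        sum_le_sum_of_subset_of_nonneg subset_union_left fun y _ _ => h0 y
    _ = ∑ y ∈ (E.cyl z R).filter (fun y => E.pos y = v), tauIn E.nb (E.cyl z R) p z y := by
        refine (sum_subset subset_union_right fun y hy hy' => ?_).symm
        have hv : E.pos y = v := (mem_union.1 hy).elim (hS y) fun h => absurd h hy'
        have hz : y ∉ E.cyl z R := fun h => hy' (mem_filter.2 ⟨h, hv⟩)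
        refine tauIn_eq_zero (fun e => hz ?_) (Or.inr hz) p
        rw [← e, E.mem_cyl, inv_mul_cancel, E.len_one]
        exact Nat.zero_le _
    _ = E.mass p (E.cyl ((1 : Γ), z.2) R) ((1 : Γ), z.2) ((E.pos z)⁻¹ * v) := by
        have ez : tr z.1 ((1 : Γ), z.2) = z := by simp [tr]
        conv_lhs => rw [← ez, ← E.cyl_image z.1, filter_image]
        rw [sum_image fun a _ b _ h => tr_injective z.1 h, mass]
        refine sum_congr (filter_congr fun y _ => ?_) fun y _ => tauIn_tr E.hl E.hinv _ _ _ _ _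
        rw [E.pos_tr, eq_inv_mul_iff_mul_eq]
        rfl
    _ ≤ _ := single_le_sum (f := fun o => E.mass p (E.cyl ((1 : Γ), o) R) ((1 : Γ), o)
          ((E.pos z)⁻¹ * v)) (fun o _ => E.mass_nonneg hp hp1 _ _ _) (mem_univ z.2)

/-- Cauchy–Schwarz on every pair of fibres. -/
theorem form_le_prof (hp : 0 ≤ p) (hp1 : p ≤ 1) (R : ℕ) (F H : Finset (Γ × O))
    (f h : Γ × O → ℝ) :
    ∑ x ∈ F, ∑ y ∈ H, f x * h y * tauIn E.nb (E.cyl x R) p x y ≤
      ∑ u ∈ F.image E.pos, ∑ v ∈ H.image E.pos,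
        Real.sqrt (∑ x ∈ F.filter (fun x => E.pos x = u), f x ^ 2) *
        Real.sqrt (∑ y ∈ H.filter (fun y => E.pos y = v), h y ^ 2) *
        (E.prof p (2 * R) (u⁻¹ * v) + E.prof p (2 * R) (u⁻¹ * v)⁻¹) := by
  classical
  rw [← sum_fiberwise_of_maps_to fun x hx => mem_image_of_mem E.pos hx]
  refine sum_le_sum fun u _ => ?_
  rw [sum_congr rfl fun x _ => (sum_fiberwise_of_maps_to (fun y hy => mem_image_of_mem E.pos hy)
    fun y => f x * h y * tauIn E.nb (E.cyl x R) p x y).symm, sum_comm]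
  refine sum_le_sum fun v _ => ?_
  set Fu := F.filter fun x => E.pos x = u with hFu
  set Hv := H.filter fun y => E.pos y = v with hHv
  set k := E.prof p (2 * R) (u⁻¹ * v) + E.prof p (2 * R) (u⁻¹ * v)⁻¹
  have hk : 0 ≤ k := add_nonneg (E.prof_nonneg hp hp1 _ _) (E.prof_nonneg hp hp1 _ _)
  set t : Γ × O → Γ × O → ℝ := fun x y => tauIn E.nb (E.cyl x R) p x y
  have ht : ∀ x y, 0 ≤ t x y := fun x y => tauIn_nonneg _ hp hp1 x y
  have hsub : ∀ x : Γ × O, E.cyl x R ⊆ E.cyl x (2 * R) := fun x y hy =>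
    E.mem_cyl.2 ((E.mem_cyl.1 hy).trans (by omega))
  have hback : ∀ x y, t x y ≤ tauIn E.nb (E.cyl y (2 * R)) p y x := by
    intro x y
    by_cases hy : y ∈ E.cyl x R
    · rw [E.tauIn_comm _ p y x]
      refine tauIn_mono E.hl (fun w hw => E.mem_cyl.2 ?_) hp hp1 x y
      have h1 := E.len_mul (y.1⁻¹ * x.1) (x.1⁻¹ * w.1)
      rw [mul_assoc, mul_inv_cancel_left] at h1
      have := E.mem_cyl.1 hw
      have := E.mem_cyl.1 (E.mem_cyl_comm.1 hy)
      omega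
    · by_cases hxy : x = y
      · subst hxy
        exact (tauIn_mono E.hl (hsub x) hp hp1 x x)
      · simp only [t]
        rw [tauIn_eq_zero hxy (Or.inr hy) p]
        exact tauIn_nonneg _ hp hp1 y x
  have hrow : ∀ x ∈ Fu, ∑ y ∈ Hv, t x y ≤ k := by
    intro x hx
    refine (sum_le_sum fun y _ => tauIn_mono E.hl (hsub x) hp hp1 x y).trans
      ((E.fibre_le_prof hp hp1 (2 * R) x v Hv fun y hy => (mem_filter.1 hy).2).trans ?_)
    rw [(mem_filter.1 hx).2]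
    exact le_add_of_nonneg_right (E.prof_nonneg hp hp1 _ _)
  have hcol : ∀ y ∈ Hv, ∑ x ∈ Fu, t x y ≤ k := by
    intro y hy
    refine (sum_le_sum fun x _ => hback x y).trans
      ((E.fibre_le_prof hp hp1 (2 * R) y u Fu fun x hx => (mem_filter.1 hx).2).trans ?_)
    rw [(mem_filter.1 hy).2, show v⁻¹ * u = (u⁻¹ * v)⁻¹ by rw [mul_inv_rev, inv_inv]]
    exact le_add_of_nonneg_left (E.prof_nonneg hp hp1 _ _)
  calc ∑ x ∈ Fu, ∑ y ∈ Hv, f x * h y * t x y
      = ∑ q ∈ Fu ×ˢ Hv, (f q.1 * Real.sqrt (t q.1 q.2)) * (h q.2 * Real.sqrt (t q.1 q.2)) := by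
        rw [sum_product]
        refine sum_congr rfl fun x _ => sum_congr rfl fun y _ => ?_
        rw [mul_mul_mul_comm, Real.mul_self_sqrt (ht x y)]
    _ ≤ Real.sqrt (k * ∑ x ∈ Fu, f x ^ 2) * Real.sqrt (k * ∑ y ∈ Hv, h y ^ 2) := by
        refine (Real.sum_mul_le_sqrt_mul_sqrt _ _ _).trans (mul_le_mul (Real.sqrt_le_sqrt ?_)
          (Real.sqrt_le_sqrt ?_) (Real.sqrt_nonneg _) (Real.sqrt_nonneg _))
        · simp only [sum_product, mul_pow, Real.sq_sqrt (ht _ _), ← mul_sum]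
          rw [mul_sum]
          exact sum_le_sum fun x hx => by
            rw [mul_comm k]; exact mul_le_mul_of_nonneg_left (hrow x hx) (sq_nonneg _)
        · simp only [sum_product_right, mul_pow, Real.sq_sqrt (ht _ _), ← mul_sum]
          rw [mul_sum]
          exact sum_le_sum fun y hy => by
            rw [mul_comm k]; exact mul_le_mul_of_nonneg_left (hcol y hy) (sq_nonneg _)
    _ = _ := by
        rw [Real.sqrt_mul hk, Real.sqrt_mul hk, mul_mul_mul_comm, Real.mul_self_sqrt hk, mul_comm]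

/-- A long word has a light fibre. -/
theorem exists_far (hp : E.Crit p) {δ : ℝ} (hδ : 0 < δ) (A : ℕ) :
    ∃ R₀ : ℕ, ∀ R, R₀ ≤ R → ∀ a : Γ × O, E.pos a = 1 → ∀ w : FreeGroup α,
      (R : ℝ) ^ δ ≤ w.norm → E.mass p (E.cyl a R) a w ≤ 1 / (R : ℝ) ^ A := by
  classical
  obtain ⟨Rt, ht⟩ := E.exists_tail hp (ε := δ / 2 / 2) (by linarith)
  obtain ⟨Rd, hd⟩ := E.exists_decay_of_tail hp (ε := δ / 2) (by linarith) (A + 2 * E.deg + 1)
    ⟨Rt, ht⟩
  obtain ⟨hp0, hp1, -⟩ := hp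
  set K : ℝ := ((Fintype.card O * E.Cg * 2 ^ E.deg : ℕ) : ℝ)
  set nF : ℝ := ((ballF (α := α) (E.L + 1)).card : ℝ)
  refine ⟨Rd + ⌈nF * K * K * 6 ^ E.deg⌉₊ + 2, fun R hR a hpa w hw => ?_⟩
  set U := E.cyl a R
  have hR2 : (2 : ℝ) ≤ R := by exact_mod_cast (show 2 ≤ R by omega)
  have hRδ : (1 : ℝ) ≤ (R : ℝ) ^ δ := Real.one_le_rpow (by linarith) hδ.le
  obtain ⟨m, t, hm⟩ : ∃ m t, w.toWord = m :: t := by
    rcases hwl : w.toWord with _ | ⟨m, t⟩
    · exfalso
      rw [FreeGroup.norm, hwl, List.length_nil, Nat.cast_zero] at hw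
      linarith
    · exact ⟨m, t, rfl⟩
  set Z := U.filter fun z => [m] <+: (E.pos z).toWord ∧ (E.pos z).norm ≤ E.L + 1
  set β : ℝ := 1 / ((2 * R : ℕ) : ℝ) ^ (A + 2 * E.deg + 1)
  have hwK : [m] <+: w.toWord := by
    rw [hm]; exact List.cons_prefix_cons.2 ⟨rfl, List.nil_prefix⟩
  have hlen : ((2 * R : ℕ) : ℝ) ^ (δ / 2) ≤ w.toWord.length := by
    refine le_trans ?_ hw
    calc ((2 * R : ℕ) : ℝ) ^ (δ / 2) ≤ ((R : ℝ) ^ 2) ^ (δ / 2) := by
          refine Real.rpow_le_rpow (Nat.cast_nonneg _) ?_ (by linarith)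
          push_cast; nlinarith
      _ = (R : ℝ) ^ δ := by
          rw [← Real.rpow_natCast, ← Real.rpow_mul (Nat.cast_nonneg R)]
          congr 1; push_cast; ring
  have hβ : 0 ≤ β := by positivity
  have hmass : ∀ z ∈ Z, E.mass p (E.side z (2 * R) m) z w ≤
      K * (((2 * R : ℕ) : ℝ) + 1) ^ E.deg * β := by
    intro z hz
    obtain ⟨hzU, hz1, hz2⟩ := mem_filter.1 hz
    refine (sum_le_card_nsmul _ _ β fun y hy => ?_).trans ?_
    · rw [← hit_singleton]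
      exact (hit_mono E.hl Subset.rfl (Set.singleton_subset_iff.2 (E.mem_above_one.2
        (by rw [(mem_filter.1 hy).2]))) hp0.le hp1 z).trans (hd (2 * R) (by omega) m z
        (E.mem_above_one.2 hz1) hz2 w.toWord (red_toWord w) (by rw [hm]; rfl) hlen)
    · rw [nsmul_eq_mul]
      refine mul_le_mul_of_nonneg_right (le_trans ?_ (E.card_fibre_le z (2 * R) w)) hβ
      exact_mod_cast card_le_card (filter_subset_filter _ (filter_subset _ _))
  have hcardZ : (Z.card : ℝ) ≤ nF * (K * ((R : ℝ) + 1) ^ E.deg) := by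
    rw [card_eq_sum_card_fiberwise (t := ballF (E.L + 1)) (f := E.pos)
      fun z hz => mem_coe.2 (mem_ballF (mem_filter.1 hz).2.2), Nat.cast_sum]
    refine (sum_le_card_nsmul _ _ (K * ((R : ℝ) + 1) ^ E.deg) fun q _ => le_trans ?_
      (E.card_fibre_le a R q)).trans (by rw [nsmul_eq_mul])
    exact_mod_cast card_le_card (filter_subset_filter _ (filter_subset _ _))
  refine (E.mass_le_gates hp0.le hp1 R hpa m hwK).trans ((sum_le_card_nsmul _ _ _ fun z hz =>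
    (mul_le_of_le_one_left (E.mass_nonneg hp0.le hp1 _ _ _) (tauIn_le_one _ hp0.le hp1 _ _)).trans
      (hmass z hz)).trans ?_)
  rw [nsmul_eq_mul]
  refine (mul_le_mul_of_nonneg_right hcardZ (by positivity)).trans ?_
  have h4 : ((R : ℝ) + 1) ^ E.deg * (((2 * R : ℕ) : ℝ) + 1) ^ E.deg ≤
      6 ^ E.deg * (R : ℝ) ^ (2 * E.deg) := by
    rw [← mul_pow, pow_mul, ← mul_pow]
    exact pow_le_pow_left₀ (by positivity) (by push_cast; nlinarith) _
  have hC : nF * K * K * 6 ^ E.deg ≤ R := (Nat.le_ceil _).trans (Nat.cast_le.2 (by omega))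
  calc nF * (K * ((R : ℝ) + 1) ^ E.deg) * (K * (((2 * R : ℕ) : ℝ) + 1) ^ E.deg * β)
      = nF * K * K * (((R : ℝ) + 1) ^ E.deg * (((2 * R : ℕ) : ℝ) + 1) ^ E.deg) * β := by ring
    _ ≤ nF * K * K * (6 ^ E.deg * (R : ℝ) ^ (2 * E.deg)) * β :=
        mul_le_mul_of_nonneg_right (mul_le_mul_of_nonneg_left h4 (by positivity)) hβ
    _ ≤ (R : ℝ) * (R : ℝ) ^ (2 * E.deg) * (1 / (R : ℝ) ^ (A + 2 * E.deg + 1)) := by
        refine mul_le_mul ?_ ?_ hβ (by positivity)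
        · rw [← mul_assoc]; exact mul_le_mul_of_nonneg_right hC (by positivity)
        · refine one_div_le_one_div_of_le (by positivity) (pow_le_pow_left₀ (by linarith) ?_ _)
          push_cast; linarith
    _ = 1 / (R : ℝ) ^ A := by
        rw [show A + 2 * E.deg + 1 = A + (2 * E.deg + 1) by ring, pow_add, pow_succ]
        field_simp

/-- The form bound, given the bound on the short words. -/
theorem exists_norm_of_near (hp : E.Crit p)
    (hnear : ∀ δ : ℝ, 0 < δ → ∃ R₀ : ℕ, ∀ R, R₀ ≤ R → ∀ a : Γ × O, E.pos a = 1 → ∀ J : ℕ,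
      ∑ w ∈ ballF (α := α) J, E.mass p (E.cyl a R) a w ≤ ((J : ℝ) + 1) * (R : ℝ) ^ δ)
    {ε : ℝ} (hε : 0 < ε) :
    ∃ R₀ : ℕ, ∀ R, R₀ ≤ R → ∀ (F H : Finset (Γ × O)) (f h : Γ × O → ℝ),
      (∀ x, 0 ≤ f x) → (∀ x, 0 ≤ h x) →
      ∑ x ∈ F, ∑ y ∈ H, f x * h y * tauIn E.nb (E.cyl x R) p x y
        ≤ (R : ℝ) ^ ε * Real.sqrt (∑ x ∈ F, f x ^ 2) * Real.sqrt (∑ y ∈ H, h y ^ 2) := by
  classical
  set q := 2 * E.deg + 1
  set δ := ε / 4 with hδdef
  have hδ : 0 < δ := by positivity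
  obtain ⟨Rn, hn⟩ := hnear δ hδ
  obtain ⟨Rf, hf'⟩ := E.exists_far hp (δ := δ / 2) (by positivity) (q + 4)
  obtain ⟨CX, hCX, hX⟩ := E.exists_ballSum hp
  obtain ⟨hp0, hp1, -⟩ := hp
  set N : ℝ := (Fintype.card O : ℝ)
  set C : ℝ := 12 * N * (2 : ℝ) ^ δ + 4 * (E.L : ℝ) ^ 2 * 9 * Real.sqrt (2 * N * (2 * N * CX * 3 ^ q))
  have hev : ∀ᶠ R : ℕ in Filter.atTop, C ≤ (R : ℝ) ^ (ε / 2) :=
    ((tendsto_rpow_atTop (by positivity)).comp tendsto_natCast_atTop_atTop).eventually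
      (Filter.eventually_ge_atTop _)
  obtain ⟨R₁, hR₁⟩ := Filter.eventually_atTop.1 hev
  refine ⟨Rn + Rf + R₁ + 2, fun R hR F H f h _ _ => (E.form_le_prof hp0.le hp1 R F H f h).trans ?_⟩
  have hR2 : (2 : ℝ) ≤ R := by exact_mod_cast (show 2 ≤ R by omega)
  have hR1 : (1 : ℝ) ≤ R := by linarith
  set J := ⌈(R : ℝ) ^ δ⌉₊
  set R' := E.L * (2 * R)
  set k : FreeGroup α → ℝ := fun w => E.prof p (2 * R) w + E.prof p (2 * R) w⁻¹
  set kf : FreeGroup α → ℝ := fun w => if J < w.norm then k w else 0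
  have hk0 : ∀ w, 0 ≤ k w := fun w =>
    add_nonneg (E.prof_nonneg hp0.le hp1 _ _) (E.prof_nonneg hp0.le hp1 _ _)
  have hkf0 : ∀ w, 0 ≤ kf w := fun w => by
    simp only [kf]; split_ifs
    exacts [hk0 w, le_rfl]
  set Fb : FreeGroup α → ℝ := fun u => Real.sqrt (∑ x ∈ F.filter (fun x => E.pos x = u), f x ^ 2)
  set Hb : FreeGroup α → ℝ := fun v => Real.sqrt (∑ y ∈ H.filter (fun y => E.pos y = v), h y ^ 2)
  have hinv : ∀ (n : ℕ) (φ : FreeGroup α → ℝ), ∑ w ∈ ballF n, φ w⁻¹ = ∑ w ∈ ballF n, φ w :=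
    fun n φ => sum_nbij' (·⁻¹) (·⁻¹) (by simp [mem_ballF_iff]) (by simp [mem_ballF_iff]) (by simp)
      (by simp) (by simp)
  have hksum : ∀ (n : ℕ) (B : ℝ), (∀ o : O,
      ∑ w ∈ ballF n, E.mass p (E.cyl ((1 : Γ), o) (2 * R)) ((1 : Γ), o) w ≤ B) →
      ∑ w ∈ ballF n, k w ≤ 2 * N * B := by
    intro n B hB
    have h1 : ∑ w ∈ ballF n, E.prof p (2 * R) w ≤ N * B := by
      simp only [prof]
      rw [sum_comm]
      exact (sum_le_card_nsmul _ _ B fun o _ => hB o).trans_eq (by rw [nsmul_eq_mul, card_univ])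
    simp only [k]
    rw [sum_add_distrib, hinv n (E.prof p (2 * R))]
    linarith
  have hpow2 : ((2 * R : ℕ) : ℝ) ^ δ = (2 : ℝ) ^ δ * (R : ℝ) ^ δ := by
    push_cast; rw [Real.mul_rpow (by norm_num) (Nat.cast_nonneg R)]
  have hshort : ∑ w ∈ ballF J, k w ≤ 12 * N * (2 : ℝ) ^ δ * (R : ℝ) ^ (ε / 2) := by
    refine (hksum J _ fun o => hn (2 * R) (by omega) ((1 : Γ), o) (map_one _) J).trans ?_
    have hJ : (J : ℝ) + 1 ≤ 3 * (R : ℝ) ^ δ := by
      have := Nat.ceil_lt_add_one (Real.rpow_nonneg (Nat.cast_nonneg R) δ)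
      have := Real.one_le_rpow hR1 hδ.le
      linarith
    rw [hpow2, show ε / 2 = δ + δ by rw [hδdef]; ring, Real.rpow_add (by linarith)]
    have h2 : 0 ≤ (2 : ℝ) ^ δ * (R : ℝ) ^ δ := by positivity
    have hN : 0 ≤ N := Nat.cast_nonneg _
    nlinarith [mul_le_mul_of_nonneg_right hJ h2, mul_nonneg hN h2, mul_nonneg hN (mul_nonneg h2
      (Real.rpow_nonneg (Nat.cast_nonneg R) δ))]
  have hlong : ((R' : ℝ) + 1) ^ 2 * Real.sqrt (∑ w ∈ ballF R', kf w ^ 2) ≤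
      4 * (E.L : ℝ) ^ 2 * 9 * Real.sqrt (2 * N * (2 * N * CX * 3 ^ q)) * (R : ℝ) ^ (ε / 2) := by
    have hsup : ∀ w : FreeGroup α, kf w ≤ 2 * N * (1 / ((2 * R : ℕ) : ℝ) ^ (q + 4)) := by
      intro w
      simp only [kf]
      split_ifs with hw
      swap
      · positivity
      have hw' : ((2 * R : ℕ) : ℝ) ^ (δ / 2) ≤ (w.norm : ℝ) := by
        refine le_trans ?_ ((Nat.le_ceil _).trans (Nat.cast_le.2 hw.le))
        refine (Real.rpow_le_rpow (Nat.cast_nonneg _) (show ((2 * R : ℕ) : ℝ) ≤ (R : ℝ) ^ 2 by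
          push_cast; nlinarith) (by positivity)).trans_eq ?_
        rw [← Real.rpow_natCast, ← Real.rpow_mul (Nat.cast_nonneg R)]
        congr 1; push_cast; ring
      have h1 : ∀ v : FreeGroup α, v.norm = w.norm →
          E.prof p (2 * R) v ≤ N * (1 / ((2 * R : ℕ) : ℝ) ^ (q + 4)) := fun v hv => by
        refine (sum_le_card_nsmul _ _ _ fun o _ =>
          hf' (2 * R) (by omega) ((1 : Γ), o) (map_one _) v (hv ▸ hw')).trans_eq ?_
        rw [nsmul_eq_mul, card_univ]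
      have := h1 w rfl
      have := h1 w⁻¹ norm_inv_eq
      simp only [k]
      linarith
    have hsum : ∑ w ∈ ballF R', kf w ≤ 2 * N * (CX * (((2 * R : ℕ) : ℝ) + 1) ^ q) := by
      refine (sum_le_sum fun w _ => ?_).trans (hksum R' _ fun o => le_trans ?_ (hX (2 * R) ((1 : Γ), o)))
      · simp only [kf]; split_ifs
        exacts [le_rfl, hk0 w]
      · refine le_of_eq (sum_fiberwise_of_maps_to (fun y hy => mem_ballF ?_) _)
        have h := E.mem_cyl.1 hy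
        rw [inv_one, one_mul] at h
        exact (E.lip _).trans (Nat.mul_le_mul le_rfl h)
    have hs : ∑ w ∈ ballF R', kf w ^ 2 ≤
        (2 * N * (1 / ((2 * R : ℕ) : ℝ) ^ (q + 4))) * (2 * N * (CX * (((2 * R : ℕ) : ℝ) + 1) ^ q)) := by
      refine (sum_le_sum fun w _ => (sq (kf w)).trans_le
        (mul_le_mul_of_nonneg_right (hsup w) (hkf0 w))).trans ?_
      rw [← mul_sum]
      exact mul_le_mul_of_nonneg_left hsum (by positivity)
    have hs' : ∑ w ∈ ballF R', kf w ^ 2 ≤ 2 * N * (2 * N * CX * 3 ^ q) * ((1 / (R : ℝ) ^ 2) ^ 2) := by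
      refine hs.trans ?_
      have h3 : (((2 * R : ℕ) : ℝ) + 1) ^ q ≤ 3 ^ q * (R : ℝ) ^ q := by
        rw [← mul_pow]
        exact pow_le_pow_left₀ (by positivity) (by push_cast; linarith) q
      have h4 : 1 / ((2 * R : ℕ) : ℝ) ^ (q + 4) ≤ 1 / (R : ℝ) ^ (q + 4) :=
        one_div_le_one_div_of_le (by positivity)
          (pow_le_pow_left₀ (by linarith) (by push_cast; linarith) _)
      calc 2 * N * (1 / ((2 * R : ℕ) : ℝ) ^ (q + 4)) * (2 * N * (CX * (((2 * R : ℕ) : ℝ) + 1) ^ q))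
          ≤ 2 * N * (1 / (R : ℝ) ^ (q + 4)) * (2 * N * (CX * (3 ^ q * (R : ℝ) ^ q))) := by gcongr
        _ = _ := by field_simp; ring
    have hR' : ((R' : ℝ) + 1) ^ 2 ≤ 4 * (E.L : ℝ) ^ 2 * 9 * (R : ℝ) ^ 2 := by
      have hL : (1 : ℝ) ≤ E.L := by exact_mod_cast E.one_le_L
      have h1 : (R' : ℝ) + 1 ≤ 6 * (E.L : ℝ) * R := by
        simp only [R']; push_cast; nlinarith
      calc ((R' : ℝ) + 1) ^ 2 ≤ (6 * (E.L : ℝ) * R) ^ 2 := pow_le_pow_left₀ (by positivity) h1 2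
        _ = _ := by ring
    refine (mul_le_mul hR' (Real.sqrt_le_sqrt hs') (Real.sqrt_nonneg _) (by positivity)).trans ?_
    rw [Real.sqrt_mul (by positivity), Real.sqrt_sq (by positivity)]
    refine le_of_eq_of_le ?_ (le_mul_of_one_le_right (by positivity) (Real.one_le_rpow hR1 (by positivity)))
    field_simp
  have hFb : ∀ (S : Finset (Γ × O)) (φ : Γ × O → ℝ),
      Real.sqrt (∑ u ∈ S.image E.pos,
        Real.sqrt (∑ x ∈ S.filter (fun x => E.pos x = u), φ x ^ 2) ^ 2) =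
      Real.sqrt (∑ x ∈ S, φ x ^ 2) := fun S φ => by
    rw [sum_congr rfl fun u _ => Real.sq_sqrt (sum_nonneg fun x _ => sq_nonneg (φ x)),
      sum_fiberwise_of_maps_to fun x hx => mem_image_of_mem E.pos hx]
  calc ∑ u ∈ F.image E.pos, ∑ v ∈ H.image E.pos, Fb u * Hb v * k (u⁻¹ * v)
      ≤ ∑ u ∈ F.image E.pos, ∑ v ∈ H.image E.pos,
          ((if (u⁻¹ * v).norm ≤ J then Fb u * Hb v * k (u⁻¹ * v) else 0) +
           (if (u⁻¹ * v).norm ≤ R' then Fb u * Hb v * kf (u⁻¹ * v) else 0)) := by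
        refine sum_le_sum fun u _ => sum_le_sum fun v _ => le_of_eq ?_
        rcases le_or_gt (u⁻¹ * v).norm J with hJ | hJ
        · simp [kf, hJ, not_lt.2 hJ]
        · rcases le_or_gt (u⁻¹ * v).norm R' with hR' | hR'
          · simp [kf, hJ, not_le.2 hJ, hR']
          · have hz : k (u⁻¹ * v) = 0 := by
              simp only [k]
              rw [E.prof_eq_zero hR', E.prof_eq_zero (by rw [norm_inv_eq]; exact hR'), add_zero]
            simp [not_le.2 hR', hz]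
    _ ≤ (∑ w ∈ ballF J, k w) * Real.sqrt (∑ u ∈ F.image E.pos, Fb u ^ 2) *
          Real.sqrt (∑ v ∈ H.image E.pos, Hb v ^ 2) +
        ((R' : ℝ) + 1) ^ 2 * Real.sqrt (∑ w ∈ ballF R', kf w ^ 2) *
          Real.sqrt (∑ u ∈ F.image E.pos, Fb u ^ 2) * Real.sqrt (∑ v ∈ H.image E.pos, Hb v ^ 2) := by
        simp only [sum_add_distrib]
        exact add_le_add (form_short J k Fb Hb hk0 _ _) (form_long R' kf Fb Hb _ _)
    _ ≤ (R : ℝ) ^ ε * Real.sqrt (∑ x ∈ F, f x ^ 2) * Real.sqrt (∑ y ∈ H, h y ^ 2) := by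
        simp only [Fb, Hb, hFb]
        rw [← add_mul, ← add_mul]
        refine mul_le_mul_of_nonneg_right (mul_le_mul_of_nonneg_right ?_ (Real.sqrt_nonneg _))
          (Real.sqrt_nonneg _)
        refine (add_le_add hshort hlong).trans ?_
        rw [← add_mul, ← add_halves ε, Real.rpow_add (by linarith), add_halves ε]
        exact mul_le_mul_of_nonneg_right (hR₁ R (by omega)) (by positivity)

/-- The form bound, given the bound on the own fibres. -/
theorem exists_norm_of_own (hp : E.Crit p)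
    (hown : ∀ {δ : ℝ}, 0 < δ → ∀ M : ℕ, ∃ R₀ : ℕ, ∀ R, R₀ ≤ R → ∀ (a : Γ × O) (q : FreeGroup α),
      ((E.pos a)⁻¹ * q).norm ≤ M → E.mass p (E.cyl a R) a q ≤ (R : ℝ) ^ δ)
    {ε : ℝ} (hε : 0 < ε) :
    ∃ R₀ : ℕ, ∀ R, R₀ ≤ R → ∀ (F H : Finset (Γ × O)) (f h : Γ × O → ℝ),
      (∀ x, 0 ≤ f x) → (∀ x, 0 ≤ h x) →
      ∑ x ∈ F, ∑ y ∈ H, f x * h y * tauIn E.nb (E.cyl x R) p x y
        ≤ (R : ℝ) ^ ε * Real.sqrt (∑ x ∈ F, f x ^ 2) * Real.sqrt (∑ y ∈ H, h y ^ 2) :=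
  E.exists_norm_of_near hp (fun _ hδ => E.exists_near_of_own hp hown hδ) hε

end Env

end Vale.Agent.P165.FP
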