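import Vale.Agent.P165.FP.Walks

/-!
# Half-space connection probabilities of the anchor

The probability `Psi` of joining the anchor to a half space inside the complement of a fixed one,
markers, the constant of one gluing and the bound on prefix-free codes.
-/

namespace Vale.Agent.P165.FP

open Finset FF

variable {Γ O ι α : Type} [Group Γ] [Fintype ι] [DecidableEq α] [Fintype α] [Fintype O]
  (E : Base Γ O ι α)

namespace Base

/-- The depth of the fixed half space. -/
noncomputable def R₁ : ℕ := E.L * E.leg + 2 * E.L + 2

/-- The root word of the fixed half space. -/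
noncomputable def b₀ : List (α × Bool) := List.replicate E.R₁ E.a₀

/-- The marker put after a word with last letter `x`. -/
noncomputable def mark (x : α × Bool) : List (α × Bool) :=
  E.pad x :: List.replicate E.R₁ (li E.a₀)

/-- Two code words with the marker between them. -/
noncomputable def join (u v : List (α × Bool)) : List (α × Bool) :=
  u ++ E.mark (u.getLastD E.a₀) ++ v

open Classical in
/-- The ball of radius `ρ` around the anchor, outside the fixed half space. -/
noncomputable def om (ρ : ℕ) : Finset (Γ × O) :=
  (E.cyl (1, E.o₁) ρ).filter fun x => x ∉ E.above 1 E.b₀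

/-- The number of edges of one gluing. -/
noncomputable def blockLen : ℕ := E.leg * (E.R₁ + E.L + 2)

/-- The cost of one gluing. -/
noncomputable def c₁ (p : ℝ) : ℝ := p ^ E.blockLen / 2

variable [DecidableEq Γ] [DecidableEq O]

/-- The chance of joining the anchor to the half space of `v` inside `om ρ`. -/
noncomputable def Psi (ρ : ℕ) (p : ℝ) (v : List (α × Bool)) : ℝ :=
  hit E.nb (E.om ρ) p (1, E.o₁) (E.above 1 v)

/-- The code bound with exponent `θ`. -/
def Bound (p θ : ℝ) : Prop :=
  ∀ (ρ : ℕ) (W : Finset (List (α × Bool))), PrefixFree W → (∀ v ∈ W, E.Strict v) →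
    E.c₁ p ^ θ * ∑ v ∈ W, E.Psi ρ p v ^ θ ≤ 1

/-- The parameters at which the argument works. -/
def Crit (p : ℝ) : Prop := 0 < p ∧ p ≤ 1 ∧ E.Bound p 1

end Base

end Vale.Agent.P165.FP
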