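import Vale.Agent.P165.FP.Insert
import Vale.Agent.P165.FP.Cross
import Vale.Agent.P165.FP.Chains

/-!
# The insertion at logarithmic range

Colourings of seeds, the exponential bound on balls, polylogarithms below powers, and the insertion
with all its parameters chosen as multiples of the logarithm of the radius.
-/

namespace Vale.Agent.P165.FP

open Finset FF Filter Asymptotics

/-- Greedy colouring. -/
theorem exists_colour {V : Type} [DecidableEq V] (Z : Finset V) (r : V → V → Prop) [DecidableRel r]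
    (hr : ∀ x y, r x y → r y x) {c : ℕ} (hc : 0 < c)
    (hdeg : ∀ z ∈ Z, (Z.filter fun z' => z' ≠ z ∧ r z z').card < c) :
    ∃ col : V → Fin c, ∀ z ∈ Z, ∀ z' ∈ Z, z ≠ z' → r z z' → col z ≠ col z' := by
  induction Z using Finset.induction_on with
  | empty => exact ⟨fun _ => ⟨0, hc⟩, by simp⟩
  | insert v Z hv ih =>
    obtain ⟨col, hcol⟩ := ih fun z hz => lt_of_le_of_lt
      (card_le_card (filter_subset_filter _ (subset_insert v Z))) (hdeg z (mem_insert_of_mem hz))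
    obtain ⟨i, hi⟩ : ∃ i : Fin c, i ∉ (Z.filter fun z' => r v z').image col := by
      by_contra hall
      push Not at hall
      have h1 : (univ : Finset (Fin c)) ⊆ (Z.filter fun z' => r v z').image col := fun i _ => hall i
      have h2 := (card_le_card h1).trans card_image_le
      rw [card_univ, Fintype.card_fin] at h2
      have h3 : (Z.filter fun z' => r v z').card ≤
          ((insert v Z).filter fun z' => z' ≠ v ∧ r v z').card :=
        card_le_card fun x hx => by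
          obtain ⟨hx1, hx2⟩ := mem_filter.1 hx
          exact mem_filter.2 ⟨mem_insert_of_mem hx1, fun h => hv (h ▸ hx1), hx2⟩
      have h4 := hdeg v (mem_insert_self v Z)
      omega
    refine ⟨fun x => if x = v then i else col x, fun z hz z' hz' hne h => ?_⟩
    rcases mem_insert.1 hz with rfl | hz
    · have hz'' := (mem_insert.1 hz').resolve_left fun e => hne e.symm
      simp only [if_true, if_neg (Ne.symm hne)]
      exact fun e => hi (mem_image.2 ⟨z', mem_filter.2 ⟨hz'', h⟩, e.symm⟩)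
    · have hzv : z ≠ v := fun e => hv (e ▸ hz)
      rcases mem_insert.1 hz' with rfl | hz'
      · simp only [if_true, if_neg hzv]
        exact fun e => hi (mem_image.2 ⟨z, mem_filter.2 ⟨by assumption, hr _ _ h⟩, e⟩)
      · simp only [if_neg hzv, if_neg fun e : z' = v => hv (e ▸ hz')]
        exact hcol z hz z' hz' hne h

/-- A power of the logarithm is below every power. -/
theorem polylog_le (C : ℝ) (a : ℕ) {ε : ℝ} (hε : 0 < ε) :
    ∃ R₀ : ℕ, 1 ≤ R₀ ∧ ∀ R, R₀ ≤ R → C * ((Nat.log 2 R : ℝ) + 1) ^ a ≤ (R : ℝ) ^ ε := by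
  set r : ℝ := (2 : ℝ) ^ ε
  have hr : 1 < r := Real.one_lt_rpow one_lt_two hε
  have h := (isLittleO_pow_const_const_pow_of_one_lt (R := ℝ) a hr).bound
    (show (0 : ℝ) < 1 / (max C 1 * 2 ^ a) by positivity)
  obtain ⟨n₀, hn₀⟩ := eventually_atTop.1 h
  refine ⟨2 ^ (n₀ + 1), Nat.one_le_two_pow, fun R hR => ?_⟩
  set n := Nat.log 2 R
  have hR1 : 1 ≤ R := le_trans Nat.one_le_two_pow hR
  have hn : n₀ + 1 ≤ n := Nat.le_log_of_pow_le one_lt_two hR
  have hb := hn₀ n (by omega)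
  rw [Real.norm_eq_abs, Real.norm_eq_abs, abs_of_nonneg (by positivity),
    abs_of_nonneg (by positivity), div_mul_eq_mul_div, one_mul, le_div_iff₀ (by positivity)] at hb
  have h2 : r ^ n ≤ (R : ℝ) ^ ε := by
    rw [← Real.rpow_natCast, ← Real.rpow_mul (by norm_num), mul_comm, Real.rpow_mul (by norm_num),
      Real.rpow_natCast]
    refine Real.rpow_le_rpow (by positivity) ?_ hε.le
    exact_mod_cast Nat.pow_log_le_self 2 (by omega)
  have h3 : ((n : ℝ) + 1) ^ a ≤ 2 ^ a * (n : ℝ) ^ a := by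
    rw [← mul_pow]
    refine pow_le_pow_left₀ (by positivity) ?_ a
    have : (1 : ℝ) ≤ n := by exact_mod_cast (by omega : 1 ≤ n)
    linarith
  calc C * ((n : ℝ) + 1) ^ a ≤ max C 1 * (2 ^ a * (n : ℝ) ^ a) :=
        mul_le_mul (le_max_left _ _) h3 (by positivity) (by positivity)
    _ = (n : ℝ) ^ a * (max C 1 * 2 ^ a) := by ring
    _ ≤ r ^ n := hb
    _ ≤ (R : ℝ) ^ ε := h2

theorem card_wordsLE_le {α : Type} [DecidableEq α] [Fintype α] (n : ℕ) :
    (wordsLE n : Finset (List (α × Bool))).card ≤ (Fintype.card (α × Bool) + 1) ^ n := by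
  induction n with
  | zero => simp [wordsLE]
  | succ n ih =>
    refine le_trans (Finset.card_insert_le _ _) ?_
    refine le_trans (Nat.add_le_add_right card_image_le 1) ?_
    rw [card_product, card_univ]
    have h1 : 1 ≤ (Fintype.card (α × Bool) + 1) ^ n := Nat.one_le_pow _ _ (Nat.succ_pos _)
    calc Fintype.card (α × Bool) * (wordsLE n : Finset (List (α × Bool))).card + 1
        ≤ Fintype.card (α × Bool) * (Fintype.card (α × Bool) + 1) ^ n +
            (Fintype.card (α × Bool) + 1) ^ n := add_le_add (Nat.mul_le_mul le_rfl ih) h1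
      _ = _ := by ring

namespace Env

open Base

variable {Γ O ι α : Type} [Group Γ] [Fintype ι] [DecidableEq α] [Fintype α] [Fintype O]
  (E : Env Γ O ι α)

theorem cyl_mono (a : Γ × O) {R R' : ℕ} (h : R ≤ R') : E.cyl a R ⊆ E.cyl a R' := fun _ hx =>
  E.mem_cyl.2 ((E.mem_cyl.1 hx).trans h)

theorem self_mem_cyl (a : Γ × O) (R : ℕ) : a ∈ E.cyl a R :=
  E.mem_cyl.2 (by rw [inv_mul_cancel, E.len_one]; exact Nat.zero_le _)

theorem mem_cyl_symm {a x : Γ × O} {R : ℕ} (h : x ∈ E.cyl a R) : a ∈ E.cyl x R := by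
  refine E.mem_cyl.2 ?_
  rw [← E.len_inv, mul_inv_rev, inv_inv]
  exact E.mem_cyl.1 h

theorem cyl_trans {a x y : Γ × O} {R R' : ℕ} (hx : x ∈ E.cyl a R) (hy : y ∈ E.cyl x R') :
    y ∈ E.cyl a (R + R') := by
  refine E.mem_cyl.2 ?_
  have h := E.len_mul (a.1⁻¹ * x.1) (x.1⁻¹ * y.1)
  rw [mul_assoc, mul_inv_cancel_left] at h
  exact h.trans (add_le_add (E.mem_cyl.1 hx) (E.mem_cyl.1 hy))

/-- Balls grow at most exponentially. -/
theorem card_cyl_le : ∃ B : ℕ, 1 ≤ B ∧ ∀ (a : Γ × O) (D : ℕ), (E.cyl a D).card ≤ B ^ (D + 1) := by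
  classical
  set K1 := Fintype.card O * E.Cg
  set k := Fintype.card (α × Bool) + 1
  set q := (2 ^ 2) ^ E.deg * k ^ E.L
  refine ⟨K1 + q + 1, by omega, fun a D => ?_⟩
  have hfib : (E.cyl a D).card ≤ (ballF (α := α) (E.L * D)).card * (K1 * (2 * D + 1) ^ E.deg) := by
    rw [card_eq_sum_card_fiberwise (f := fun x : Γ × O => (E.pos a)⁻¹ * E.pos x)
      (t := ballF (E.L * D)) fun x hx => mem_coe.2 (mem_ballF_iff.2 (by
        show ((E.pos a)⁻¹ * E.pos x).norm ≤ _
        rw [E.pos_diff]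
        exact (E.lip _).trans (Nat.mul_le_mul le_rfl (E.mem_cyl.1 hx))))]
    refine (sum_le_card_nsmul _ _ (K1 * (2 * D + 1) ^ E.deg) fun u _ => ?_).trans
      (by rw [smul_eq_mul])
    refine (card_le_card (t := (E.cyl a D).filter fun y => E.pos y = E.pos a * u) fun x hx => ?_).trans
      ((E.card_fibre a D _).trans ?_)
    · obtain ⟨h1, h2⟩ := mem_filter.1 hx
      exact mem_filter.2 ⟨h1, by rw [← h2, mul_inv_cancel_left]⟩
    · rw [Nat.mul_assoc]
      exact Nat.mul_le_mul le_rfl (E.growth _)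
  have hball : (ballF (α := α) (E.L * D)).card ≤ (k ^ E.L) ^ D := by
    rw [← pow_mul]
    exact card_image_le.trans (card_wordsLE_le _)
  have hlin : 2 * D + 1 ≤ (2 ^ 2) ^ D := by
    rw [← pow_mul]
    exact Nat.lt_two_pow_self
  calc (E.cyl a D).card ≤ (k ^ E.L) ^ D * (K1 * ((2 ^ 2) ^ D) ^ E.deg) :=
        hfib.trans (Nat.mul_le_mul hball (Nat.mul_le_mul le_rfl (Nat.pow_le_pow_left hlin _)))
    _ = K1 * q ^ D := by
        simp only [q, mul_pow, ← pow_mul]
        ring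
    _ ≤ (K1 + q + 1) * (K1 + q + 1) ^ D :=
        Nat.mul_le_mul (by omega) (Nat.pow_le_pow_left (by omega) D)
    _ = (K1 + q + 1) ^ (D + 1) := by ring

variable [DecidableEq Γ] [DecidableEq O] {p : ℝ}

/-- The connections inside any ball, summed, are polynomial in the radius. -/
theorem exists_ballSum (hp : E.Crit p) : ∃ C : ℝ, 0 ≤ C ∧ ∀ (R : ℕ) (a : Γ × O),
    ∑ y ∈ E.cyl a R, tauIn E.nb (E.cyl a R) p a y ≤ C * ((R : ℝ) + 1) ^ (2 * E.deg + 1) := by
  classical
  obtain ⟨hp0, hp1, hB⟩ := hp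
  obtain ⟨C, hC, h⟩ := E.code_hit hp0 hp1 one_pos le_rfl hB (E.L + 1)
  exact E.exists_X_of_code hp0.le hp1 hC fun o R m z hz hn W hW hW' =>
    (h m W hW hW' (fun _ => 1) (fun _ => z) (fun _ => E.side (1, o) R m)
      fun v _ => ⟨fun x hx => by simp only [side, mem_filter] at hx; exact hx.2, hz,
        by simpa using hn⟩).2

/-- The insertion, all parameters chosen. -/
theorem insert_step (hp : E.Crit p) (C : ℕ) {κ : ℝ} (hκ : 0 < κ) (b : ℕ) {ε : ℝ} (hε : 0 < ε)
    (A₀ : ℕ) : ∃ R₀ : ℕ, 1 ≤ R₀ ∧ ∀ R, R₀ ≤ R → ∀ (a : Γ × O) (U S : Finset (Γ × O)), U ⊆ S →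
      ∀ (Z : Finset (Γ × O)) (m : ℕ) (e : α × Bool) (T : Set (Γ × O))
        (A : Finset (Sym2 (Γ × O)) → Prop),
      Z ⊆ U → 1 ≤ m → m ≤ 2 ^ (b * (Nat.log 2 R + 1)) →
      (∀ z ∈ Z, ∀ z' ∈ Z, z ≠ z' → 2 * (C * (Nat.log 2 m + 1)) < E.len (z.1⁻¹ * z'.1)) →
      (∀ z ∈ Z, E.chainSet z e C m ⊆ S) →
      (∀ z ∈ Z, κ / m ≤ hit E.nb (E.chainSet z e C m) p z T) →
      Inc A →
      (∀ η η', η ⊆ inE E.nb S → η' ⊆ inE E.nb S →
        (∀ f ∈ inE E.nb U, (∃ v ∈ f, FXZ.InC U a η v) → (f ∈ η ↔ f ∈ η')) → A η → A η') →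
      (∀ η, η ⊆ inE E.nb S → A η → m ≤ {z | z ∈ Z ∧ FXZ.InC U a η z}.ncard) →
      avg (inE E.nb S) p (fun η => ind (A η))
        ≤ (R : ℝ) ^ ε * avg (inE E.nb S) p (fun η => ind (A η ∧ FXZ.Hit T a η))
          + 1 / (R : ℝ) ^ A₀ *
            ∑ z ∈ Z, ∑ y ∈ E.cyl z (C * (Nat.log 2 m + 1)), tauIn E.nb U p a y := by
  classical
  obtain ⟨hp0, hp1, -⟩ := id hp
  obtain ⟨CX, hCX, hX⟩ := E.exists_ballSum hp
  obtain ⟨B₀, hB₀, hB⟩ := E.card_cyl_le
  set ω₀ : ℝ := 1 - Real.exp (-κ)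
  have hω : 0 < ω₀ := sub_pos.2 (Real.exp_lt_one_iff.2 (by linarith))
  set q := 2 * E.deg + 1
  set X0 : ℕ := ⌈CX⌉₊ + 1
  set j₀ : ℕ := ⌈(Fintype.card ι : ℝ) / (p * ω₀)⌉₊
  -- every parameter is linear in the logarithm
  set a₂ : ℕ := B₀ * (C * (b + 1) + 1) + 1
  set kc : ℕ := a₂ + A₀ + j₀ + 1
  set P : ℕ := kc * (2 * X0 * (2 * (C * (b + 1)) + 1) ^ q + 1)
  obtain ⟨R₀, hR₀, hlog⟩ := polylog_le ((1 + 1 / p * ((P : ℝ) + 1)) / ω₀) (q + 1) hε
  refine ⟨R₀, hR₀, fun R hR a U S hUS Z m e T A hZU hm hmb hsep hBS hhit hA hdet hcount => ?_⟩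
  set l := Nat.log 2 R + 1 with hl
  set D := C * (Nat.log 2 m + 1) with hD
  have hlogm : Nat.log 2 m ≤ b * l := by
    refine (Nat.log_mono_right hmb).trans ?_
    rw [Nat.log_pow one_lt_two]
  have hl1 : 1 ≤ l := Nat.le_add_left 1 _
  have hDl : D ≤ C * (b + 1) * l := by
    rw [hD, mul_assoc]
    refine Nat.mul_le_mul le_rfl ?_
    rw [add_mul, one_mul]
    exact add_le_add hlogm hl1
  -- a bound on the balls
  set Nb := 2 ^ (a₂ * l) with hNb
  have hball : ∀ z, (E.cyl z D).card < Nb := fun z => by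
    refine lt_of_le_of_lt ((hB z D).trans ((Nat.pow_le_pow_left Nat.lt_two_pow_self.le _).trans
      (le_of_eq (pow_mul 2 B₀ (D + 1)).symm))) (Nat.pow_lt_pow_right one_lt_two ?_)
    calc B₀ * (D + 1) < B₀ * (D + 1) + 1 := Nat.lt_succ_self _
      _ ≤ a₂ * l := by
          simp only [a₂]
          rw [add_mul, one_mul, mul_assoc]
          refine add_le_add (Nat.mul_le_mul le_rfl ?_) hl1
          rw [add_mul, one_mul]
          exact add_le_add hDl hl1
  set k := kc * l with hk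
  set Xn := X0 * (2 * D + 1) ^ q with hXn
  set K := k * (2 * Xn + 1) with hK
  have hkK : k ≤ K := Nat.le_mul_of_pos_right k (Nat.succ_pos _)
  have hXb : ∀ z ∈ Z, ∀ x, ∑ y ∈ E.chainSet z e C m,
      tauIn E.nb (E.chainSet z e C m) p x y ≤ (Xn : ℝ) := by
    intro z _ x
    set B := E.chainSet z e C m
    have hBc : B ⊆ E.cyl z D := fun y hy => E.mem_cyl.2 (E.mem_chainSet.1 hy).1
    have hX1 : (1 : ℝ) ≤ Xn := by exact_mod_cast (Nat.one_le_iff_ne_zero.2 (by positivity))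
    by_cases hx : x ∈ B
    · have hsub : B ⊆ E.cyl x (2 * D) := fun y hy => by
        rw [two_mul]; exact E.cyl_trans (E.mem_cyl_symm (hBc hx)) (hBc hy)
      refine (sum_le_sum_of_subset_of_nonneg hsub fun y _ _ => FF.tauIn_nonneg B hp0.le hp1 x y).trans
        ((sum_le_sum fun y _ => FF.tauIn_mono E.hl hsub hp0.le hp1 x y).trans ((hX (2 * D) x).trans ?_))
      simp only [hXn]
      push_cast
      refine mul_le_mul_of_nonneg_right ?_ (by positivity)
      have h2 : CX ≤ (⌈CX⌉₊ : ℝ) := Nat.le_ceil CX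
      simp only [X0]
      push_cast
      linarith
    · refine (sum_le_sum (g := fun y => if x = y then (1 : ℝ) else 0) fun y _ => ?_).trans ?_
      · split_ifs with h
        · exact FF.tauIn_le_one _ hp0.le hp1 _ _
        · exact le_of_eq (FF.tauIn_eq_zero h (Or.inl hx) p)
      · rw [sum_ite_eq, if_neg hx]; exact Nat.cast_nonneg _
  -- the binomial gain
  have hgain : (Xn : ℝ) ^ k / (K.choose k : ℝ) ≤ 1 / 2 ^ k := by
    rw [div_le_div_iff₀ (by exact_mod_cast Nat.choose_pos hkK) (by positivity), one_mul, ← mul_pow]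
    refine le_trans ?_ (Nat.pow_le_choose k K)
    rw [le_div_iff₀ (by exact_mod_cast Nat.factorial_pos k)]
    calc ((Xn : ℝ) * 2) ^ k * (k.factorial : ℝ) ≤ ((Xn : ℝ) * 2) ^ k * (k : ℝ) ^ k :=
          mul_le_mul_of_nonneg_left (by exact_mod_cast Nat.factorial_le_pow k) (by positivity)
      _ = (((Xn * 2 * k : ℕ)) : ℝ) ^ k := by push_cast; rw [← mul_pow]
      _ ≤ (((K + 1 - k : ℕ)) : ℝ) ^ k := by
          refine pow_le_pow_left₀ (Nat.cast_nonneg _) (Nat.cast_le.2 ?_) k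
          have : K = Xn * 2 * k + k := by rw [hK]; ring
          omega
  -- the trials
  set β := κ / (m : ℝ)
  have hsucc : ω₀ * avg (inE E.nb S) p (fun η => ind (A η))
      ≤ (1 - (1 - β) ^ m) * avg (inE E.nb S) p (fun η => ind (A η)) := by
    by_cases hex : ∃ η, η ⊆ inE E.nb S ∧ A η
    · obtain ⟨η, hη, hAη⟩ := hex
      obtain ⟨z, hz, -⟩ : ∃ z, z ∈ Z ∧ FXZ.InC U a η z :=
        Set.nonempty_of_ncard_ne_zero (s := {z | z ∈ Z ∧ FXZ.InC U a η z})
          (by have := hcount η hη hAη; omega)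
      have hβ1 : β ≤ 1 := (hhit z hz).trans (hit_le_one _ hp0.le hp1 _ _)
      refine mul_le_mul_of_nonneg_right ?_ (avg_nonneg _ hp0.le hp1 fun _ _ => ind_nonneg _)
      have h1 : (1 - β) ^ m ≤ Real.exp (-β) ^ m := pow_le_pow_left₀ (by linarith)
        (by have := Real.add_one_le_exp (-β); linarith) m
      rw [← Real.exp_nat_mul, mul_neg, mul_div_cancel₀ _ (by positivity : (m : ℝ) ≠ 0)] at h1
      linarith
    · have h0 : avg (inE E.nb S) p (fun η => ind (A η)) = 0 := by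
        rw [avg_congr (inE E.nb S) p (f := fun η => ind (A η)) (g := fun _ => (0 : ℝ))
          fun η hη => if_neg fun h => hex ⟨η, hη, h⟩]
        simp [avg]
      rw [h0, mul_zero, mul_zero]
  have hins := insertion E.hl hp0 hp1 U S hUS a Z hZU 1 (fun _ => 0)
    (fun z => E.chainSet z e C m) hBS
    (fun z hz z' hz' _ hne => disjoint_left.2 fun y hy hy' => not_le.2 (hsep z hz z' hz' hne) (by
      have h1 := E.cyl_trans (E.mem_cyl.2 (E.mem_chainSet.1 hy).1)
        (E.mem_cyl_symm (E.mem_cyl.2 (E.mem_chainSet.1 hy').1))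
      rw [E.mem_cyl] at h1
      omega))
    T (div_nonneg hκ.le (Nat.cast_nonneg m)) hhit A hA hdet m
    (fun η hη h => by rw [Nat.cast_one, one_mul]; exact_mod_cast hcount η hη h) hXb Nb
    (fun z hz => lt_of_le_of_lt (card_le_card fun y hy => E.mem_cyl.2 (E.mem_chainSet.1 hy).1)
      (hball z)) k K hkK
  have h := hsucc.trans hins
  have hp' : 0 ≤ (1 - p) / p := div_nonneg (by linarith) hp0.le
  have hp'' : (1 - p) / p ≤ 1 / p := div_le_div_of_nonneg_right (by linarith) hp0.le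
  have hG : 0 ≤ avg (inE E.nb S) p (fun η => ind (A η ∧ FXZ.Hit T a η)) :=
    avg_nonneg _ hp0.le hp1 fun _ _ => ind_nonneg _
  have hSn : ∀ z, 0 ≤ ∑ y ∈ E.cyl z D, tauIn E.nb U p a y := fun z =>
    sum_nonneg fun y _ => FF.tauIn_nonneg U hp0.le hp1 a y
  have hsum : ∑ z ∈ Z, ∑ y ∈ E.chainSet z e C m, tauIn E.nb U p a y
      ≤ ∑ z ∈ Z, ∑ y ∈ E.cyl z D, tauIn E.nb U p a y :=
    sum_le_sum fun z _ => sum_le_sum_of_subset_of_nonneg
      (fun y hy => E.mem_cyl.2 (E.mem_chainSet.1 hy).1)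
      fun y _ _ => FF.tauIn_nonneg U hp0.le hp1 a y
  have hmain : (1 + (1 - p) / p * ((K : ℝ) + 1)) / ω₀ ≤ (R : ℝ) ^ ε := by
    refine le_trans ?_ (hlog R hR)
    rw [div_mul_eq_mul_div (1 + 1 / p * ((P : ℝ) + 1))]
    refine div_le_div_of_nonneg_right ?_ hω.le
    have hKP : (K : ℝ) ≤ (P : ℝ) * ((Nat.log 2 R : ℝ) + 1) ^ (q + 1) := by
      have : K ≤ P * l ^ (q + 1) := by
        have h1 : (2 * D + 1) ^ q ≤ (2 * (C * (b + 1)) + 1) ^ q * l ^ q := by
          rw [← mul_pow]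
          refine Nat.pow_le_pow_left ?_ q
          rw [add_mul, one_mul, mul_assoc 2 (C * (b + 1)) l]
          exact add_le_add (Nat.mul_le_mul le_rfl hDl) hl1
        have h2 : 1 ≤ l ^ q := Nat.one_le_pow _ _ hl1
        calc K = kc * (2 * (X0 * (2 * D + 1) ^ q) + 1) * l := by simp only [hK, hk, hXn]; ring
          _ ≤ kc * (2 * (X0 * ((2 * (C * (b + 1)) + 1) ^ q * l ^ q)) + l ^ q) * l := by gcongr
          _ = P * l ^ (q + 1) := by simp only [P]; ring
      calc (K : ℝ) ≤ ((P * l ^ (q + 1) : ℕ) : ℝ) := by exact_mod_cast this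
        _ = _ := by simp only [hl]; push_cast; ring
    have h1 : (1 : ℝ) ≤ ((Nat.log 2 R : ℝ) + 1) ^ (q + 1) :=
      one_le_pow₀ (by linarith [(Nat.cast_nonneg _ : (0 : ℝ) ≤ (Nat.log 2 R : ℝ))])
    calc 1 + (1 - p) / p * ((K : ℝ) + 1) ≤ 1 + 1 / p * ((P : ℝ) * ((Nat.log 2 R : ℝ) + 1) ^ (q + 1) + 1) :=
          add_le_add le_rfl (mul_le_mul hp'' (by linarith) (by positivity) (by positivity))
      _ ≤ _ := by
          have h2 : 0 ≤ 1 / p := by positivity
          nlinarith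
  have herr : (1 - p) / p * Nb * Fintype.card ι * ((Xn : ℝ) ^ k / (K.choose k : ℝ)) / ω₀
      ≤ 1 / (R : ℝ) ^ A₀ := by
    have hR1 : 1 ≤ R := le_trans hR₀ hR
    have hR2 : (R : ℝ) ≤ 2 ^ l := by
      have := Nat.lt_pow_succ_log_self one_lt_two R
      exact_mod_cast this.le
    have hj : (Fintype.card ι : ℝ) / (p * ω₀) ≤ 2 ^ j₀ :=
      (Nat.le_ceil _).trans (by exact_mod_cast Nat.lt_two_pow_self.le)
    calc (1 - p) / p * Nb * Fintype.card ι * ((Xn : ℝ) ^ k / (K.choose k : ℝ)) / ω₀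
        ≤ 1 / p * Nb * Fintype.card ι * (1 / 2 ^ k) / ω₀ := by gcongr
      _ = (Fintype.card ι : ℝ) / (p * ω₀) * (Nb : ℝ) / 2 ^ k := by field_simp
      _ ≤ 2 ^ j₀ * 2 ^ (a₂ * l) / 2 ^ k := by
          refine div_le_div_of_nonneg_right (mul_le_mul hj ?_ (Nat.cast_nonneg _) (by positivity))
            (by positivity)
          simp [hNb]
      _ ≤ 1 / 2 ^ (A₀ * l) := by
          rw [div_le_div_iff₀ (by positivity) (by positivity), one_mul, ← pow_add, ← pow_add]
          refine pow_le_pow_right₀ one_le_two ?_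
          have h1 : j₀ ≤ j₀ * l := Nat.le_mul_of_pos_right _ hl1
          have h2 : k = a₂ * l + A₀ * l + j₀ * l + l := by simp only [hk, kc]; ring
          omega
      _ ≤ 1 / (R : ℝ) ^ A₀ := by
          refine one_div_le_one_div_of_le (by positivity) ?_
          rw [mul_comm A₀, pow_mul]
          exact pow_le_pow_left₀ (Nat.cast_nonneg R) hR2 A₀
  rw [← le_div_iff₀' hω, add_div] at h
  refine h.trans (add_le_add ?_ ?_)
  · rw [mul_div_right_comm]; exact mul_le_mul_of_nonneg_right hmain hG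
  · rw [mul_div_right_comm]
    exact mul_le_mul herr hsum (sum_nonneg fun z _ => sum_nonneg fun y _ =>
      FF.tauIn_nonneg U hp0.le hp1 a y) (by positivity)

end Env

end Vale.Agent.P165.FP
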