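import Vale.Agent.P165.FP.Scale

/-!
# The expected number of points over a code-compatible family of fibres

Seeds of one colour reach a chain target at the cost of a power of the logarithm; the code bound
then sums the targets of the whole family.
-/

namespace Vale.Agent.P165.FP

open Finset FF FreeGroup

section General

theorem sum_le_rpow {β : Type} (s : Finset β) {g : β → ℝ} {θ B : ℝ} (hθ : 0 < θ) (hθ1 : θ ≤ 1)
    (hg : ∀ i ∈ s, 0 ≤ g i) (hB : ∑ i ∈ s, g i ^ θ ≤ B) : ∑ i ∈ s, g i ≤ B ^ (1 / θ) := by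
  have hB0 : 0 ≤ B := (sum_nonneg fun i hi => Real.rpow_nonneg (hg i hi) θ).trans hB
  have hle : ∀ i ∈ s, g i ≤ g i ^ θ * (B ^ (1 / θ)) ^ (1 - θ) := by
    intro i hi
    have h1 : g i ≤ B ^ (1 / θ) := by
      have h2 : g i ^ θ ≤ B :=
        (single_le_sum (fun j hj => Real.rpow_nonneg (hg j hj) θ) hi).trans hB
      have h3 := Real.rpow_le_rpow (Real.rpow_nonneg (hg i hi) _) h2 (one_div_nonneg.2 hθ.le)
      rwa [← Real.rpow_mul (hg i hi), mul_one_div, div_self hθ.ne', Real.rpow_one] at h3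
    calc g i = g i ^ θ * g i ^ (1 - θ) := by
          rw [← Real.rpow_add' (hg i hi) (by ring_nf; norm_num), add_sub_cancel, Real.rpow_one]
      _ ≤ _ := mul_le_mul_of_nonneg_left (Real.rpow_le_rpow (hg i hi) h1 (by linarith))
          (Real.rpow_nonneg (hg i hi) θ)
  refine (sum_le_sum hle).trans ?_
  rw [← sum_mul]
  refine (mul_le_mul_of_nonneg_right hB (Real.rpow_nonneg (Real.rpow_nonneg hB0 _) _)).trans
    (le_of_eq ?_)
  rw [← Real.rpow_mul hB0]
  nth_rewrite 1 [← Real.rpow_one B]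
  have e : 1 + 1 / θ * (1 - θ) = 1 / θ := by field_simp; ring
  rw [← Real.rpow_add' hB0 (by rw [e]; positivity), e]

/-- Summing a power slightly above minus one. -/
theorem sum_rpow_le (N : ℕ) {δ : ℝ} (hδ : 0 < δ) :
    ∑ j ∈ range N, ((j : ℝ) + 1) ^ (δ - 1) ≤ (1 + 1 / δ) * ((N : ℝ) ^ δ) ^ 2 := by
  rcases Nat.eq_zero_or_pos N with rfl | hN
  · simp [Real.zero_rpow hδ.ne']
  have hN1 : (1 : ℝ) ≤ N := by exact_mod_cast hN
  have hNδ : (1 : ℝ) ≤ (N : ℝ) ^ δ := Real.one_le_rpow hN1 hδ.le
  have h1 : ∀ j ∈ range N, ((j : ℝ) + 1) ^ (δ - 1) ≤ (N : ℝ) ^ δ * ((j : ℝ) + 1)⁻¹ := fun j hj => by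
    rw [Real.rpow_sub (by positivity), Real.rpow_one, div_eq_mul_inv]
    refine mul_le_mul_of_nonneg_right (Real.rpow_le_rpow (by positivity) ?_ hδ.le) (by positivity)
    exact_mod_cast mem_range.1 hj
  refine (sum_le_sum h1).trans ?_
  rw [← mul_sum]
  have h2 : ∑ j ∈ range N, ((j : ℝ) + 1)⁻¹ ≤ 1 + (N : ℝ) ^ δ / δ := by
    refine le_trans ?_ (le_trans (harmonic_le_one_add_log N)
      (add_le_add le_rfl (Real.log_le_rpow_div (by positivity) hδ)))
    simp [harmonic]
  refine (mul_le_mul_of_nonneg_left h2 (by positivity)).trans ?_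
  have h3 : 0 ≤ 1 / δ := by positivity
  rw [div_eq_mul_one_div _ δ]
  nlinarith

variable {α : Type} [DecidableEq α]

theorem head_rel_of_not_prefix {n : ℕ} {b : α × Bool} {y : List (α × Bool)}
    (h : ¬ List.replicate n b <+: y) : (rel (List.replicate n b) y).head? = some (li b) := by
  obtain ⟨h1, -, h3, -⟩ := lcp_spec (List.replicate n b) y
  set k := lcp (List.replicate n b) y with hk
  have hkn : k < n := by
    rw [List.length_replicate] at h1
    refine lt_of_le_of_ne h1 fun e => h ?_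
    rw [e, List.take_replicate, min_self] at h3
    exact h3 ▸ List.take_prefix _ _
  rw [rel, ← hk, List.drop_replicate, invRev_replicate]
  obtain ⟨j, hj⟩ : ∃ j, n - k = j + 1 := ⟨n - k - 1, by omega⟩
  simp [hj, List.replicate_succ]

/-- A word beginning with the inverse letter only gets longer. -/
theorem rel_replicate_of_head {n : ℕ} {b : α × Bool} {y : List (α × Bool)}
    (h : y.head? ≠ some b) : rel (List.replicate n b) y = List.replicate n (li b) ++ y := by
  rw [rel, lcp_zero _ _ fun x hx z hz e => h (by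
    rw [Option.mem_def] at hx hz
    cases n with
    | zero => simp at hx
    | succ n =>
      simp only [List.replicate_succ, List.head?_cons, Option.some.injEq] at hx
      rw [hz, hx, e]), List.drop_zero, List.drop_zero, invRev_replicate]

end General

namespace Env

open Base

variable {Γ O ι α : Type} [Group Γ] [Fintype ι] [DecidableEq α] [Fintype α] [Fintype O]
  [DecidableEq Γ] [DecidableEq O] (E : Env Γ O ι α) {p : ℝ}

omit [Fintype O] in
theorem inC_agree {U S : Finset (Γ × O)} {a : Γ × O} {η η' : Finset (Sym2 (Γ × O))}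
    (hη : η ⊆ inE E.nb S)
    (h : ∀ f ∈ inE E.nb U, (∃ v ∈ f, FXZ.InC U a η v) → (f ∈ η ↔ f ∈ η')) {z : Γ × O}
    (hz : FXZ.InC U a η z) : FXZ.InC U a η' z := by
  classical
  obtain ⟨w⟩ := hz
  refine cl_of_walk w fun f hf => ?_
  have hfE := w.edges_subset_edgeSet hf
  rw [SimpleGraph.edgeSet_fromEdgeSet] at hfE
  obtain ⟨hfη, hfU⟩ := mem_filter.1 (mem_coe.1 hfE.1)
  induction f using Sym2.ind with
  | _ u v =>
    have hin : s(u, v) ∈ inE E.nb U := (inE_iff E.hl).2 ⟨((inE_iff E.hl).1 (hη hfη)).1, hfU⟩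
    exact mem_filter.2 ⟨(h _ hin ⟨u, Sym2.mem_mk_left u v,
      ⟨w.takeUntil u (w.fst_mem_support_of_mem_edges hf)⟩⟩).1 hfη, hfU⟩

omit [Fintype O] in
theorem avg_inC {U S : Finset (Γ × O)} (hUS : U ⊆ S) (a y : Γ × O) :
    avg (inE E.nb S) p (fun η => ind (FXZ.InC U a η y)) = tauIn E.nb U p a y := by
  classical
  have hsplit := avg_split (inE_mono E.hl hUS) p (fun η => ind (cl η a y)) fun _ => (1 : ℝ)
  simp only [mul_one, avg_one] at hsplit
  rw [FF.tauIn_eq, ← hsplit]
  refine avg_congr _ _ fun η hη => congrArg ind (propext ?_)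
  have e : η.filter (fun e => ∀ u ∈ e, u ∈ U) = η ∩ inE E.nb U := by
    ext e
    simp only [mem_filter, mem_inter]
    exact ⟨fun h => ⟨h.1, (inE_iff E.hl).2 ⟨((inE_iff E.hl).1 (hη h.1)).1, h.2⟩⟩,
      fun h => ⟨h.1, fun u hu => inE_mem h.2 hu⟩⟩
  rw [← e]
  rfl

omit [Fintype O] in
/-- An expected count is the sum of the chances of exceeding each level. -/
theorem sum_tau_levels {U S : Finset (Γ × O)} (hUS : U ⊆ S) (a : Γ × O) (Z : Finset (Γ × O))
    {N : ℕ} (hN : Z.card ≤ N) : ∑ z ∈ Z, tauIn E.nb U p a z = ∑ j ∈ range N,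
      avg (inE E.nb S) p fun η => ind (j + 1 ≤ {z | z ∈ Z ∧ FXZ.InC U a η z}.ncard) := by
  classical
  simp only [← E.avg_inC hUS, ← avg_sum]
  refine avg_congr _ _ fun η _ => ?_
  have e : {z | z ∈ Z ∧ FXZ.InC U a η z} = ((Z.filter fun z => FXZ.InC U a η z : Finset _) : Set _) := by
    ext z; simp
  rw [e, Set.ncard_coe_finset]
  simp only [ind]
  have hle : (Z.filter fun z => FXZ.InC U a η z).card ≤ N := (card_filter_le _ _).trans hN
  rw [sum_boole]
  refine Eq.trans ?_ (sum_subset (range_mono hle) fun j _ hj => if_neg fun h =>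
    hj (mem_range.2 (Nat.lt_of_succ_le h)))
  refine Eq.trans ?_ (sum_congr rfl fun j hj => (if_pos (Nat.succ_le_of_lt (mem_range.1 hj))).symm)
  simp

theorem exists_tail (hp : E.Crit p) {ε : ℝ} (hε : 0 < ε) :
    ∃ R₀ : ℕ, ∀ R, R₀ ≤ R → ∀ (m : α × Bool) (a : Γ × O), a ∈ E.above 1 [m] →
      (E.pos a).norm ≤ E.L + 1 → ∀ (Q : Finset (FreeGroup α)) (ext : FreeGroup α → α × Bool),
      (∀ x ∈ Q, [m] <+: x.toWord ∧ Red (x.toWord ++ [ext x])) →
      Set.InjOn (fun x => x.toWord ++ [ext x]) Q →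
      PrefixFree (Q.image fun x => x.toWord ++ [ext x]) →
        ∑ x ∈ Q, E.mass p (E.side a R m) a x ≤ (R : ℝ) ^ ε := by
  classical
  obtain ⟨hp0, hp1, -⟩ := id hp
  set K1 := Fintype.card O * E.Cg
  set b := K1 + 2 * E.deg with hb
  set δ : ℝ := min (1 / 2) (ε / (16 * ((b : ℝ) + 1)))
  have hδ : 0 < δ := lt_min (by norm_num) (by positivity)
  have hδ1 : δ < 1 := (min_le_left _ _).trans_lt (by norm_num)
  have hδb : 2 * (b : ℝ) * δ ≤ ε / 8 := by
    have h1 : δ ≤ ε / (16 * ((b : ℝ) + 1)) := min_le_right _ _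
    rw [le_div_iff₀ (by positivity)] at h1
    nlinarith
  obtain ⟨θ, θ', hθ, hθle, hθ'1, hratio, hbound, hnb⟩ := E.exists_exponents hp hδ hδ1
  have hθ' : 0 < θ' := hθ.trans_le hθle
  obtain ⟨C, κ, hκ, hch⟩ := E.exists_chains hp hθ hnb
  set n₀ := C + 1 with hn₀
  obtain ⟨C2, hC2, hcode⟩ := E.code_hit hp0 hp1 hθ' hθ'1 hbound (n₀ + E.L + 1)
  obtain ⟨CX, hCX, hX⟩ := E.exists_ballSum hp
  obtain ⟨B₀, hB₀, hB⟩ := E.card_cyl_le
  set q := 2 * E.deg + 1
  set a₂ := B₀ * (C * (b + 1) + 1)
  obtain ⟨RI, hRI1, hins⟩ := E.insert_step hp C hκ b (ε := ε / 8) (by linarith) (b + a₂ + q)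
  set Kc := K1 * (4 * (C * (b + 1)) + 1) ^ E.deg + 1 with hKc
  set K2 : ℝ := (max (C2 / κ) 1) ^ (1 / θ') * ((1 + 1 / δ) * ((2 : ℝ) ^ ((b : ℝ) * δ)) ^ 2) with hK2
  obtain ⟨R1, hR11, hpoly⟩ := polylog_le ((Kc : ℝ) * K2) E.deg (ε := ε / 8) (by linarith)
  obtain ⟨R2, hR21, hconst⟩ := polylog_le (CX * 2 ^ (b + a₂ + q) + 2) 0 (ε := ε / 8) (by linarith)
  refine ⟨max RI (max R1 R2), fun R hR m a ha hna Q ext hQ hinj hpf => ?_⟩
  have hRI : RI ≤ R := le_trans (le_max_left _ _) hR
  have hR1 : 1 ≤ R := hRI1.trans hRI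
  have hRr : (0 : ℝ) < R := by exact_mod_cast hR1
  set l := Nat.log 2 R + 1 with hl
  have hl1 : 1 ≤ l := Nat.le_add_left 1 _
  have hRl : R < 2 ^ l := Nat.lt_pow_succ_log_self one_lt_two R
  have h2l : 2 ^ l ≤ 2 * R := by
    rw [hl, pow_succ, mul_comm]
    exact Nat.mul_le_mul le_rfl (Nat.pow_log_le_self 2 (by omega))
  set N := 2 ^ (b * l) with hN
  set D := C * (b * l + 1)
  have hDl : D ≤ C * (b + 1) * l := by
    simp only [D]
    rw [mul_assoc]
    refine Nat.mul_le_mul le_rfl ?_
    rw [Nat.succ_mul]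
    exact add_le_add le_rfl hl1
  set U := E.side a R m
  have hU : ∀ y, y ∈ U ↔ E.len (a.1⁻¹ * y.1) ≤ R ∧ y ∈ E.above 1 [m] := fun y => by
    simp [U, side, E.mem_cyl]
  have hUR : U ⊆ E.cyl a R := fun y hy => E.mem_cyl.2 ((hU y).1 hy).1
  let fib : FreeGroup α → Finset (Γ × O) := fun x => U.filter fun y => E.pos y = x
  -- seeds of one fibre are few
  have hfibN : ∀ x, (fib x).card ≤ N := by
    intro x
    refine (card_le_card (filter_subset_filter _ hUR)).trans ((E.card_fibre a R x).trans ?_)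
    calc Fintype.card O * E.kerCount (2 * R) ≤ Fintype.card O * (E.Cg * (2 * R + 1) ^ E.deg) :=
          Nat.mul_le_mul le_rfl (E.growth _)
      _ ≤ K1 * (2 ^ (l + 1)) ^ E.deg := by
          rw [← mul_assoc]
          refine Nat.mul_le_mul le_rfl (Nat.pow_le_pow_left ?_ _)
          rw [pow_succ]; omega
      _ ≤ 2 ^ K1 * (2 ^ (l + 1)) ^ E.deg := Nat.mul_le_mul Nat.lt_two_pow_self.le le_rfl
      _ ≤ N := by
          rw [← pow_mul, ← pow_add, hN]
          refine Nat.pow_le_pow_right two_pos ?_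
          have h1 : K1 ≤ K1 * l := Nat.le_mul_of_pos_right _ hl1
          have h2 : E.deg ≤ E.deg * l := Nat.le_mul_of_pos_right _ hl1
          have h3 : (l + 1) * E.deg = E.deg * l + E.deg := by ring
          have h4 : b * l = K1 * l + 2 * (E.deg * l) := by rw [hb]; ring
          omega
  -- colours
  set c := K1 * (4 * D + 1) ^ E.deg + 1 with hc
  have hcol : ∀ x, ∃ col : Γ × O → Fin c, ∀ z ∈ fib x, ∀ z' ∈ fib x, z ≠ z' →
      E.len (z.1⁻¹ * z'.1) ≤ 2 * D → col z ≠ col z' := by
    intro x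
    refine exists_colour (fib x) (fun z z' => E.len (z.1⁻¹ * z'.1) ≤ 2 * D) (fun z z' h => ?_)
      (Nat.succ_pos _) fun z hz => Nat.lt_succ_of_le ?_
    · rw [← E.len_inv, mul_inv_rev, inv_inv]; exact h
    · refine (card_le_card (t := (E.cyl z (2 * D)).filter fun y => E.pos y = x) fun y hy => ?_).trans
        ((E.card_fibre z (2 * D) x).trans ?_)
      · obtain ⟨hy1, -, hy2⟩ := mem_filter.1 hy
        exact mem_filter.2 ⟨E.mem_cyl.2 hy2, (mem_filter.1 hy1).2⟩
      · rw [show 2 * (2 * D) = 4 * D by ring, Nat.mul_assoc]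
        exact Nat.mul_le_mul le_rfl (E.growth _)
  choose col hcol using hcol
  -- targets
  have hW : ∀ (j : ℕ) (e : α × Bool), ∃ W : Finset (List (α × Bool)), PrefixFree W ∧
      (∀ w ∈ W, Red w ∧ w.head? = some e) ∧ κ * ((j + 1 : ℕ) : ℝ) ^ θ ≤ W.card ∧
      ∀ z, ∀ w ∈ W, κ / ((j + 1 : ℕ) : ℝ) ≤
        hit E.nb (E.chainSet z e C (j + 1)) p z (E.above (E.pos z) w) := fun j e => by
    obtain ⟨W, h1, h2, h3, h4⟩ := hch (j + 1) (Nat.succ_pos j) e
    exact ⟨W, h1, fun w hw => ⟨(h2 w hw).1, (h2 w hw).2.1⟩, h3, h4⟩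
  choose W hWpf hWhead hWcard hWhit using hW
  let S : ℕ → FreeGroup α → Finset (Γ × O) := fun j x =>
    U ∪ (fib x).biUnion fun z => E.chainSet z (ext x) C (j + 1)
  let h : ℕ → FreeGroup α → List (α × Bool) → ℝ := fun j x w =>
    hit E.nb (S j x) p a (E.above x w)
  -- the code bound for all targets
  set qb : FreeGroup α := FreeGroup.mk (List.replicate n₀ (li m))
  have hqb : qb.toWord = List.replicate n₀ (li m) := toWord_mk' (red_replicate _ _)
  have hqbv : ∀ y : FreeGroup α, (qb⁻¹ * y).toWord = rel (List.replicate n₀ (li m)) y.toWord :=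
    fun y => by rw [toWord_inv_mul, hqb]
  have hside : ∀ y : FreeGroup α, ¬ List.replicate n₀ (li m) <+: y.toWord →
      [m] <+: (qb⁻¹ * y).toWord := by
    intro y hy
    have hh := head_rel_of_not_prefix hy
    rw [li_li] at hh
    rw [hqbv]
    obtain ⟨r, hr⟩ := List.head?_eq_some_iff.1 hh
    rw [hr]
    exact List.cons_prefix_cons.2 ⟨rfl, List.nil_prefix⟩
  have hheadm : ∀ y : List (α × Bool), [m] <+: y → y.head? = some m := fun y hy => by
    obtain ⟨r, rfl⟩ := hy; rfl
  have hout : ∀ y : List (α × Bool), [m] <+: y → ¬ List.replicate n₀ (li m) <+: y := by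
    intro y hy hb
    obtain ⟨r, rfl⟩ := hb
    have := hheadm _ hy
    simp only [hn₀, List.replicate_succ, List.cons_append, List.head?_cons, Option.some.injEq] at this
    exact li_ne m this
  have hsum : ∀ j, ∑ x ∈ Q, ∑ w ∈ W j (ext x), h j x w ^ θ' ≤ C2 := by
    intro j
    set word : (_ : FreeGroup α) × List (α × Bool) → List (α × Bool) := fun s =>
      List.replicate n₀ m ++ (s.1.toWord ++ s.2)
    set I := Q.sigma fun x => W j (ext x)
    have hI : ∀ s ∈ I, Red (s.1.toWord ++ s.2) ∧ [m] <+: s.1.toWord ∧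
        s.2.head? = some (ext s.1) := by
      intro s hs
      rw [mem_sigma] at hs
      obtain ⟨hs1, hs2⟩ := hs
      obtain ⟨hQ1, hQ2⟩ := hQ _ hs1
      obtain ⟨hw1, hw2⟩ := hWhead j _ _ hs2
      obtain ⟨r, hr⟩ := List.head?_eq_some_iff.1 hw2
      refine ⟨red_append.2 ⟨red_toWord _, hw1, fun u hu v hv => ?_⟩, hQ1, hw2⟩
      rw [hw2, Option.mem_def, Option.some.injEq] at hv
      subst hv
      exact (red_append.1 hQ2).2.2 u hu _ (by simp)
    have hpre : ∀ s ∈ I, ∀ s' ∈ I, word s <+: word s' → s = s' := by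
      rintro ⟨x, w⟩ hs ⟨x', w'⟩ hs' hpre
      obtain ⟨-, -, hh⟩ := hI _ hs
      obtain ⟨-, -, hh'⟩ := hI _ hs'
      rw [mem_sigma] at hs hs'
      simp only [word, List.prefix_append_right_inj] at hpre
      obtain ⟨r, hr⟩ := List.head?_eq_some_iff.1 hh
      obtain ⟨r', hr'⟩ := List.head?_eq_some_iff.1 hh'
      simp only at hr hr'
      have h1 : x.toWord ++ [ext x] <+: x'.toWord ++ w' :=
        (List.prefix_append_right_inj _ |>.2 (by rw [hr]; exact List.cons_prefix_cons.2 ⟨rfl, List.nil_prefix⟩)).trans hpre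
      have h2 : x'.toWord ++ [ext x'] <+: x'.toWord ++ w' := by
        rw [hr']
        exact (List.prefix_append_right_inj _).2 (List.cons_prefix_cons.2 ⟨rfl, List.nil_prefix⟩)
      have hx : x = x' := by
        rcases List.prefix_or_prefix_of_prefix h1 h2 with h3 | h3
        · exact hinj hs.1 hs'.1 (hpf _ (mem_image_of_mem _ hs.1) _ (mem_image_of_mem _ hs'.1) h3)
        · exact (hinj hs'.1 hs.1 (hpf _ (mem_image_of_mem _ hs'.1) _ (mem_image_of_mem _ hs.1) h3)).symm
      subst hx
      rw [hWpf j _ w hs.2 w' hs'.2 ((List.prefix_append_right_inj _).1 hpre)]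
    set inv := Function.invFunOn word (↑I : Set ((_ : FreeGroup α) × List (α × Bool)))
    have hinv : ∀ s ∈ I, inv (word s) = s := fun s hs =>
      Set.InjOn.leftInvOn_invFunOn (fun u hu v hv e => hpre u hu v hv (by rw [e])) (mem_coe.2 hs)
    have hpf' : PrefixFree (I.image word) := by
      intro u hu v hv huv
      obtain ⟨s, hs, rfl⟩ := mem_image.1 hu
      obtain ⟨s', hs', rfl⟩ := mem_image.1 hv
      rw [hpre s hs s' hs' huv]
    have hred : ∀ v ∈ I.image word, Red v ∧ v.head? = some m := by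
      intro v hv
      obtain ⟨s, hs, rfl⟩ := mem_image.1 hv
      obtain ⟨h1, h2, -⟩ := hI s hs
      have hhd : (s.1.toWord ++ s.2).head? = some m :=
        hheadm _ (h2.trans (List.prefix_append _ _))
      refine ⟨red_append.2 ⟨red_replicate _ _, h1, fun u hu v hv => ?_⟩, ?_⟩
      · rw [hhd, Option.mem_def, Option.some.injEq] at hv
        subst hv
        rw [List.getLast?_replicate, if_neg (Nat.succ_ne_zero C), Option.mem_def,
          Option.some.injEq] at hu
        subst hu
        exact (li_ne _).symm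
      · simp [word, hn₀, List.replicate_succ]
    have key := (hcode m (I.image word) hpf' hred (fun _ => qb) (fun _ => a)
      (fun v => S j (inv v).1) fun v hv => ?_).1
    · rw [sum_image fun s hs s' hs' e => hpre s hs s' hs' (by rw [e]), sum_sigma] at key
      refine le_trans (sum_le_sum fun x hx => sum_le_sum fun w hw => ?_) key
      have hmem : (⟨x, w⟩ : (_ : FreeGroup α) × List (α × Bool)) ∈ I := mem_sigma.2 ⟨hx, hw⟩
      rw [hinv _ hmem]
      refine Real.rpow_le_rpow (hit_nonneg _ hp0.le hp1 _ _) (hit_mono E.hl Subset.rfl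
        (fun y hy => ?_) hp0.le hp1 _) hθ'.le
      change word ⟨x, w⟩ <+: (qb⁻¹ * E.pos y).toWord
      change w <+: (x⁻¹ * E.pos y).toWord at hy
      obtain ⟨h1, h2, h3⟩ := hI _ hmem
      simp only at h1 h2 h3
      set u := x⁻¹ * E.pos y with hu
      have he : E.pos y = FreeGroup.mk x.toWord * u := by rw [mk_toWord, hu, mul_inv_cancel_left]
      have hred : Red (x.toWord ++ u.toWord) := red_append.2 ⟨red_toWord _, red_toWord _,
        fun s hs v hv => (red_append.1 h1).2.2 s hs v (by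
          obtain ⟨r, hr⟩ := hy
          obtain ⟨r', hr'⟩ := List.head?_eq_some_iff.1 h3
          rw [← hr, hr'] at hv
          rw [h3]
          simpa using hv)⟩
      rw [hqbv, he, toWord_append hred, rel_replicate_of_head, li_li]
      · exact (List.prefix_append_right_inj _).2 ((List.prefix_append_right_inj _).2 hy)
      · rw [hheadm _ (h2.trans (List.prefix_append _ _))]
        exact fun e => li_ne m (Option.some.inj e).symm
    · obtain ⟨s, hs, rfl⟩ := mem_image.1 hv
      rw [hinv s hs]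
      refine ⟨fun y hy => hside _ fun hb => ?_, hside _ (hout _ (E.mem_above_one.1 ha)), ?_⟩
      · rcases mem_union.1 hy with hy | hy
        · exact hout _ (E.mem_above_one.1 ((hU y).1 hy).2) hb
        · obtain ⟨z, hz, hyz⟩ := mem_biUnion.1 hy
          have hzx : E.pos z = s.1 := (mem_filter.1 hz).2
          obtain ⟨h1, h2, h3⟩ := hI s hs
          rcases (E.mem_chainSet.1 hyz).2 with hc' | hc'
          · refine hout _ ?_ hb
            set u := (E.pos z)⁻¹ * E.pos y with hu
            have he : E.pos y = FreeGroup.mk s.1.toWord * u := by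
              rw [mk_toWord, hu, hzx, mul_inv_cancel_left]
            have hred : Red (s.1.toWord ++ u.toWord) := red_append.2 ⟨red_toWord _, red_toWord _,
              fun t ht v hv => (red_append.1 h1).2.2 t ht v (by
                obtain ⟨r, hr⟩ := (hc' : [ext s.1] <+: u.toWord)
                rw [h3]
                rw [← hr] at hv
                simpa using hv)⟩
            rw [he, toWord_append hred]
            exact h2.trans (List.prefix_append _ _)
          · rw [hzx] at hc'
            have h4 := norm_ge_of_head (red_toWord s.1) (y := E.pos y) fun u hu v hv e => by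
              obtain ⟨r, hr⟩ := hb
              rw [hheadm _ h2, Option.mem_def, Option.some.injEq] at hu
              rw [← hr] at hv
              simp only [hn₀, List.replicate_succ, List.cons_append, List.head?_cons, Option.mem_def,
                Option.some.injEq] at hv
              exact li_ne m (by rw [hv, ← e, hu])
            rw [mk_toWord] at h4
            have h5 := hb.length_le
            rw [List.length_replicate] at h5
            simp only [FreeGroup.norm] at h4 hc' h5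
            omega
      · refine (FreeGroup.norm_mul_le _ _).trans ?_
        rw [FreeGroup.norm_inv_eq]
        have : qb.norm = n₀ := by rw [FreeGroup.norm, hqb, List.length_replicate]
        omega
  -- the best target of every fibre
  have hWne : ∀ j x, (W j (ext x)).Nonempty := fun j x => by
    have := hWcard j (ext x)
    have hpos : 0 < κ * ((j + 1 : ℕ) : ℝ) ^ θ := mul_pos hκ (by positivity)
    exact card_pos.1 (by exact_mod_cast hpos.trans_le this)
  choose wmin hwmem hwmin using fun j x => exists_min_image (W j (ext x)) (h j x) (hWne j x)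
  have hbest : ∀ j, ∑ x ∈ Q, h j x (wmin j x) ≤
      (max (C2 / κ) 1) ^ (1 / θ') * ((j : ℝ) + 1) ^ (δ - 1) := by
    intro j
    have hj : (0 : ℝ) < ((j + 1 : ℕ) : ℝ) := by positivity
    have hB' : ∑ x ∈ Q, h j x (wmin j x) ^ θ' ≤ max (C2 / κ) 1 * ((j + 1 : ℕ) : ℝ) ^ (-θ) := by
      rw [Real.rpow_neg hj.le, ← div_eq_mul_inv, le_div_iff₀ (Real.rpow_pos_of_pos hj θ), sum_mul]
      refine le_trans ?_ (le_max_left _ _)
      rw [le_div_iff₀ hκ, sum_mul]
      refine le_trans (sum_le_sum fun x hx => ?_) (hsum j)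
      have h0 : 0 ≤ h j x (wmin j x) := hit_nonneg _ hp0.le hp1 _ _
      refine le_trans ?_ (le_trans (le_of_eq (nsmul_eq_mul _ _).symm) (card_nsmul_le_sum _ _
        (h j x (wmin j x) ^ θ') fun w hw => Real.rpow_le_rpow h0 (hwmin j x w hw) hθ'.le))
      rw [mul_assoc, mul_comm]
      refine mul_le_mul_of_nonneg_right ?_ (Real.rpow_nonneg h0 _)
      rw [mul_comm]
      exact hWcard j (ext x)
    refine (sum_le_rpow Q hθ' hθ'1 (fun x _ => hit_nonneg _ hp0.le hp1 _ _) hB').trans ?_
    rw [Real.mul_rpow (by positivity) (by positivity), ← Real.rpow_mul hj.le]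
    refine mul_le_mul_of_nonneg_left ?_ (by positivity)
    push_cast
    refine Real.rpow_le_rpow_of_exponent_le (by linarith [(Nat.cast_nonneg j : (0 : ℝ) ≤ j)]) ?_
    rw [mul_one_div, div_le_iff₀ hθ']
    linarith
  -- one colour of one fibre
  have hlev : ∀ x ∈ Q, ∀ i : Fin c, ∀ j ∈ range N,
      avg (inE E.nb (S j x)) p (fun η => ind (j + 1 ≤
          {z | z ∈ (fib x).filter (fun z => col x z = i) ∧ FXZ.InC U a η z}.ncard))
        ≤ (R : ℝ) ^ (ε / 8) * h j x (wmin j x) + 1 / (R : ℝ) ^ (b + a₂ + q) *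
            ∑ z ∈ (fib x).filter (fun z => col x z = i), ∑ y ∈ E.cyl z D, tauIn E.nb U p a y := by
    intro x _ i j hj
    set Z := (fib x).filter fun z => col x z = i with hZ
    have hjN : j + 1 ≤ 2 ^ (b * (Nat.log 2 R + 1)) := mem_range.1 hj
    have hlog : C * (Nat.log 2 (j + 1) + 1) ≤ D := by
      refine Nat.mul_le_mul le_rfl (add_le_add ((Nat.log_mono_right hjN).trans ?_) le_rfl)
      rw [Nat.log_pow one_lt_two]
    have h1 := hins R hRI a U (S j x) subset_union_left Z (j + 1) (ext x) (E.above x (wmin j x))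
      (fun η => j + 1 ≤ {z | z ∈ Z ∧ FXZ.InC U a η z}.ncard)
      ((filter_subset _ _).trans (filter_subset _ _)) (Nat.succ_pos j) hjN
      (fun z hz z' hz' hne => by
        by_contra hle
        obtain ⟨hz1, hz2⟩ := mem_filter.1 hz
        obtain ⟨hz1', hz2'⟩ := mem_filter.1 hz'
        exact hcol x z hz1 z' hz1' hne (by omega) (hz2.trans hz2'.symm))
      (fun z hz => (subset_biUnion_of_mem (fun z => E.chainSet z (ext x) C (j + 1))
        (mem_filter.1 hz).1).trans subset_union_right)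
      (fun z hz => by
        have := hWhit j (ext x) z (wmin j x) (hwmem j x)
        rwa [(mem_filter.1 (mem_filter.1 hz).1).2] at this)
      (fun η η' hsub hle => hle.trans (Set.ncard_le_ncard (fun z hz => ⟨hz.1, hz.2.mono
        (SimpleGraph.fromEdgeSet_mono (coe_subset.2 (filter_subset_filter _ hsub)))⟩)
        (Z.finite_toSet.subset fun z hz => hz.1)))
      (fun η η' hη _ hag hle => hle.trans (Set.ncard_le_ncard
        (fun z hz => ⟨hz.1, E.inC_agree hη hag hz.2⟩) (Z.finite_toSet.subset fun z hz => hz.1)))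
      fun η _ hle => hle
    refine h1.trans (add_le_add (mul_le_mul_of_nonneg_left
      (avg_mono _ hp0.le hp1 fun η _ => ind_mono fun h => h.2) (by positivity)) ?_)
    refine mul_le_mul_of_nonneg_left (sum_le_sum fun z _ => sum_le_sum_of_subset_of_nonneg
      (E.cyl_mono z hlog) fun y _ _ => FF.tauIn_nonneg U hp0.le hp1 a y) (by positivity)
  set Err : FreeGroup α → Fin c → ℝ := fun x i =>
    ∑ z ∈ (fib x).filter (fun z => col x z = i), ∑ y ∈ E.cyl z D, tauIn E.nb U p a y
  have hmass : ∀ x ∈ Q, E.mass p U a x ≤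
      ∑ i : Fin c, ∑ j ∈ range N, ((R : ℝ) ^ (ε / 8) * h j x (wmin j x)
        + 1 / (R : ℝ) ^ (b + a₂ + q) * Err x i) := by
    intro x hx
    have e : E.mass p U a x = ∑ i : Fin c, ∑ z ∈ (fib x).filter (fun z => col x z = i),
        tauIn E.nb U p a z := (sum_fiberwise_of_maps_to (fun z _ => mem_univ _) _).symm
    rw [e]
    refine sum_le_sum fun i _ => ?_
    rw [E.sum_tau_levels (Subset.refl U) a _ (N := N)
      ((card_le_card (filter_subset _ _)).trans (hfibN x))]
    refine sum_le_sum fun j hj => le_trans (le_of_eq ?_) (hlev x hx i j hj)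
    set Z := (fib x).filter fun z => col x z = i
    have hsplit := avg_split (inE_mono E.hl (subset_union_left : U ⊆ S j x)) p
      (fun η => ind (j + 1 ≤ {z | z ∈ Z ∧ FXZ.InC U a η z}.ncard)) fun _ => (1 : ℝ)
    simp only [mul_one, avg_one] at hsplit
    rw [← hsplit]
    refine avg_congr _ _ fun η hη => ?_
    have e2 : ∀ z, FXZ.InC U a (η ∩ inE E.nb U) z ↔ FXZ.InC U a η z := fun z => by
      simp only [FXZ.InC]
      rw [show (η ∩ inE E.nb U).filter (fun e => ∀ u ∈ e, u ∈ U) = η.filter (fun e => ∀ u ∈ e, u ∈ U)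
        from by
          ext f
          simp only [mem_filter, mem_inter]
          exact ⟨fun h => ⟨h.1.1, h.2⟩, fun h => ⟨⟨h.1, (inE_iff E.hl).2
            ⟨((inE_iff E.hl).1 (hη h.1)).1, h.2⟩⟩, h.2⟩⟩]
    simp only [e2]
  refine (sum_le_sum hmass).trans ?_
  -- the errors add up to a constant
  have hErr : ∑ x ∈ Q, ∑ i : Fin c, Err x i ≤ (2 : ℝ) ^ (a₂ * l) * (CX * ((R : ℝ) + 1) ^ q) := by
    calc ∑ x ∈ Q, ∑ i : Fin c, Err x i
        = ∑ x ∈ Q, ∑ z ∈ fib x, ∑ y ∈ E.cyl z D, tauIn E.nb U p a y :=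
          sum_congr rfl fun x _ => sum_fiberwise_of_maps_to (fun z _ => mem_univ _) _
      _ ≤ ∑ z ∈ U, ∑ y ∈ E.cyl z D, tauIn E.nb U p a y :=
          sum_fiberwise_le_sum_of_sum_fiber_nonneg fun x _ => sum_nonneg fun z _ =>
            sum_nonneg fun y _ => FF.tauIn_nonneg U hp0.le hp1 a y
      _ = ∑ z ∈ U, ∑ y ∈ U.filter (fun y => y ∈ E.cyl z D), tauIn E.nb U p a y := by
          refine sum_congr rfl fun z _ => (sum_subset (fun y hy => (mem_filter.1 hy).2)
            fun y hy hy' => ?_).symm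
          have hyU : y ∉ U := fun h => hy' (mem_filter.2 ⟨h, hy⟩)
          have haU : a ∈ U := (hU a).2 ⟨by simp [E.len_one], ha⟩
          exact FF.tauIn_eq_zero (fun e => hyU (by rw [← e]; exact haU)) (Or.inr hyU) p
      _ = ∑ y ∈ U, ((U.filter fun z => y ∈ E.cyl z D).card : ℝ) * tauIn E.nb U p a y := by
          rw [sum_comm' (t' := U) (s' := fun y => U.filter fun z => y ∈ E.cyl z D) (fun z y => by
            simp only [mem_filter]; tauto)]
          exact sum_congr rfl fun y _ => by rw [sum_const, nsmul_eq_mul]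
      _ ≤ ∑ y ∈ U, (2 : ℝ) ^ (a₂ * l) * tauIn E.nb U p a y := by
          refine sum_le_sum fun y _ => mul_le_mul_of_nonneg_right ?_
            (FF.tauIn_nonneg U hp0.le hp1 a y)
          have h1 : (U.filter fun z => y ∈ E.cyl z D).card ≤ 2 ^ (a₂ * l) := by
            refine (card_le_card fun z hz => E.mem_cyl_symm (mem_filter.1 hz).2).trans
              ((hB y D).trans ((Nat.pow_le_pow_left Nat.lt_two_pow_self.le _).trans ?_))
            rw [← pow_mul]
            refine Nat.pow_le_pow_right two_pos ?_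
            simp only [a₂]
            rw [mul_assoc B₀]
            refine Nat.mul_le_mul le_rfl ?_
            rw [add_mul, one_mul]
            exact add_le_add hDl hl1
          exact_mod_cast h1
      _ ≤ _ := by
          rw [← mul_sum]
          refine mul_le_mul_of_nonneg_left (le_trans ?_ (hX R a)) (by positivity)
          exact (sum_le_sum fun y _ => FF.tauIn_mono E.hl hUR hp0.le hp1 a y).trans
            (sum_le_sum_of_subset_of_nonneg hUR fun y _ _ => FF.tauIn_nonneg _ hp0.le hp1 a y)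
  have h2lr : (2 : ℝ) ^ l ≤ 2 * R := by exact_mod_cast h2l
  have hRlr : (R : ℝ) + 1 ≤ 2 ^ l := by exact_mod_cast hRl
  calc ∑ x ∈ Q, ∑ i : Fin c, ∑ j ∈ range N, ((R : ℝ) ^ (ε / 8) * h j x (wmin j x)
        + 1 / (R : ℝ) ^ (b + a₂ + q) * Err x i)
      = (c : ℝ) * ((R : ℝ) ^ (ε / 8) * ∑ j ∈ range N, ∑ x ∈ Q, h j x (wmin j x))
        + (N : ℝ) * (1 / (R : ℝ) ^ (b + a₂ + q)) * ∑ x ∈ Q, ∑ i : Fin c, Err x i := by
        simp only [sum_add_distrib, sum_const, card_range, card_univ, Fintype.card_fin,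
          nsmul_eq_mul, ← mul_sum]
        rw [sum_comm (s := Q) (t := range N)]
        ring
    _ ≤ (R : ℝ) ^ (ε / 8) * ((R : ℝ) ^ (ε / 8) * (R : ℝ) ^ (ε / 8)) + (R : ℝ) ^ (ε / 8) := by
        refine add_le_add ?_ ?_
        · have hc' : (c : ℝ) ≤ (Kc : ℝ) * ((Nat.log 2 R : ℝ) + 1) ^ E.deg := by
            have hc2 : c ≤ Kc * l ^ E.deg := by
              have hd : (4 * D + 1) ^ E.deg ≤ (4 * (C * (b + 1)) + 1) ^ E.deg * l ^ E.deg := by
                rw [← mul_pow]
                refine Nat.pow_le_pow_left ?_ _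
                exact le_trans (add_le_add (Nat.mul_le_mul le_rfl hDl) hl1) (le_of_eq (by ring))
              calc c ≤ K1 * ((4 * (C * (b + 1)) + 1) ^ E.deg * l ^ E.deg) + l ^ E.deg :=
                    add_le_add (Nat.mul_le_mul le_rfl hd) (Nat.one_le_pow _ _ hl1)
                _ = Kc * l ^ E.deg := by rw [hKc]; ring
            calc (c : ℝ) ≤ ((Kc * l ^ E.deg : ℕ) : ℝ) := by exact_mod_cast hc2
              _ = _ := by simp only [hl]; push_cast; ring
          have hsj : ∑ j ∈ range N, ∑ x ∈ Q, h j x (wmin j x) ≤ K2 * (R : ℝ) ^ (ε / 8) := by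
            refine (sum_le_sum fun j _ => hbest j).trans ?_
            rw [← mul_sum, hK2, mul_assoc]
            refine mul_le_mul_of_nonneg_left ((sum_rpow_le N hδ).trans ?_) (by positivity)
            rw [mul_assoc]
            refine mul_le_mul_of_nonneg_left ?_ (by positivity)
            have hNR : (N : ℝ) ≤ (2 : ℝ) ^ b * (R : ℝ) ^ b := by
              rw [hN, ← mul_pow, mul_comm b l, pow_mul]
              push_cast
              exact pow_le_pow_left₀ (by positivity) h2lr b
            calc ((N : ℝ) ^ δ) ^ 2 ≤ (((2 : ℝ) ^ b * (R : ℝ) ^ b) ^ δ) ^ 2 := by gcongr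
              _ = ((2 : ℝ) ^ ((b : ℝ) * δ)) ^ 2 * ((R : ℝ) ^ ((b : ℝ) * δ)) ^ 2 := by
                  rw [Real.mul_rpow (by positivity) (by positivity), ← Real.rpow_natCast 2 b,
                    ← Real.rpow_natCast (R : ℝ) b, ← Real.rpow_mul (by norm_num),
                    ← Real.rpow_mul hRr.le, mul_pow]
              _ ≤ _ := by
                  refine mul_le_mul_of_nonneg_left ?_ (by positivity)
                  rw [← Real.rpow_natCast _ 2, ← Real.rpow_mul hRr.le]
                  refine Real.rpow_le_rpow_of_exponent_le (by exact_mod_cast hR1) ?_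
                  push_cast
                  linarith
          calc (c : ℝ) * ((R : ℝ) ^ (ε / 8) * ∑ j ∈ range N, ∑ x ∈ Q, h j x (wmin j x))
              ≤ (Kc : ℝ) * ((Nat.log 2 R : ℝ) + 1) ^ E.deg *
                  ((R : ℝ) ^ (ε / 8) * (K2 * (R : ℝ) ^ (ε / 8))) :=
                mul_le_mul hc' (mul_le_mul_of_nonneg_left hsj (by positivity))
                  (mul_nonneg (by positivity) (sum_nonneg fun j _ => sum_nonneg fun x _ =>
                    hit_nonneg _ hp0.le hp1 _ _)) (by positivity)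
            _ = (Kc : ℝ) * K2 * ((Nat.log 2 R : ℝ) + 1) ^ E.deg *
                  ((R : ℝ) ^ (ε / 8) * (R : ℝ) ^ (ε / 8)) := by ring
            _ ≤ _ := mul_le_mul_of_nonneg_right
                (hpoly R (le_trans (le_trans (le_max_left _ _) (le_max_right _ _)) hR)) (by positivity)
        · refine le_trans ?_ (hconst R (le_trans (le_trans (le_max_right _ _) (le_max_right _ _)) hR))
          rw [pow_zero, mul_one]
          refine le_trans ?_ (le_add_of_nonneg_right (by norm_num : (0 : ℝ) ≤ 2))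
          refine (mul_le_mul_of_nonneg_left hErr (by positivity)).trans ?_
          rw [mul_one_div, div_mul_eq_mul_div, div_le_iff₀ (by positivity)]
          calc (N : ℝ) * ((2 : ℝ) ^ (a₂ * l) * (CX * ((R : ℝ) + 1) ^ q))
              ≤ ((2 : ℝ) ^ l) ^ b * (((2 : ℝ) ^ l) ^ a₂ * (CX * ((2 : ℝ) ^ l) ^ q)) := by
                rw [← pow_mul, ← pow_mul, hN, mul_comm l b, mul_comm l a₂]
                push_cast
                gcongr
            _ = CX * ((2 : ℝ) ^ l) ^ (b + a₂ + q) := by ring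
            _ ≤ CX * (2 * (R : ℝ)) ^ (b + a₂ + q) := by gcongr
            _ = _ := by ring
    _ ≤ (R : ℝ) ^ ε := by
        have hRge : (1 : ℝ) ≤ R := by exact_mod_cast hR1
        have h2 : (2 : ℝ) ≤ (R : ℝ) ^ (ε / 8) := by
          refine le_trans ?_ (hconst R (le_trans (le_trans (le_max_right _ _) (le_max_right _ _)) hR))
          rw [pow_zero, mul_one]
          exact le_add_of_nonneg_left (by positivity)
        set u := (R : ℝ) ^ (ε / 8)
        have hu : (R : ℝ) ^ ε = u ^ 8 := by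
          rw [← Real.rpow_natCast, ← Real.rpow_mul hRr.le]; congr 1; push_cast; ring
        rw [hu]
        nlinarith [pow_le_pow_right₀ (show (1 : ℝ) ≤ u by linarith) (show 3 ≤ 7 by norm_num),
          pow_le_pow_right₀ (show (1 : ℝ) ≤ u by linarith) (show 1 ≤ 7 by norm_num), pow_succ u 7,
          mul_le_mul_of_nonneg_left h2 (pow_nonneg (show (0:ℝ) ≤ u by linarith) 7)]

end Env

end Vale.Agent.P165.FP
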