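import Vale.Agent.P165.FP.Codes
import Vale.Agent.P165.FP.Recursion
import Vale.Agent.P165.FP.EnvOf
import Vale.Agent.P165.FF.Main
import Vale.Agent.P165.FF.Transport
import Vale.Agent.P165.FF.Unique
import Vale.Agent.P165.SG.Classes
import Vale.Agent.P165.TL.Main

/-!
# Nonuniqueness from small exit kernels at the critical parameters

The code bound holds below the last parameter with an exit certificate, hence at it, so there the
exit kernel of some ball is small. This persists slightly above, where percolation occurs and the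
connection probabilities are square summable.
-/

namespace Vale.Agent.P165.FP

open Finset MeasureTheory ProbabilityTheory FF

variable {Γ O ι α : Type} [Group Γ] [Fintype ι] [DecidableEq α] [Fintype α] [Fintype O]
  [DecidableEq Γ] [DecidableEq O]

/-- Small exit kernels at the parameters with the code bound give a nonuniqueness phase. -/
theorem pc_lt_pu_of_small (E : Env Γ O ι α)
    (hsmall : ∀ p : ℝ, E.Crit p → ∃ n, E.ExitSmall n p (1 / 4)) : pc E.G < pu E.G := by
  classical
  have : Nonempty α := E.nonempty_alpha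
  have : Infinite (FreeGroup α) := inferInstance
  have : Infinite Γ := Infinite.of_surjective _ E.surj
  have : Nonempty O := ⟨E.o₁⟩
  have hinf : Infinite (Γ × O) := Prod.infinite_of_left
  have : Countable (Γ × O) := countable_of_connected E.hl.listing E.conn
  set p0 : ℝ := 1 / ((Fintype.card ι : ℝ) + 1) with hp0
  have hp0pos : 0 < p0 := by positivity
  have hp01 : p0 ≤ 1 := by
    rw [hp0, div_le_one (by positivity)]; linarith [Nat.cast_nonneg (α := ℝ) (Fintype.card ι)]
  set W : Set ℝ := {p | 0 ≤ p ∧ p ≤ 1 ∧ Witness E.nb p}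
  set ps : ℝ := sSup W
  have hbdd : BddAbove W := ⟨1, fun p hp => hp.2.1⟩
  have hmem0 : p0 ∈ W := by
    refine ⟨hp0pos.le, hp01, witness_small hp0pos.le hp01 ?_⟩
    rw [hp0, div_mul_eq_mul_div, one_mul, div_lt_one (by positivity)]
    linarith
  have hp0ps : p0 ≤ ps := le_csSup hbdd hmem0
  have hps1 : ps ≤ 1 := csSup_le ⟨p0, hmem0⟩ fun p hp => hp.2.1
  have hcrit : E.Crit ps := by
    refine ⟨hp0pos.trans_le hp0ps, hps1, ?_⟩
    rcases hp0ps.lt_or_eq with hlt | heq
    · have hmem : ps ∈ closure (Set.Ico p0 ps) := by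
        rw [closure_Ico hlt.ne]; exact Set.right_mem_Icc.2 hlt.le
      refine closure_minimal (fun p hp => ?_) E.isClosed_bound hmem
      obtain ⟨q, hq, hpq⟩ := exists_lt_of_lt_csSup ⟨p0, hmem0⟩ hp.2
      exact (E.crit_of_witness (hp0pos.trans_le hp.1) (hpq.le.trans hq.2.1)
        (witness_mono (hp0pos.le.trans hp.1) hpq.le hq.2.1 hq.2.2)).2.2
    · rw [← heq]; exact (E.crit_of_witness hp0pos hp01 hmem0.2.2).2.2
  obtain ⟨n, hn⟩ := hsmall ps hcrit
  have hps0 : 0 < ps := hp0pos.trans_le hp0ps
  have hps_lt : ps < 1 := by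
    refine lt_of_le_of_ne hps1 fun h => ?_
    rw [h] at hn
    obtain ⟨K, hK⟩ := E.square_summable (p := 1) zero_le_one le_rfl (n := n) fun F f hf =>
      (hn F f hf).trans (mul_le_mul_of_nonneg_right (by norm_num)
        (sum_nonneg fun _ _ => sq_nonneg _))
    obtain ⟨N, hN⟩ := exists_nat_gt K
    obtain ⟨F, hF⟩ := Infinite.exists_subset_card_eq (Γ × O) N
    obtain ⟨x⟩ := E.conn.nonempty
    choose S hS using fun y => T_one E.hl E.conn x y
    have hbig : ∀ y ∈ F, tauIn E.nb (F.biUnion S) 1 x y = 1 := fun y hy =>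
      le_antisymm (tauIn_le_one _ zero_le_one le_rfl x y)
        ((hS y).ge.trans (tauIn_mono E.hl (subset_biUnion_of_mem S hy) zero_le_one le_rfl x y))
    have h2 := hK x (F.biUnion S) F
    rw [sum_congr rfl fun y hy => by rw [hbig y hy, one_pow], sum_const, hF, nsmul_eq_mul,
      mul_one] at h2
    linarith
  obtain ⟨ε, hε, hεb⟩ := Metric.eventually_nhds_iff.1
    (E.exitSmall_eventually hn (show (1 : ℝ) / 4 < 1 / 2 by norm_num))
  set p2 : ℝ := ps + min (ε / 2) ((1 - ps) / 2) with hp2
  have hmin : 0 < min (ε / 2) ((1 - ps) / 2) := lt_min (by linarith) (by linarith)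
  have hp2ps : ps < p2 := by linarith
  have hp21 : p2 < 1 := by
    have := min_le_right (ε / 2) ((1 - ps) / 2); linarith
  have hn2 : E.ExitSmall n p2 (1 / 2) := by
    refine hεb ?_
    rw [Real.dist_eq, hp2, add_sub_cancel_left, abs_of_pos hmin]
    have := min_le_left (ε / 2) ((1 - ps) / 2); linarith
  obtain ⟨K, hK⟩ := E.square_summable (p := p2) (by linarith) hp21.le hn2
  set q : unitInterval := ⟨(ps + p2) / 2, by constructor <;> linarith⟩ with hq
  have hqv : (q : ℝ) = (ps + p2) / 2 := rfl
  set p3 : ℝ := (ps + (q : ℝ)) / 2 with hp3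
  have hnw : ¬ Witness E.nb p3 := fun hw => by
    have : p3 ≤ ps := le_csSup hbdd ⟨by linarith, by linarith, hw⟩
    linarith
  simp only [Witness, not_forall, not_exists, not_and, not_lt] at hnw
  obtain ⟨o, ho⟩ := hnw
  have hperc : 0 < perc E.G q (hasInfinite E.G) := by
    refine lt_of_lt_of_le (infAt_pos_of_phi E.hl ((1 : Γ), o) q (p₀ := p3) (by linarith)
      (by linarith) (by linarith) fun p hp T hT =>
        (ho T hT).trans (phiIn_mono (by linarith) hp.1 (hp.2.trans q.2.2) T _)) ?_
    exact measure_mono (by rw [hasInfinite_eq]; exact Set.subset_iUnion (infAt E.G) _)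
  refine pc_lt_pu E.G q p2 (by linarith) hperc (perc_one_unique E.conn) fun q' hq' => ?_
  refine not_unique_of_sq E.hl E.conn (quasiTransitive_of_inv E.hinv) q' K fun x S F => ?_
  refine le_trans (sum_le_sum fun y _ => ?_) (hK x S F)
  exact pow_le_pow_left₀ (tauIn_nonneg S q'.2.1 q'.2.2 x y)
    (tauIn_mono_p S q'.2.1 hq'.le hp21.le x y) 2


/-- A group with such a quotient has a nonuniqueness phase, given small exit kernels. -/
theorem nonuniquePhase_of_small
    (hsmall : ∀ {Γ O ι α : Type} [Group Γ] [Fintype ι] [DecidableEq α] [Fintype α] [Fintype O]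
      [DecidableEq Γ] [DecidableEq O] (E : Env Γ O ι α) (p : ℝ), E.Crit p →
        ∃ n, E.ExitSmall n p (1 / 4))
    {Γ α : Type} [Group Γ] [Fintype α] [DecidableEq α] (hr : 2 ≤ Fintype.card α)
    (π : Γ →* FreeGroup α) (hπ : Function.Surjective π) (hpoly : PolyKernel π) :
    SG.NonuniquePhase Γ := by
  classical
  have key : ∀ (V : Type) (G : SimpleGraph V) (d : ℕ), G.Connected →
      (∀ v, (G.neighborSet v).encard = d) → ∀ (Φ : Γ →* (G ≃g G)),
      (∀ g v, Φ g v = v → g = 1) → ∀ R : Finset V, (∀ v, ∃ g, Φ g v ∈ R) → pc G < pu G := by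
    intro V G d hc hd Φ free R cover
    obtain ⟨O, hO, hO', G', hinv, ⟨φ⟩⟩ := exists_chart G Φ free R cover
    have hc' : G'.Connected := φ.connected_iff.1 hc
    have hd' : ∀ x, (G'.neighborSet x).encard = d := fun x => by
      obtain ⟨v, rfl⟩ := φ.surjective x
      rw [← hd v]
      exact (ENat.card_congr (φ.mapNeighborSet v)).symm
    obtain ⟨nb, hl⟩ := exists_labelling G' d hd'
    have : Nonempty O := ⟨(hc'.nonempty.some).2⟩
    rw [pc_congr φ, pu_congr φ]
    obtain ⟨E, rfl⟩ := exists_env (nb := nb) hl hinv hc' hr π hπ hpoly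
    exact pc_lt_pu_of_small E (hsmall E)
  refine ⟨key, fun Δ _ s hfin hgen ψ hψ hidx => ?_⟩
  obtain ⟨hconn, d, hd⟩ := TL.connected_regular_mulCayley s hfin hgen
  obtain ⟨Φ, R, free, cover⟩ := exists_leftAction (SimpleGraph.mulCayley s)
    (fun _ _ _ => SimpleGraph.mulCayley_adj_mul_iff_right) ψ hψ hidx
  exact key _ _ d hconn hd Φ free R cover

end Vale.Agent.P165.FP
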